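import Crest.Agent.R65.CANum

/-! Row 65, commutative algebra module: linear algebra of Hilbert functions and ranks. -/

set_option autoImplicit false

namespace Crest.Agent.R65.CA

open MvPolynomial

variable {σ : Type} [Fintype σ] {L : Type} [Field L]

omit [Fintype σ] in
/-- rank-nullity for the image of a finite-dimensional subspace -/
theorem cab1_rank_nullity {M V : Type} [AddCommGroup M] [Module L M] [AddCommGroup V] [Module L V]
    (W : Submodule L M) [FiniteDimensional L W] (φ : M →ₗ[L] V) :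
    Module.finrank L (W.map φ) + Module.finrank L (W ⊓ LinearMap.ker φ : Submodule L M) =
      Module.finrank L W := by
  have h1 := LinearMap.finrank_range_add_finrank_ker (φ.domRestrict W)
  rw [LinearMap.range_domRestrict] at h1
  have h2 : LinearMap.ker (φ.domRestrict W) = (W ⊓ LinearMap.ker φ).comap W.subtype := by
    ext x
    simp [LinearMap.mem_ker]
  rw [h2, (Submodule.comapSubtypeEquivOfLe (inf_le_left : W ⊓ LinearMap.ker φ ≤ W)).finrank_eq]
    at h1
  exact h1

omit [Fintype σ] in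
theorem cab1_mem_ker {I : Ideal (MvPolynomial σ L)} {f : MvPolynomial σ L} :
    f ∈ LinearMap.ker (Ideal.Quotient.mkₐ L I).toLinearMap ↔ f ∈ I := by
  rw [LinearMap.mem_ker]
  exact Ideal.Quotient.eq_zero_iff_mem

theorem Hf_bot (T : ℕ) :
    Hf (⊥ : Ideal (MvPolynomial σ L)) T = (T + Fintype.card σ).choose (Fintype.card σ) := by
  have h1 := cab1_rank_nullity (restrictTotalDegree σ L T)
    (Ideal.Quotient.mkₐ L (⊥ : Ideal (MvPolynomial σ L))).toLinearMap
  have h2 : (restrictTotalDegree σ L T ⊓ LinearMap.ker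
      (Ideal.Quotient.mkₐ L (⊥ : Ideal (MvPolynomial σ L))).toLinearMap) = ⊥ := by
    refine (Submodule.eq_bot_iff _).2 (fun f hf => ?_)
    exact Ideal.mem_bot.1 (cab1_mem_ker.1 hf.2)
  rw [h2, finrank_bot, add_zero, finrank_restrict] at h1
  exact h1

theorem Hf_mono (I : Ideal (MvPolynomial σ L)) {T T' : ℕ} (h : T ≤ T') : Hf I T ≤ Hf I T' := by
  refine Submodule.finrank_mono (Submodule.map_mono (fun f hf => ?_))
  rw [mem_restrictTotalDegree] at hf ⊢
  exact hf.trans h

theorem Hf_pos {I : Ideal (MvPolynomial σ L)} (hI : I ≠ ⊤) (T : ℕ) : 0 < Hf I T := by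
  refine Nat.pos_of_ne_zero (fun h0 => hI ?_)
  have h1 : (restrictTotalDegree σ L T).map (Ideal.Quotient.mkₐ L I).toLinearMap = ⊥ :=
    Submodule.finrank_eq_zero.1 h0
  have h2 : (1 : MvPolynomial σ L) ∈ restrictTotalDegree σ L T := by
    rw [mem_restrictTotalDegree, totalDegree_one]
    exact Nat.zero_le _
  have h3 := Submodule.mem_map_of_mem (f := (Ideal.Quotient.mkₐ L I).toLinearMap) h2
  rw [h1, Submodule.mem_bot] at h3
  exact (Ideal.eq_top_iff_one I).2 (cab1_mem_ker.1 h3)

/-- a linear map killing `I_{≤ T}` has rank at most `Hf I T` on `A_{≤ T}` -/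
theorem finrank_map_le_Hf {V : Type} [AddCommGroup V] [Module L V] (ψ : MvPolynomial σ L →ₗ[L] V)
    (I : Ideal (MvPolynomial σ L)) (T : ℕ) (h : ∀ f ∈ I, f.totalDegree ≤ T → ψ f = 0) :
    Module.finrank L ((restrictTotalDegree σ L T).map ψ) ≤ Hf I T := by
  have h1 := cab1_rank_nullity (restrictTotalDegree σ L T) ψ
  have h2 := cab1_rank_nullity (restrictTotalDegree σ L T) (Ideal.Quotient.mkₐ L I).toLinearMap
  have h3 : (restrictTotalDegree σ L T ⊓ LinearMap.ker (Ideal.Quotient.mkₐ L I).toLinearMap) ≤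
      restrictTotalDegree σ L T ⊓ LinearMap.ker ψ := fun f hf =>
    ⟨hf.1, h f (cab1_mem_ker.1 hf.2) ((mem_restrictTotalDegree _ _ _).1 hf.1)⟩
  have : FiniteDimensional L
      (restrictTotalDegree σ L T ⊓ LinearMap.ker ψ : Submodule L (MvPolynomial σ L)) :=
    Submodule.finiteDimensional_of_le inf_le_left
  have h4 := Submodule.finrank_mono h3
  unfold Hf
  omega

theorem Hf_anti {I J : Ideal (MvPolynomial σ L)} (T : ℕ)
    (h : ∀ f ∈ I, f.totalDegree ≤ T → f ∈ J) : Hf J T ≤ Hf I T := by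
  exact finrank_map_le_Hf (Ideal.Quotient.mkₐ L J).toLinearMap I T
    (fun f hf hT => cab1_mem_ker.2 (h f hf hT))

/-- multiplication by `g ∉ p` embeds `A_{≤ T - a} / p` into the kernel of
`A_{≤ T} / p → A_{≤ T} / (p, g)` -/
theorem Hf_sup_add {p : Ideal (MvPolynomial σ L)} (hp : p.IsPrime) {g : MvPolynomial σ L}
    (hg : g ∉ p) {a T : ℕ} (ha : g.totalDegree ≤ a) (hT : a ≤ T) :
    Hf (p ⊔ Ideal.span {g}) T + Hf p (T - a) ≤ Hf p T := by
  have := hp
  set M := (restrictTotalDegree σ L T).map (Ideal.Quotient.mkₐ L p).toLinearMap with hM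
  set q : (MvPolynomial σ L ⧸ p) →ₗ[L] (MvPolynomial σ L ⧸ (p ⊔ Ideal.span {g})) :=
    (Ideal.Quotient.factorₐ L (le_sup_left : p ≤ p ⊔ Ideal.span {g})).toLinearMap with hq
  have h1 := cab1_rank_nullity M q
  have h2 : M.map q =
      (restrictTotalDegree σ L T).map (Ideal.Quotient.mkₐ L (p ⊔ Ideal.span {g})).toLinearMap := by
    rw [hM, ← Submodule.map_comp]
    rfl
  have hg0 : Ideal.Quotient.mk p g ≠ 0 := fun h0 => hg (Ideal.Quotient.eq_zero_iff_mem.1 h0)
  set μ : (MvPolynomial σ L ⧸ p) →ₗ[L] (MvPolynomial σ L ⧸ p) :=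
    LinearMap.mulLeft L (Ideal.Quotient.mk p g) with hμ
  have hinj : Function.Injective μ := mul_right_injective₀ hg0
  have h3 : ((restrictTotalDegree σ L (T - a)).map (Ideal.Quotient.mkₐ L p).toLinearMap).map μ ≤
      M ⊓ LinearMap.ker q := by
    rintro _ ⟨_, ⟨f, hf, rfl⟩, rfl⟩
    have e : μ ((Ideal.Quotient.mkₐ L p).toLinearMap f) = Ideal.Quotient.mk p (g * f) := by
      rw [map_mul]
      rfl
    rw [e]
    refine ⟨⟨g * f, ?_, rfl⟩, ?_⟩
    · have hf' := (mem_restrictTotalDegree _ _ _).1 hf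
      refine (mem_restrictTotalDegree _ _ _).2 ((totalDegree_mul g f).trans ?_)
      omega
    · show Ideal.Quotient.mk (p ⊔ Ideal.span {g}) (g * f) = 0
      exact Ideal.Quotient.eq_zero_iff_mem.2
        (Ideal.mem_sup_right (Ideal.mul_mem_right _ _ (Ideal.mem_span_singleton_self g)))
  have : FiniteDimensional L (M ⊓ LinearMap.ker q : Submodule L (MvPolynomial σ L ⧸ p)) :=
    Submodule.finiteDimensional_of_le inf_le_left
  have h4 := Submodule.finrank_mono h3
  rw [← (Submodule.equivMapOfInjective μ hinj _).finrank_eq] at h4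
  rw [h2] at h1
  unfold Hf
  rw [← hM]
  omega

/-- a small Hilbert function forces a nonzero element of small degree -/
theorem exists_mem_of_Hf_lt {I : Ideal (MvPolynomial σ L)} {T : ℕ}
    (h : Hf I T < (T + Fintype.card σ).choose (Fintype.card σ)) :
    ∃ F ∈ I, F ≠ 0 ∧ F.totalDegree ≤ T := by
  by_contra hc
  push Not at hc
  have h1 := Hf_anti (I := I) (J := ⊥) T (fun f hf hT => by
    by_contra h0
    exact absurd hT (not_le.2 (hc f hf (fun h1 => h0 (Ideal.mem_bot.2 h1)))))
  rw [Hf_bot] at h1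
  omega

theorem rk_aux_le {A V V' : Type} [AddCommGroup A] [Module L A] [AddCommGroup V] [Module L V]
    [AddCommGroup V'] [Module L V'] (W : Submodule L A) [FiniteDimensional L W] (f : A →ₗ[L] V)
    (g : A →ₗ[L] V') (h : ∀ a ∈ W, f a = 0 → g a = 0) :
    Module.finrank L (W.map g) ≤ Module.finrank L (W.map f) := by
  have h1 := LinearMap.finrank_range_add_finrank_ker (f.domRestrict W)
  have h2 := LinearMap.finrank_range_add_finrank_ker (g.domRestrict W)
  have h3 : LinearMap.ker (f.domRestrict W) ≤ LinearMap.ker (g.domRestrict W) :=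
    fun a ha => h a a.2 ha
  have h4 := Submodule.finrank_mono h3
  rw [LinearMap.range_domRestrict] at h1 h2
  omega

omit [Fintype σ] in
theorem rk_empty (W : Submodule L (MvPolynomial σ L)) : rk W ∅ = 0 := by
  rw [rk, Subsingleton.elim (W.map (evalOn ∅)) ⊥, finrank_bot]

omit [Fintype σ] in
theorem rk_mono (W : Submodule L (MvPolynomial σ L)) [FiniteDimensional L W] {S S' : Set (σ → L)}
    (h : S ⊆ S') : rk W S ≤ rk W S' := by
  refine rk_aux_le W _ _ fun a _ ha => funext fun y => ?_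
  have := congrFun ha ⟨y, h y.2⟩
  rwa [evalOn_apply] at this ⊢

omit [Fintype σ] in
theorem rk_union (W : Submodule L (MvPolynomial σ L)) [FiniteDimensional L W]
    (S S' : Set (σ → L)) : rk W (S ∪ S') ≤ rk W S + rk W S' := by
  have h1 := rk_aux_le W ((evalOn S).prod (evalOn S')) (evalOn (S ∪ S')) fun a _ ha =>
    funext fun y => by
      rcases y.2 with hy | hy
      · have := congrFun (congrArg Prod.fst ha) ⟨y, hy⟩
        rw [evalOn_apply]
        exact (evalOn_apply S a ⟨y, hy⟩).symm.trans this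
      · have := congrFun (congrArg Prod.snd ha) ⟨y, hy⟩
        rw [evalOn_apply]
        exact (evalOn_apply S' a ⟨y, hy⟩).symm.trans this
  have h2 : W.map ((evalOn S).prod (evalOn S')) ≤ (W.map (evalOn S)).map (LinearMap.inl L _ _) ⊔
      (W.map (evalOn S')).map (LinearMap.inr L _ _) := by
    rintro _ ⟨a, ha, rfl⟩
    exact Submodule.mem_sup.2 ⟨_, ⟨_, ⟨a, ha, rfl⟩, rfl⟩, _, ⟨_, ⟨a, ha, rfl⟩, rfl⟩, by simp⟩
  exact h1.trans ((Submodule.finrank_mono h2).trans
    ((Submodule.finrank_add_le_finrank_add_finrank _ _).trans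
      (add_le_add (Submodule.finrank_map_le _ _) (Submodule.finrank_map_le _ _))))

omit [Fintype σ] in
theorem rk_ZV_le (W : Submodule L (MvPolynomial σ L)) [FiniteDimensional L W] (Y : Set (σ → L))
    (p : Ideal (MvPolynomial σ L)) :
    rk W (ZV Y p) ≤ Module.finrank L (W.map (Ideal.Quotient.mkₐ L p).toLinearMap) := by
  refine rk_aux_le W _ _ fun a _ ha => funext fun y => ?_
  rw [evalOn_apply]
  exact y.2.2 a (Ideal.Quotient.eq_zero_iff_mem.1 ha)

/-- the Hilbert function of the ideal of a set of points is the rank -/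
theorem Hf_vanishing (S : Set (σ → L)) (T : ℕ) :
    Hf (⨅ y ∈ S, mI y) T = rk (restrictTotalDegree σ L T) S := by
  have key : ∀ a : MvPolynomial σ L, (Ideal.Quotient.mkₐ L (⨅ y ∈ S, mI y)).toLinearMap a = 0 ↔
      evalOn S a = 0 := fun a => by
    refine Ideal.Quotient.eq_zero_iff_mem.trans ?_
    simp [mem_mI, funext_iff, evalOn_apply]
  exact le_antisymm (rk_aux_le _ _ _ fun a _ ha => (key a).2 ha)
    (rk_aux_le _ _ _ fun a _ ha => (key a).1 ha)

omit [Fintype σ] in
/-- finite subadditivity -/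
theorem sub_cover {α β : Type} (ρ : Set α → ℕ) (h0 : ρ ∅ = 0)
    (hm : ∀ S S', S ⊆ S' → ρ S ≤ ρ S') (hu : ∀ S S', ρ (S ∪ S') ≤ ρ S + ρ S')
    (F : Finset β) (U : β → Set α) {S : Set α} (hS : ∀ y ∈ S, ∃ b ∈ F, y ∈ U b) :
    ρ S ≤ ∑ b ∈ F, ρ (U b) := by
  classical
  induction F using Finset.induction_on generalizing S with
  | empty =>
    rw [show S = ∅ from Set.eq_empty_of_forall_notMem fun y hy => by simpa using hS y hy, h0]
    exact Nat.zero_le _
  | insert b F hb ih =>
    rw [Finset.sum_insert hb]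
    refine (hm S (U b ∪ (S \ U b)) (by simp)).trans ((hu _ _).trans (Nat.add_le_add_left (ih ?_) _))
    intro y hy
    obtain ⟨c, hc, hy'⟩ := hS y hy.1
    rcases Finset.mem_insert.1 hc with rfl | hc
    · exact absurd hy' hy.2
    · exact ⟨c, hc, hy'⟩

end Crest.Agent.R65.CA
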