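import Crest.Agent.R65.CAUB

/-! Row 65, commutative algebra module: budgets. -/

set_option autoImplicit false

namespace Crest.Agent.R65.CA

open MvPolynomial

variable {σ : Type} [Fintype σ] {L : Type} [Field L] [CharZero L]

theorem bud1_fat (P : Finset (Ideal (MvPolynomial σ L))) {G : Set (MvPolynomial σ L)} {t : ℕ}
    (ht : 1 ≤ t) (hG : ∀ g ∈ G, g.totalDegree ≤ t) {m c : ℕ}
    (hc : ∀ a : Fin m → σ → Om L m,
      ∃ η : Fin c → σ → Om L m, LinearIndependent (Om L m) η ∧ ∀ i l, ∑ j, a i j * η l j = 0)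
    {z : Fin m → MvPolynomial σ L} (hz : ∀ i, (z i).totalDegree ≤ 1)
    (k : Ideal (MvPolynomial σ L) → ℕ)
    (hP : ∀ p ∈ P, p ∈ (Ideal.span G).minimalPrimes ∧ Norm p z ∧
      ∀ g ∈ G, ∀ l : List σ, l.length ≤ k p → pd l g ∈ p)
    (I : Ideal (MvPolynomial σ L)) (e : ℕ)
    (hI : ∀ p ∈ P, ∀ f ∈ I, f.totalDegree ≤ e + Fintype.card σ * t →
      ∀ l : List σ, l.length ≤ k p → pd l f ∈ p) :
    (∑ p ∈ P, (k p + c).choose c * (Pts p z).ncard) * (e + m).choose m ≤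
      Hf I (e + Fintype.card σ * t) := by
  classical
  have hfin : (⋃ p ∈ (P : Set _), Pts p z).Finite :=
    P.finite_toSet.biUnion fun p hp => pts_finite (hP p hp).1.1.1 (hP p hp).2.1
  have hm : ∀ ξ, ξ ∈ hfin.toFinset ↔ kerAt L ξ ∈ P ∧ ∀ i, aeval ξ (z i) = Xo L m i := fun ξ => by
    simp only [Set.Finite.mem_toFinset, Set.mem_iUnion, Finset.mem_coe, exists_prop]
    exact ⟨fun ⟨p, hp, h⟩ => ⟨h.1 ▸ hp, h.2⟩, fun h => ⟨_, h.1, rfl, h.2⟩⟩
  have hev : ∀ (ξ : σ → Om L m) f, eval ξ (map (algebraMap L (Om L m)) f) = aeval ξ f :=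
    fun ξ f => by rw [eval_map, aeval_def]
  choose η hη hη' using fun ξ : σ → Om L m =>
    hc fun i j => eval ξ (pderiv j (map (algebraMap L (Om L m)) (z i) - C (Xo L m i)))
  have hf : ∀ (ξ : σ → Om L m) f, (∀ l : List σ, l.length ≤ k (kerAt L ξ) → pd l f ∈ kerAt L ξ) →
      map (algebraMap L (Om L m)) f ∈ fatI ξ (η ξ) (k (kerAt L ξ)) := fun ξ f h =>
    pow_le_fatI _ _ _ (mem_pow_of_pd _ _ _ fun l hl => by rw [pd_map, hev]; exact h l hl)
  refine le_trans (Nat.mul_le_mul_right _ ?_) (lb_pts ht hG hz hfin.toFinset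
    (fun ξ => fatI ξ (η ξ) (k (kerAt L ξ))) (fun ξ _ => ⟨_, pow_le_fatI _ _ _⟩) (fun ξ hξ => ?_)
    (fun ξ hξ => (hP _ ((hm ξ).1 hξ).1).1) I e fun ξ hξ f h1 h2 => hf ξ f (hI _ ((hm ξ).1 hξ).1 f h1 h2))
  · refine le_trans (le_of_eq ?_) (Finset.sum_le_sum fun ξ _ => finrank_fatI ξ (hη ξ) _)
    rw [← Finset.sum_fiberwise_of_maps_to (g := kerAt L) fun ξ hξ => ((hm ξ).1 hξ).1]
    refine Finset.sum_congr rfl fun p hp => ?_
    rw [Finset.sum_congr rfl fun ξ hξ => by rw [(Finset.mem_filter.1 hξ).2], Finset.sum_const,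
      smul_eq_mul, mul_comm, ← Set.ncard_coe_finset]
    congr 2
    ext ξ
    rw [Finset.mem_coe, Finset.mem_filter, hm]
    exact ⟨fun h => ⟨⟨h.1 ▸ hp, h.2⟩, h.1⟩, fun h => ⟨h.2, h.1.2⟩⟩
  · rintro _ (⟨g, hg, rfl⟩ | ⟨i, rfl⟩)
    · exact hf ξ g ((hP _ ((hm ξ).1 hξ).1).2.2 g hg)
    · refine lin_mem_fatI _ _ _ _ ((totalDegree_sub _ _).trans (max_le ?_ (by simp))) ?_ (hη' ξ i)
      · exact (Finset.sup_mono (support_map_subset _ _)).trans (hz i)
      · rw [map_sub, hev, eval_C, ((hm ξ).1 hξ).2 i, sub_self]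

/-- Joint lower bound with multiplicities: `lb_pts` for the union of the `Pts p z` and
`Q ξ = fatI ξ η (k (kerAt L ξ))`, with `η` from `exists_dirs` (the partial derivatives of the affine
forms `z i` at `ξ`), `mem_pow_of_pd`, `pow_le_fatI`, `lin_mem_fatI`, `finrank_fatI`. -/
theorem lb_fat (P : Finset (Ideal (MvPolynomial σ L))) {G : Set (MvPolynomial σ L)} {t : ℕ}
    (ht : 1 ≤ t) (hG : ∀ g ∈ G, g.totalDegree ≤ t) {m c : ℕ} (hc : c + m ≤ Fintype.card σ)
    {z : Fin m → MvPolynomial σ L} (hz : ∀ i, (z i).totalDegree ≤ 1)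
    (k : Ideal (MvPolynomial σ L) → ℕ)
    (hP : ∀ p ∈ P, p ∈ (Ideal.span G).minimalPrimes ∧ Norm p z ∧
      ∀ g ∈ G, ∀ l : List σ, l.length ≤ k p → pd l g ∈ p)
    (I : Ideal (MvPolynomial σ L)) (e : ℕ)
    (hI : ∀ p ∈ P, ∀ f ∈ I, f.totalDegree ≤ e + Fintype.card σ * t →
      ∀ l : List σ, l.length ≤ k p → pd l f ∈ p) :
    (∑ p ∈ P, (k p + c).choose c * (Pts p z).ncard) * (e + m).choose m ≤
      Hf I (e + Fintype.card σ * t) := by
  exact bud1_fat P ht hG (exists_dirs hc) hz k hP I e hI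

theorem le_Hf {p : Ideal (MvPolynomial σ L)} {t : ℕ} (ht : 1 ≤ t) (hp : Adm p t) {m : ℕ}
    {z : Fin m → MvPolynomial σ L} (hz : Norm p z) (e : ℕ) :
    (Pts p z).ncard * (e + m).choose m ≤ Hf p (e + Fintype.card σ * t) := by
  simpa using bud1_fat {p} ht (G := low p t) (fun _ hg => hg.2) (c := 0)
    (fun _ => ⟨fun l => l.elim0, linearIndependent_empty_type, fun _ l => l.elim0⟩) hz.deg (fun _ => 0)
    (fun q hq => by
      rw [Finset.mem_singleton.1 hq]
      refine ⟨hp, hz, fun g hg l hl => ?_⟩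
      rw [List.eq_nil_of_length_eq_zero (Nat.le_zero.1 hl)]
      exact hg.1) p e
    (fun q hq f hf _ l hl => by
      rw [Finset.mem_singleton.1 hq, List.eq_nil_of_length_eq_zero (Nat.le_zero.1 hl)]
      exact hf)

/-- The budget inequality (`exists_norm` with `y = X`, `lb_fat`, `Hf_le`). -/
theorem bud (P : Finset (Ideal (MvPolynomial σ L))) {G : Set (MvPolynomial σ L)} {t : ℕ}
    (ht : 1 ≤ t) (hG : ∀ g ∈ G, g.totalDegree ≤ t) {m c : ℕ} (hc : c + m ≤ Fintype.card σ)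
    (k : Ideal (MvPolynomial σ L) → ℕ)
    (hP : ∀ p ∈ P, p ∈ (Ideal.span G).minimalPrimes ∧ dimP p = m ∧
      ∀ g ∈ G, ∀ l : List σ, l.length ≤ k p → pd l g ∈ p)
    (I : Ideal (MvPolynomial σ L)) (e : ℕ)
    (hI : ∀ p ∈ P, ∀ f ∈ I, f.totalDegree ≤ e + Fintype.card σ * t →
      ∀ l : List σ, l.length ≤ k p → pd l f ∈ p) (s : ℕ) :
    (e + m).choose m * ∑ p ∈ P, (k p + c).choose c * Hf p s ≤
      (s + Fintype.card σ * t + m).choose m * Hf I (e + Fintype.card σ * t) := by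
  obtain ⟨z, hz1, hz⟩ := exists_norm P m (fun p hp => ⟨(hP p hp).1.1.1, (hP p hp).2.1⟩)
    (fun j : σ => (X j : MvPolynomial σ L)) (fun j => (totalDegree_X j).le)
    (fun p _ j => grow_self (z := fun j : σ => (X j : MvPolynomial σ L)) j)
  have h1 := lb_fat P ht hG hc hz1 k (fun p hp => ⟨(hP p hp).1, (hz p hp).1, (hP p hp).2.2⟩) I e hI
  have h2 : ∑ p ∈ P, (k p + c).choose c * Hf p s ≤
      (∑ p ∈ P, (k p + c).choose c * (Pts p z).ncard) * (s + Fintype.card σ * t + m).choose m := by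
    rw [Finset.sum_mul]
    refine Finset.sum_le_sum fun p hp => ?_
    rw [mul_assoc]
    exact Nat.mul_le_mul_left _ (Hf_le ht (adm_of_min (hP p hp).1 hG) (hz p hp).1 s)
  calc (e + m).choose m * ∑ p ∈ P, (k p + c).choose c * Hf p s
      ≤ (e + m).choose m * ((∑ p ∈ P, (k p + c).choose c * (Pts p z).ncard) *
          (s + Fintype.card σ * t + m).choose m) := Nat.mul_le_mul_left _ h2
    _ = (s + Fintype.card σ * t + m).choose m *
          ((∑ p ∈ P, (k p + c).choose c * (Pts p z).ncard) * (e + m).choose m) := by ring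
    _ ≤ _ := Nat.mul_le_mul_left _ h1

/-- Hypersurface sections (`Hf_sup_add`, `Hf_le`, `le_Hf`). -/
theorem diff {p : Ideal (MvPolynomial σ L)} {t : ℕ} (ht : 1 ≤ t) (hp : Adm p t)
    {g : MvPolynomial σ L} (hg : g ∉ p) {a b : ℕ} (ha : g.totalDegree ≤ a) (e : ℕ) :
    Hf (p ⊔ Ideal.span {g}) (b + Fintype.card σ * t + a) * (e + dimP p).choose (dimP p) +
        (b + dimP p).choose (dimP p) * Hf p (e + Fintype.card σ * t) ≤
      (b + Fintype.card σ * t + a + Fintype.card σ * t + dimP p).choose (dimP p) *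
        Hf p (e + Fintype.card σ * t) := by
  obtain ⟨z, -, hz⟩ := exists_norm {p} (dimP p)
    (fun q hq => by rw [Finset.mem_singleton.1 hq]; exact ⟨hp.isPrime, rfl⟩)
    (fun j : σ => (X j : MvPolynomial σ L)) (fun j => (totalDegree_X j).le)
    (fun p _ j => grow_self (z := fun j : σ => (X j : MvPolynomial σ L)) j)
  have hN := (hz p (Finset.mem_singleton_self p)).1
  have h1 := Hf_sup_add hp.isPrime hg ha (Nat.le_add_left a (b + Fintype.card σ * t))
  rw [Nat.add_sub_cancel] at h1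
  have h2 := le_Hf ht hp hN b
  have h3 := Hf_le ht hp hN (b + Fintype.card σ * t + a)
  have h4 := le_Hf ht hp hN e
  have h5 : (b + dimP p).choose (dimP p) ≤
      (b + Fintype.card σ * t + a + Fintype.card σ * t + dimP p).choose (dimP p) :=
    Nat.choose_le_choose _ (by omega)
  obtain ⟨D, hD⟩ := Nat.exists_eq_add_of_le h5
  rw [hD] at h3 ⊢
  have h6 : Hf (p ⊔ Ideal.span {g}) (b + Fintype.card σ * t + a) ≤ (Pts p z).ncard * D := by
    rw [mul_add] at h3
    omega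
  calc Hf (p ⊔ Ideal.span {g}) (b + Fintype.card σ * t + a) * (e + dimP p).choose (dimP p) +
        (b + dimP p).choose (dimP p) * Hf p (e + Fintype.card σ * t)
      ≤ (Pts p z).ncard * D * (e + dimP p).choose (dimP p) +
        (b + dimP p).choose (dimP p) * Hf p (e + Fintype.card σ * t) :=
        Nat.add_le_add_right (Nat.mul_le_mul_right _ h6) _
    _ = D * ((Pts p z).ncard * (e + dimP p).choose (dimP p)) +
        (b + dimP p).choose (dimP p) * Hf p (e + Fintype.card σ * t) := by ring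
    _ ≤ D * Hf p (e + Fintype.card σ * t) +
        (b + dimP p).choose (dimP p) * Hf p (e + Fintype.card σ * t) :=
        Nat.add_le_add_right (Nat.mul_le_mul_left _ h4) _
    _ = _ := by ring

/-- Growth bound (`exists_norm`, `Grow.trans`, `ub`, `le_Hf`). -/
theorem gb {p : Ideal (MvPolynomial σ L)} {t : ℕ} (ht : 1 ≤ t) (hp : Adm p t) {ι : Type}
    [Fintype ι] (y : ι → MvPolynomial σ L) (hy : ∀ i, (y i).totalDegree ≤ 1)
    (hX : ∀ j, Grow p y 1 (X j)) (W : Submodule L (MvPolynomial σ L)) {e : ℕ}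
    (hW : ∀ φ ∈ W, Grow p y e φ) :
    Module.finrank L (W.map (Ideal.Quotient.mkₐ L p).toLinearMap) ≤
      Hf p (e + Fintype.card σ * t + Fintype.card σ * t) := by
  obtain ⟨z, -, hz⟩ := exists_norm {p} (dimP p)
    (fun q hq => by rw [Finset.mem_singleton.1 hq]; exact ⟨hp.isPrime, rfl⟩) y hy
    (fun q hq j => by rw [Finset.mem_singleton.1 hq]; exact hX j)
  obtain ⟨hN, hy'⟩ := hz p (Finset.mem_singleton_self p)
  exact (ub ht hp hN W fun φ hφ => Grow.trans hy' (hW φ hφ)).trans (le_Hf ht hp hN _)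

end Crest.Agent.R65.CA
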