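import Crest.Agent.R65.CABud

/-! Row 65, commutative algebra module: numerical forms of the budgets. -/

set_option autoImplicit false

namespace Crest.Agent.R65.CA

open MvPolynomial

/-- `bud` with `e = T - n t ≥ T / 2`, `choose_lo`, `choose_hi`. -/
theorem bud_num (σ : Type) [Fintype σ] (κ : ℕ) : ∃ K : ℕ,
    ∀ (L : Type) [Field L] [CharZero L] (P : Finset (Ideal (MvPolynomial σ L)))
      (G : Set (MvPolynomial σ L)) (t m c : ℕ) (k : Ideal (MvPolynomial σ L) → ℕ)
      (I : Ideal (MvPolynomial σ L)) (T s : ℕ), 1 ≤ t → t ≤ s → 2 * Fintype.card σ * t ≤ T →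
      (∀ g ∈ G, g.totalDegree ≤ t) → c + m ≤ Fintype.card σ →
      (∀ p ∈ P, p ∈ (Ideal.span G).minimalPrimes ∧ dimP p = m ∧
        ∀ g ∈ G, ∀ l : List σ, l.length ≤ k p → pd l g ∈ p) →
      (∀ p ∈ P, ∀ f ∈ I, f.totalDegree ≤ T → ∀ l : List σ, l.length ≤ k p → pd l f ∈ p) →
      T ^ m * ∑ p ∈ P, (k p + c).choose c * Hf p (κ * s) ≤ K * s ^ m * Hf I T := by
  refine ⟨2 ^ Fintype.card σ * (Fintype.card σ).factorial * (κ + Fintype.card σ + 1) ^ Fintype.card σ,
    ?_⟩
  intro L _ _ P G t m c k I T s ht hts hT hG hc hP hI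
  set n := Fintype.card σ with hn
  obtain ⟨e, rfl⟩ : ∃ e, T = e + n * t := ⟨T - n * t, by
    have : 2 * n * t = n * t + n * t := by ring
    omega⟩
  have hb := bud P ht hG hc k hP I e hI (κ * s)
  rw [← hn] at hb
  set S := ∑ p ∈ P, (k p + c).choose c * Hf p (κ * s)
  set H := Hf I (e + n * t)
  have hm : m ≤ n := by omega
  have h1 : (e + n * t) ^ m ≤ 2 ^ m * (m.factorial * (e + m).choose m) := by
    calc (e + n * t) ^ m ≤ (2 * (e + 1)) ^ m := by
          apply Nat.pow_le_pow_left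
          have : 2 * n * t = n * t + n * t := by ring
          omega
      _ = 2 ^ m * (e + 1) ^ m := mul_pow _ _ _
      _ ≤ _ := Nat.mul_le_mul_left _ (choose_lo e m)
  have h2 : (κ * s + n * t + m).choose m ≤ (κ + n + 1) ^ m * s ^ m := by
    calc (κ * s + n * t + m).choose m ≤ (κ * s + n * t + 1) ^ m := choose_hi _ _
      _ ≤ ((κ + n + 1) * s) ^ m := by
          apply Nat.pow_le_pow_left
          have h3 : n * t ≤ n * s := Nat.mul_le_mul_left _ hts
          have h4 : (κ + n + 1) * s = κ * s + n * s + s := by ring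
          omega
      _ = _ := mul_pow _ _ _
  have h3 : 2 ^ m * m.factorial * (κ + n + 1) ^ m ≤ 2 ^ n * n.factorial * (κ + n + 1) ^ n :=
    Nat.mul_le_mul (Nat.mul_le_mul (Nat.pow_le_pow_right (by norm_num) hm) (Nat.factorial_le hm))
      (Nat.pow_le_pow_right (by omega) hm)
  calc (e + n * t) ^ m * S ≤ 2 ^ m * (m.factorial * (e + m).choose m) * S :=
        Nat.mul_le_mul_right _ h1
    _ = 2 ^ m * m.factorial * ((e + m).choose m * S) := by ring
    _ ≤ 2 ^ m * m.factorial * ((κ + n + 1) ^ m * s ^ m * H) :=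
        Nat.mul_le_mul_left _ (hb.trans (Nat.mul_le_mul_right _ h2))
    _ = 2 ^ m * m.factorial * (κ + n + 1) ^ m * (s ^ m * H) := by ring
    _ ≤ 2 ^ n * n.factorial * (κ + n + 1) ^ n * (s ^ m * H) := Nat.mul_le_mul_right _ h3
    _ = _ := by ring

/-- `diff` with `e = t`, `choose_diff`, `choose_lo`, `Hf_mono`. -/
theorem diff_num (σ : Type) [Fintype σ] (c κ : ℕ) (hκ : Fintype.card σ + 1 ≤ κ) : ∃ K : ℕ,
    ∀ (L : Type) [Field L] [CharZero L] (p : Ideal (MvPolynomial σ L)) (t τ : ℕ)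
      (g : MvPolynomial σ L), 1 ≤ t → Adm p t → g ∉ p → g.totalDegree ≤ c * t →
      c + Fintype.card σ + 1 ≤ τ →
      τ * Hf (p ⊔ Ideal.span {g}) (τ * t) ≤ K * τ ^ dimP p * Hf p (κ * t) := by
  refine ⟨(Fintype.card σ).factorial * (2 * Fintype.card σ + c) * Fintype.card σ *
    2 ^ Fintype.card σ, ?_⟩
  intro L _ _ p t τ g ht hp hg ha hτ
  set n := Fintype.card σ with hn
  obtain ⟨u, rfl⟩ : ∃ u, τ = u + n + c := ⟨τ - n - c, by omega⟩
  have hd := diff ht hp hg ha (b := u * t) t
  have hdn : dimP p ≤ n := dimP_le hp.1.1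
  rw [← hn] at hd
  have he : u * t + n * t + c * t = (u + n + c) * t := by ring
  rw [he] at hd
  have hH : Hf p (t + n * t) ≤ Hf p (κ * t) := by
    apply Hf_mono
    have h3 : (n + 1) * t ≤ κ * t := Nat.mul_le_mul_right _ hκ
    have h4 : (n + 1) * t = t + n * t := by ring
    omega
  set X := Hf (p ⊔ Ideal.span {g}) ((u + n + c) * t)
  set H := Hf p (t + n * t)
  set H' := Hf p (κ * t)
  set τ := u + n + c with hτ'
  have hle : u * t ≤ τ * t + n * t := by rw [← he]; omega
  have hcd := choose_diff hle (dimP p)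
  have hsub : τ * t + n * t - u * t = (2 * n + c) * t := by
    have : (2 * n + c) * t = n * t + n * t + c * t := by ring
    omega
  rw [hsub] at hcd
  have h1 : X * (t + dimP p).choose (dimP p) ≤
      (2 * n + c) * t * dimP p * (τ * t + n * t + 1) ^ (dimP p - 1) * H := by
    have h2 := hd.trans (Nat.mul_le_mul_right H hcd)
    rw [add_mul] at h2
    omega
  rcases hdd : dimP p with _ | d
  · rw [hdd] at h1
    simp only [add_zero, Nat.choose_zero_right, mul_one, mul_zero, zero_mul, Nat.le_zero] at h1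
    simp [h1]
  · rw [hdd] at h1 hdn
    simp only [Nat.add_sub_cancel] at h1
    have h2 : τ * t + n * t + 1 ≤ 2 * τ * t := by
      have h3 : (n + 1) * t ≤ τ * t := Nat.mul_le_mul_right _ (by omega)
      have h4 : (n + 1) * t = t + n * t := by ring
      have h5 : 2 * τ * t = τ * t + τ * t := by ring
      omega
    have h3 : t ^ (d + 1) ≤ (d + 1).factorial * (t + (d + 1)).choose (d + 1) :=
      (Nat.pow_le_pow_left (Nat.le_succ t) _).trans (choose_lo t (d + 1))
    have h4 : X * t ^ (d + 1) ≤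
        ((d + 1).factorial * (2 * n + c) * (d + 1) * 2 ^ d * τ ^ d * H) * t ^ (d + 1) := by
      calc X * t ^ (d + 1) ≤ X * ((d + 1).factorial * (t + (d + 1)).choose (d + 1)) :=
            Nat.mul_le_mul_left _ h3
        _ = (d + 1).factorial * (X * (t + (d + 1)).choose (d + 1)) := by ring
        _ ≤ (d + 1).factorial * ((2 * n + c) * t * (d + 1) * (2 * τ * t) ^ d * H) := by
            apply Nat.mul_le_mul_left
            refine h1.trans (Nat.mul_le_mul_right _ (Nat.mul_le_mul_left _ ?_))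
            exact Nat.pow_le_pow_left h2 _
        _ = _ := by rw [mul_pow, mul_pow]; ring
    have h5 := Nat.le_of_mul_le_mul_right h4 (pow_pos (by omega) _)
    have h6 : (d + 1).factorial * (2 * n + c) * (d + 1) * 2 ^ d ≤
        n.factorial * (2 * n + c) * n * 2 ^ n :=
      Nat.mul_le_mul (Nat.mul_le_mul (Nat.mul_le_mul_right _ (Nat.factorial_le hdn)) hdn)
        (Nat.pow_le_pow_right (by norm_num) (by omega))
    calc τ * X ≤ τ * ((d + 1).factorial * (2 * n + c) * (d + 1) * 2 ^ d * τ ^ d * H) :=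
          Nat.mul_le_mul_left _ h5
      _ = (d + 1).factorial * (2 * n + c) * (d + 1) * 2 ^ d * (τ ^ (d + 1) * H) := by ring
      _ ≤ n.factorial * (2 * n + c) * n * 2 ^ n * (τ ^ (d + 1) * H') :=
          Nat.mul_le_mul h6 (Nat.mul_le_mul_left _ hH)
      _ = _ := by ring

end Crest.Agent.R65.CA
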