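import Crest.Agent.R65.CADefs

/-! Row 65, commutative algebra module: the choice of the constants of the induction. -/

set_option autoImplicit false

namespace Crest.Agent.R65.CA

open MvPolynomial

namespace ConstAux

/-- the ratio of consecutive scales -/
def rr (K τ₀ D m t : ℕ) : ℕ := K * D * t ^ m + τ₀ + 1

/-- the scales -/
def tau (K τ₀ D m : ℕ) : ℕ → ℕ
  | 0 => τ₀ + 1
  | j + 1 => rr K τ₀ D m (tau K τ₀ D m j) * tau K τ₀ D m j

theorem tau_mono (K τ₀ D m : ℕ) : Monotone (tau K τ₀ D m) := by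
  refine monotone_nat_of_le_succ fun j => ?_
  exact Nat.le_mul_of_pos_left _ (Nat.succ_pos _)

/-- `C m / C (m - 1)` -/
def rho (n K τ₀ D m : ℕ) : ℕ := K * tau K τ₀ D m (n + 1) ^ m + 1

/-- `EE k = C n / C (n - k)` -/
def EE (n K τ₀ : ℕ) : ℕ → ℕ
  | 0 => 1
  | k + 1 => rho n K τ₀ (EE n K τ₀ k) (n - k) * EE n K τ₀ k

def CC (n K τ₀ : ℕ) : ℕ → ℕ
  | 0 => 1
  | m + 1 => CC n K τ₀ m * rho n K τ₀ (EE n K τ₀ (n - (m + 1))) (m + 1)

theorem EE_pos (n K τ₀ k : ℕ) : 0 < EE n K τ₀ k := by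
  induction k with
  | zero => exact Nat.one_pos
  | succ k ih => exact Nat.mul_pos (Nat.succ_pos _) ih

theorem CC_mono (n K τ₀ : ℕ) : Monotone (CC n K τ₀) := by
  refine monotone_nat_of_le_succ fun j => ?_
  exact Nat.le_mul_of_pos_right _ (Nat.succ_pos _)

theorem CC_EE (n K τ₀ m : ℕ) (hm : m ≤ n) : CC n K τ₀ m * EE n K τ₀ (n - m) = EE n K τ₀ n := by
  induction m with
  | zero => simp [CC]
  | succ m ih =>
    rw [← ih (by omega)]
    have e1 : n - m = n - (m + 1) + 1 := by omega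
    have e2 : n - (n - (m + 1)) = m + 1 := by omega
    rw [e1, EE, e2, CC, mul_assoc]

end ConstAux

open ConstAux in
/-- Constants `C m` and scales `τ m j` (`τ m (j+1) = τ m j * r m j`).  Induct on `k`: the
conditions hold for all `m ≥ n - k` with `C m' = 1` for `m' < n - k`.  To add `m = n - k - 1`
choose `r m j` huge in terms of `τ m j` and `max C` (this settles `m' ≥ m`), then multiply all
`C m'`, `m' ≥ m`, by a huge `R` (this settles `m' < m`). -/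
theorem exists_const (n K τ₀ : ℕ) : ∃ (C : ℕ → ℕ) (τ r : ℕ → ℕ → ℕ), (∀ m, 1 ≤ C m) ∧
    (∀ m j, τ₀ ≤ τ m j ∧ τ₀ ≤ r m j ∧ τ m (j + 1) = r m j * τ m j) ∧
    ∀ m ≤ n, ∀ m' ≤ n, ∀ j ≤ n,
      K * C m' * τ m (j + 1) ^ m ≤ C m * τ m (j + 1) * r m j ^ m' := by
  refine ⟨CC n K τ₀, fun m => tau K τ₀ (EE n K τ₀ (n - m)) m,
    fun m j => rr K τ₀ (EE n K τ₀ (n - m)) m (tau K τ₀ (EE n K τ₀ (n - m)) m j),
    fun m => CC_mono n K τ₀ (Nat.zero_le m), fun m j => ⟨?_, ?_, rfl⟩, fun m hm m' hm' j hj => ?_⟩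
  · exact (Nat.le_succ τ₀).trans (tau_mono K τ₀ _ m (Nat.zero_le j))
  · beta_reduce; unfold rr; omega
  · beta_reduce
    set D := EE n K τ₀ (n - m) with hD
    set t := tau K τ₀ D m j with ht
    set r := rr K τ₀ D m t with hr
    have ht1 : 1 ≤ t := (Nat.succ_pos τ₀).trans_le (tau_mono K τ₀ D m (Nat.zero_le j))
    have hr1 : 1 ≤ r := Nat.succ_pos _
    have e : tau K τ₀ D m (j + 1) = r * t := rfl
    rcases le_or_gt m m' with c | c
    · have h1 : CC n K τ₀ m' ≤ CC n K τ₀ m * D := by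
        rw [hD, CC_EE n K τ₀ m hm, ← CC_EE n K τ₀ m' hm']
        exact Nat.le_mul_of_pos_right _ (EE_pos _ _ _ _)
      have h2 : K * D * t ^ m ≤ r := by rw [hr]; unfold rr; omega
      have h3 : r ^ m ≤ r ^ m' := Nat.pow_le_pow_right hr1 c
      rw [e]
      calc K * CC n K τ₀ m' * (r * t) ^ m ≤ K * (CC n K τ₀ m * D) * (r * t) ^ m := by gcongr
        _ = CC n K τ₀ m * (K * D * t ^ m * 1) * r ^ m := by ring
        _ ≤ CC n K τ₀ m * (r * t) * r ^ m' := by gcongr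
    · obtain ⟨l, rfl⟩ : ∃ l, m = l + 1 := ⟨m - 1, by omega⟩
      have h1 : CC n K τ₀ m' ≤ CC n K τ₀ l := CC_mono n K τ₀ (by omega)
      have h2 : tau K τ₀ D (l + 1) (j + 1) ≤ tau K τ₀ D (l + 1) (n + 1) :=
        tau_mono K τ₀ D _ (by omega)
      have h3 : 1 ≤ tau K τ₀ D (l + 1) (j + 1) := by rw [e]; exact Nat.mul_pos hr1 ht1
      have h4 : 1 ≤ r ^ m' := Nat.one_le_pow _ _ hr1
      calc K * CC n K τ₀ m' * tau K τ₀ D (l + 1) (j + 1) ^ (l + 1)
          ≤ K * CC n K τ₀ l * tau K τ₀ D (l + 1) (n + 1) ^ (l + 1) := by gcongr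
        _ = CC n K τ₀ l * (K * tau K τ₀ D (l + 1) (n + 1) ^ (l + 1)) := by ring
        _ ≤ CC n K τ₀ l * rho n K τ₀ D (l + 1) := Nat.mul_le_mul_left _ (Nat.le_succ _)
        _ = CC n K τ₀ (l + 1) * 1 * 1 := by rw [CC, mul_one, mul_one]
        _ ≤ _ := by gcongr

end Crest.Agent.R65.CA
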