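import Crest.Agent.R65.CABudNum

/-! Row 65, commutative algebra module: the cover of the loci of high multiplicity. -/

set_option autoImplicit false

namespace Crest.Agent.R65.CA

open MvPolynomial

theorem fc_cover_sum {α β : Type} (S : Finset α) (F : Finset β) (U : β → Finset α) (f : α → ℕ)
    (h : ∀ p ∈ S, ∃ b ∈ F, p ∈ U b) : ∑ p ∈ S, f p ≤ ∑ b ∈ F, ∑ p ∈ U b, f p := by
  classical
  calc ∑ p ∈ S, f p ≤ ∑ p ∈ S, ∑ b ∈ F, if p ∈ U b then f p else 0 := by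
        refine Finset.sum_le_sum fun p hp => ?_
        obtain ⟨b, hb, hpb⟩ := h p hp
        have := Finset.single_le_sum (f := fun b => if p ∈ U b then f p else 0)
          (fun _ _ => Nat.zero_le _) hb
        simpa [hpb] using this
    _ = ∑ b ∈ F, ∑ p ∈ S, if p ∈ U b then f p else 0 := Finset.sum_comm
    _ ≤ ∑ b ∈ F, ∑ p ∈ U b, f p := by
        refine Finset.sum_le_sum fun b _ => ?_
        rw [← Finset.sum_filter]
        exact Finset.sum_le_sum_of_subset fun p hp => (Finset.mem_filter.1 hp).2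

theorem fc_geom (x : ℕ → ℕ) (B : ℕ) (h : ∀ i, 2 ^ i * x i ≤ B) (N : ℕ) :
    ∑ i ∈ Finset.range N, x i ≤ 2 * B := by
  have key : ∀ N, 2 ^ N * ∑ i ∈ Finset.range N, x i + 2 * B ≤ 2 ^ N * (2 * B) := by
    intro N
    induction N with
    | zero => simp
    | succ N ih =>
      have := h N
      rw [Finset.sum_range_succ, pow_succ]
      nlinarith
  exact Nat.le_of_mul_le_mul_left ((Nat.le_add_right _ _).trans (key N)) (by positivity)

theorem fc_pd_zero {σ L : Type} [Field L] (l : List σ) : pd l (0 : MvPolynomial σ L) = 0 := by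
  induction l with
  | nil => rfl
  | cons i l ih => rw [pd_cons, ih, map_zero]

/-- the budget with `I = ⊥` and `T = 2 n t` -/
theorem fc_bud (σ : Type) [Fintype σ] (κ : ℕ) : ∃ K : ℕ,
    ∀ (L : Type) [Field L] [CharZero L] (P : Finset (Ideal (MvPolynomial σ L)))
      (G : Set (MvPolynomial σ L)) (t m c : ℕ) (k : Ideal (MvPolynomial σ L) → ℕ) (s : ℕ),
      1 ≤ t → t ≤ s → (∀ g ∈ G, g.totalDegree ≤ t) → 1 ≤ c → c + m ≤ Fintype.card σ →
      (∀ p ∈ P, p ∈ (Ideal.span G).minimalPrimes ∧ dimP p = m ∧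
        ∀ g ∈ G, ∀ l : List σ, l.length ≤ k p → pd l g ∈ p) →
      ∑ p ∈ P, (k p + c).choose c * Hf p (κ * s) ≤ K * t * s ^ (Fintype.card σ - 1) := by
  obtain ⟨K, hK⟩ := bud_num σ κ
  refine ⟨K * 2 ^ Fintype.card σ * (2 * Fintype.card σ) ^ Fintype.card σ, ?_⟩
  intro L _ _ P G t m c k s ht hts hG hc hcm hP
  have h := hK L P G t m c k ⊥ (2 * Fintype.card σ * t) s ht hts le_rfl hG hcm hP
    (fun p _ f hf _ l _ => by rw [Ideal.mem_bot.1 hf, fc_pd_zero]; exact p.zero_mem)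
  rw [Hf_bot] at h
  obtain ⟨d, hd⟩ : ∃ d, Fintype.card σ = m + d + 1 := ⟨Fintype.card σ - m - 1, by omega⟩
  generalize Fintype.card σ = n at *
  have hn : 1 ≤ n := by omega
  have hT : 1 ≤ 2 * n * t := Nat.mul_pos (by omega) ht
  have h1 : (2 * n * t + n).choose n ≤ (2 * (2 * n * t)) ^ n :=
    (choose_hi _ _).trans (Nat.pow_le_pow_left (by omega) _)
  have h2 : (2 * n * t) ^ (d + 1) ≤ (2 * n) ^ n * t * s ^ d := by
    rw [mul_pow, pow_succ t, mul_comm (t ^ d), ← mul_assoc]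
    exact Nat.mul_le_mul (Nat.mul_le_mul_right _ (Nat.pow_le_pow_right (by omega) (by omega)))
      (Nat.pow_le_pow_left hts _)
  refine Nat.le_of_mul_le_mul_left (h.trans ?_) (Nat.pow_pos hT (n := m))
  have h3 : (2 * n * t) ^ n = (2 * n * t) ^ m * (2 * n * t) ^ (d + 1) := by
    rw [← pow_add, ← add_assoc, ← hd]
  have h4 : s ^ (n - 1) = s ^ m * s ^ d := by
    rw [← pow_add]; congr 1; omega
  calc K * s ^ m * (2 * n * t + n).choose n ≤ K * s ^ m * (2 * (2 * n * t)) ^ n :=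
        Nat.mul_le_mul_left _ h1
    _ = K * s ^ m * 2 ^ n * (2 * n * t) ^ m * (2 * n * t) ^ (d + 1) := by
        rw [mul_pow 2 (2 * n * t), h3]; ring
    _ ≤ K * s ^ m * 2 ^ n * (2 * n * t) ^ m * ((2 * n) ^ n * t * s ^ d) :=
        Nat.mul_le_mul_left _ h2
    _ = (2 * n * t) ^ m * (K * 2 ^ n * (2 * n) ^ n * t * s ^ (n - 1)) := by
        rw [h4]; ring

theorem fc_main (σ : Type) [Fintype σ] (κ : ℕ) : ∃ C : ℕ,
    ∀ (L : Type) [Field L] [CharZero L] (g : MvPolynomial σ L) (t s : ℕ), g ≠ 0 →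
      g.totalDegree ≤ t → 1 ≤ t → t ≤ s →
      ∃ P : ℕ → Finset (Ideal (MvPolynomial σ L)), (∀ i, ∀ p ∈ P i, Adm p t ∧ g ∈ p) ∧
        (∀ i y, OrdGe y g (2 ^ i) → ∃ p ∈ P i, ∀ f ∈ p, eval y f = 0) ∧
        ∀ N, ∑ i ∈ Finset.range N, 2 ^ i * ∑ p ∈ P i, Hf p (κ * s) ≤
          C * t * s ^ (Fintype.card σ - 1) := by
  classical
  obtain ⟨K, hK⟩ := fc_bud σ κ
  obtain ⟨n, hn⟩ : ∃ n, n = Fintype.card σ := ⟨_, rfl⟩
  refine ⟨2 * (n + 1) * K + 2 * ((n + 1) * n * (2 * (n + 1) ^ 2 * K)), ?_⟩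
  intro L _ _ g t s hg0 hgt ht hts
  rw [← hn] at hK ⊢
  obtain ⟨kk, hkk⟩ : ∃ kk : ℕ → ℕ, ∀ i, kk i = (2 ^ i - 1) / (n + 1) := ⟨_, fun _ => rfl⟩
  have k1 : ∀ i, (n + 1) * kk i < 2 ^ i := fun i => by
    have h1 := Nat.mul_div_le (2 ^ i - 1) (n + 1)
    have h2 : 0 < 2 ^ i := by positivity
    rw [hkk]; omega
  have k2 : ∀ i, 2 ^ i ≤ (n + 1) * (kk i + 1) := fun i => by
    have h1 := Nat.lt_mul_div_succ (2 ^ i - 1) (show 0 < n + 1 by omega)
    rw [hkk]; omega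
  obtain ⟨G, hG⟩ : ∃ G : ℕ → ℕ → Set (MvPolynomial σ L),
      ∀ i a f, f ∈ G i a ↔ ∃ l : List σ, l.length ≤ a * kk i ∧ f = pd l g :=
    ⟨fun i a => {f | ∃ l : List σ, l.length ≤ a * kk i ∧ f = pd l g}, fun _ _ _ => Iff.rfl⟩
  have Gdeg : ∀ i a, ∀ f ∈ G i a, f.totalDegree ≤ t := fun i a f hf => by
    obtain ⟨l, -, rfl⟩ := (hG i a f).1 hf
    exact (totalDegree_pd_le l g).trans hgt
  obtain ⟨Q, hQ⟩ : ∃ Q : ℕ → ℕ → Finset (Ideal (MvPolynomial σ L)), ∀ i a p,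
      p ∈ Q i a ↔ p ∈ (Ideal.span (G i a)).minimalPrimes ∧ Ideal.span (G i (a + 1)) ≤ p :=
    ⟨fun i a => (Ideal.finite_minimalPrimes_of_isNoetherianRing _
      (Ideal.span (G i a))).toFinset.filter (Ideal.span (G i (a + 1)) ≤ ·), fun i a p => by
        rw [Finset.mem_filter, Set.Finite.mem_toFinset]⟩
  have Qpd : ∀ i a, ∀ p ∈ Q i a, ∀ f ∈ G i a, ∀ l : List σ, l.length ≤ kk i → pd l f ∈ p := by
    intro i a p hp f hf l hl
    obtain ⟨l', hl', rfl⟩ := (hG i a f).1 hf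
    refine ((hQ i a p).1 hp).2 (Ideal.subset_span ((hG _ _ _).2 ⟨l ++ l', ?_, (pd_append _ _ _).symm⟩))
    rw [List.length_append, add_mul, one_mul]
    omega
  have gG : ∀ i a, g ∈ G i a := fun i a => (hG _ _ _).2 ⟨[], Nat.zero_le _, rfl⟩
  have Qg : ∀ i a, ∀ p ∈ Q i a, g ∈ p := fun i a p hp =>
    ((hQ i a p).1 hp).2 (Ideal.subset_span (gG _ _))
  have Qpr : ∀ i a, ∀ p ∈ Q i a, p.IsPrime := fun i a p hp => ((hQ i a p).1 hp).1.1.1
  obtain ⟨P, hP⟩ : ∃ P : ℕ → Finset (Ideal (MvPolynomial σ L)), ∀ i p,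
      p ∈ P i ↔ ∃ a ∈ Finset.range (n + 1), p ∈ Q i a :=
    ⟨fun i => (Finset.range (n + 1)).biUnion (Q i), fun i p => Finset.mem_biUnion⟩
  refine ⟨P, fun i p hp => ?_, fun i y hy => ?_, fun N => ?_⟩
  · obtain ⟨a, -, ha⟩ := (hP i p).1 hp
    exact ⟨adm_of_min ((hQ i a p).1 ha).1 (Gdeg i a), Qg i a p ha⟩
  · obtain ⟨j, hj, p, h1, h2, h3⟩ := exists_common (fun a => Ideal.span (G i a))
      (fun a => Ideal.span_mono fun f hf => by
        obtain ⟨l, hl, rfl⟩ := (hG i a f).1 hf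
        exact (hG _ _ _).2 ⟨l, hl.trans (Nat.mul_le_mul_right _ (Nat.le_succ a)), rfl⟩)
      (mI_isPrime y) fun a ha => Ideal.span_le.2 fun f hf => by
        obtain ⟨l, hl, rfl⟩ := (hG i a f).1 hf
        rw [← hn] at ha
        exact mem_mI.2 (hy l ((hl.trans (Nat.mul_le_mul_right _ ha)).trans_lt (k1 i)))
    rw [← hn] at hj
    exact ⟨p, (hP i p).2 ⟨j, Finset.mem_range.2 (Nat.lt_succ_of_le hj), (hQ i j p).2 ⟨h1, h2⟩⟩,
      fun f hf => mem_mI.1 (h3 hf)⟩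
  obtain ⟨B, hB⟩ : ∃ B, B = K * t * s ^ (n - 1) := ⟨_, rfl⟩
  -- primes of codimension at least two
  have h2 : ∀ i, 2 ^ i * (2 ^ i * ∑ p ∈ (P i).filter (fun p => ¬ dimP p + 1 = n), Hf p (κ * s)) ≤
      (n + 1) * n * (2 * (n + 1) ^ 2 * B) := by
    intro i
    have h3 := fc_cover_sum ((P i).filter fun p => ¬ dimP p + 1 = n)
      (Finset.range (n + 1) ×ˢ Finset.range (n - 1))
      (fun b => (Q i b.1).filter fun p => dimP p = b.2) (fun p => Hf p (κ * s)) fun p hp => by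
        obtain ⟨hp1, hp2⟩ := Finset.mem_filter.1 hp
        obtain ⟨a, ha, hpa⟩ := (hP i p).1 hp1
        have := dimP_lt_card (Qpr i a p hpa) (Qg i a p hpa) hg0
        exact ⟨(a, dimP p), Finset.mem_product.2 ⟨ha, Finset.mem_range.2 (by omega)⟩,
          Finset.mem_filter.2 ⟨hpa, rfl⟩⟩
    have h4 : ∀ b ∈ Finset.range (n + 1) ×ˢ Finset.range (n - 1),
        2 ^ i * 2 ^ i * ∑ p ∈ (Q i b.1).filter (fun p => dimP p = b.2), Hf p (κ * s) ≤
          2 * (n + 1) ^ 2 * B := by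
      intro b hb
      have hm := Finset.mem_range.1 (Finset.mem_product.1 hb).2
      have h5 := hK L ((Q i b.1).filter fun p => dimP p = b.2) (G i b.1) t b.2 2 (fun _ => kk i) s
        ht hts (Gdeg _ _) one_le_two (by omega) fun p hp =>
          ⟨((hQ _ _ _).1 (Finset.mem_filter.1 hp).1).1, (Finset.mem_filter.1 hp).2,
            Qpd _ _ p (Finset.mem_filter.1 hp).1⟩
      rw [← Finset.mul_sum, ← hB] at h5
      have h6 : (kk i + 1) ^ 2 ≤ 2 * (kk i + 2).choose 2 := choose_lo (kk i) 2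
      have h7 : 2 ^ i * 2 ^ i ≤ 2 * (n + 1) ^ 2 * (kk i + 2).choose 2 :=
        calc 2 ^ i * 2 ^ i ≤ ((n + 1) * (kk i + 1)) * ((n + 1) * (kk i + 1)) :=
              Nat.mul_le_mul (k2 i) (k2 i)
          _ = (n + 1) ^ 2 * (kk i + 1) ^ 2 := by ring
          _ ≤ (n + 1) ^ 2 * (2 * (kk i + 2).choose 2) := Nat.mul_le_mul_left _ h6
          _ = _ := by ring
      refine (Nat.mul_le_mul_right _ h7).trans ?_
      rw [mul_assoc]
      exact Nat.mul_le_mul_left _ h5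
    rw [← mul_assoc]
    refine (Nat.mul_le_mul_left _ h3).trans ?_
    rw [Finset.mul_sum]
    refine (Finset.sum_le_card_nsmul _ _ _ h4).trans ?_
    rw [Finset.card_product, Finset.card_range, Finset.card_range, smul_eq_mul]
    exact Nat.mul_le_mul_right _ (Nat.mul_le_mul_left _ (Nat.sub_le _ _))
  -- primes of codimension one
  have h1 : ∑ i ∈ Finset.range N, 2 ^ i * ∑ p ∈ (P i).filter (fun p => dimP p + 1 = n),
      Hf p (κ * s) ≤ 2 * (n + 1) * B := by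
    obtain ⟨R, hR⟩ : ∃ R : Finset (Ideal (MvPolynomial σ L)), ∀ p,
        p ∈ R ↔ ∃ i ∈ Finset.range N, p ∈ (P i).filter fun p => dimP p + 1 = n :=
      ⟨(Finset.range N).biUnion fun i => (P i).filter fun p => dimP p + 1 = n,
        fun p => Finset.mem_biUnion⟩
    have hi : ∀ p : Ideal (MvPolynomial σ L), ∃ i₀ : ℕ, p ∈ R → p ∈ P i₀ ∧
        ∀ i ∈ Finset.range N, p ∈ P i → i ≤ i₀ := by
      intro p
      by_cases hp : p ∈ R
      · obtain ⟨i, hi, hpi⟩ := (hR p).1 hp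
        obtain ⟨i₀, h1, h2⟩ := Finset.exists_max_image ((Finset.range N).filter fun i => p ∈ P i) id
          ⟨i, Finset.mem_filter.2 ⟨hi, (Finset.mem_filter.1 hpi).1⟩⟩
        exact ⟨i₀, fun _ => ⟨(Finset.mem_filter.1 h1).2,
          fun j hj hpj => h2 j (Finset.mem_filter.2 ⟨hj, hpj⟩)⟩⟩
      · exact ⟨0, fun h => absurd h hp⟩
    choose i₀ hi₀ using hi
    have h3 : ∑ p ∈ R, (kk (i₀ p) + 1) * Hf p (κ * s) ≤ B := by
      rcases R.eq_empty_or_nonempty with rfl | ⟨p₀, hp₀⟩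
      · simp
      obtain ⟨_, -, h0⟩ := (hR p₀).1 hp₀
      have hn1 : dimP p₀ + 1 = n := (Finset.mem_filter.1 h0).2
      have h5 := hK L R {g} t (n - 1) 1 (fun p => kk (i₀ p)) s ht hts
        (fun f hf => by rw [Set.mem_singleton_iff.1 hf]; exact hgt) le_rfl (by omega) fun p hp => by
          obtain ⟨_, -, h6⟩ := (hR p).1 hp
          have hd : dimP p + 1 = n := (Finset.mem_filter.1 h6).2
          obtain ⟨a, -, ha⟩ := (hP _ p).1 (hi₀ p hp).1
          refine ⟨min_of_codim_one (Qpr _ a p ha) (hd.trans hn) (Qg _ a p ha) hg0, by omega,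
            fun f hf l hl => ?_⟩
          rw [Set.mem_singleton_iff.1 hf]
          exact Qpd _ a p ha g (gG _ _) l hl
      simpa only [Nat.choose_one_right, ← hB] using h5
    calc ∑ i ∈ Finset.range N, 2 ^ i * ∑ p ∈ (P i).filter (fun p => dimP p + 1 = n), Hf p (κ * s)
        ≤ ∑ i ∈ Finset.range N, ∑ p ∈ R, if p ∈ P i then 2 ^ i * Hf p (κ * s) else 0 := by
          refine Finset.sum_le_sum fun i hi => ?_
          rw [Finset.mul_sum, ← Finset.sum_filter]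
          exact Finset.sum_le_sum_of_subset fun p hp =>
            Finset.mem_filter.2 ⟨(hR p).2 ⟨i, hi, hp⟩, (Finset.mem_filter.1 hp).1⟩
      _ = ∑ p ∈ R, ∑ i ∈ Finset.range N, if p ∈ P i then 2 ^ i * Hf p (κ * s) else 0 :=
          Finset.sum_comm
      _ ≤ ∑ p ∈ R, 2 * (n + 1) * ((kk (i₀ p) + 1) * Hf p (κ * s)) := by
          refine Finset.sum_le_sum fun p hp => ?_
          rw [← Finset.sum_filter, ← Finset.sum_mul, ← mul_assoc]
          refine Nat.mul_le_mul_right _ ?_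
          have h4 := Nat.geomSum_lt (m := 2) (n := i₀ p + 1)
            (s := (Finset.range N).filter fun i => p ∈ P i) le_rfl fun j hj =>
              Nat.lt_succ_of_le ((hi₀ p hp).2 j (Finset.mem_filter.1 hj).1
                (Finset.mem_filter.1 hj).2)
          have h5 := k2 (i₀ p)
          rw [pow_succ] at h4
          rw [mul_assoc]
          omega
      _ ≤ 2 * (n + 1) * B := by
          rw [← Finset.mul_sum]
          exact Nat.mul_le_mul_left _ h3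
  have h3 := fc_geom _ _ h2 N
  calc ∑ i ∈ Finset.range N, 2 ^ i * ∑ p ∈ P i, Hf p (κ * s)
      = ∑ i ∈ Finset.range N, 2 ^ i * ∑ p ∈ (P i).filter (fun p => dimP p + 1 = n), Hf p (κ * s) +
        ∑ i ∈ Finset.range N,
          2 ^ i * ∑ p ∈ (P i).filter (fun p => ¬ dimP p + 1 = n), Hf p (κ * s) := by
        rw [← Finset.sum_add_distrib]
        exact Finset.sum_congr rfl fun i _ => by rw [← mul_add, Finset.sum_filter_add_sum_filter_not]
    _ ≤ 2 * (n + 1) * B + 2 * ((n + 1) * n * (2 * (n + 1) ^ 2 * B)) := Nat.add_le_add h1 h3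
    _ = _ := by rw [hB]; ring

end Crest.Agent.R65.CA
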