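import Crest.Agent.R65.CABudNum
import Crest.Agent.R65.CACovAux75

/-! Row 65, commutative algebra module: covers by admissible primes with small budget. -/

set_option autoImplicit false

namespace Crest.Agent.R65.CA

open MvPolynomial

/-- Cover of the loci of high multiplicity.  Level `i`: `k = (2^i - 1) / (n + 1)`,
`I_a = span {pd l g : length l ≤ a k}`, `P i` = primes minimal over some `I_a`, `a ≤ n`, containing
`I_{a+1}` (`exists_common`; `2^i ≤ (n+1)(k+1)`).  Primes with `dimP p + 2 ≤ n`: `bud_num` with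
`c = 2`, `I = ⊥`, `T = 2 n t`, for each `(i, a, m)`; sum `2^{-i}`.  Primes with `dimP p + 1 = n` are
minimal over `(g)` (`min_of_codim_one`): ONE application of `bud_num` with `G = {g}`, `c = 1`,
`k p` = the largest `k` of a level `i < N` with `p ∈ P i`. -/
theorem fat_cover (σ : Type) [Fintype σ] (κ : ℕ) : ∃ C : ℕ,
    ∀ (L : Type) [Field L] [CharZero L] (g : MvPolynomial σ L) (t s : ℕ), g ≠ 0 →
      g.totalDegree ≤ t → 1 ≤ t → t ≤ s →
      ∃ P : ℕ → Finset (Ideal (MvPolynomial σ L)), (∀ i, ∀ p ∈ P i, Adm p t ∧ g ∈ p) ∧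
        (∀ i y, OrdGe y g (2 ^ i) → ∃ p ∈ P i, ∀ f ∈ p, eval y f = 0) ∧
        ∀ N, ∑ i ∈ Finset.range N, 2 ^ i * ∑ p ∈ P i, Hf p (κ * s) ≤
          C * t * s ^ (Fintype.card σ - 1) :=
  fc_main σ κ

/-- Cover of the zero set of an ideal containing a nonzero element of small degree.  `q = 2 n + 1`,
`t_0 = T / q ^ (n+1) ≥ deg F + 1`, `t_j = q ^ j t_0`; `P` = primes minimal over `low I t_j` containing
`low I t_{j+1}`, `j ≤ n` (`exists_common`); `bud_num` with `k = 0`, `c = 0`; all dimensions are `< n`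
(`dimP_lt_card`). -/
theorem rank_cover (σ : Type) [Fintype σ] (κ : ℕ) : ∃ C : ℕ, 1 ≤ C ∧
    ∀ (L : Type) [Field L] [CharZero L] (I : Ideal (MvPolynomial σ L)) (F : MvPolynomial σ L)
      (T s : ℕ), F ∈ I → F ≠ 0 → C * (F.totalDegree + 1) ≤ T → T ≤ s →
      ∃ P : Finset (Ideal (MvPolynomial σ L)), (∀ p ∈ P, Adm p T) ∧
        (∀ y : σ → L, (∀ f ∈ I, eval y f = 0) → ∃ p ∈ P, ∀ f ∈ p, eval y f = 0) ∧
        T ^ (Fintype.card σ - 1) * ∑ p ∈ P, Hf p (κ * s) ≤
          C * s ^ (Fintype.card σ - 1) * Hf I T := by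
  classical
  obtain ⟨K, hK⟩ := bud_num σ κ
  set n := Fintype.card σ with hn
  set q := 2 * n + 1 with hq
  have q1 : 1 ≤ q := by omega
  have Q1 : 1 ≤ q ^ (n + 1) := Nat.one_le_pow _ _ q1
  refine ⟨q ^ (n + 1) + (n + 1) * n * ((2 * q ^ (n + 1)) ^ n * K), by omega,
    fun L _ _ I F T s hF F0 hT hs => ?_⟩
  set t₀ := T / q ^ (n + 1) with ht₀
  have h1 : F.totalDegree + 1 ≤ t₀ := by
    rw [ht₀, Nat.le_div_iff_mul_le Q1, mul_comm]
    exact le_trans (Nat.mul_le_mul_right _ (Nat.le_add_right _ _)) hT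
  have h2 : q ^ (n + 1) * t₀ ≤ T := Nat.mul_div_le _ _
  have h3 : T ≤ 2 * q ^ (n + 1) * t₀ := by
    have := Nat.lt_mul_div_succ T Q1
    rw [← ht₀] at this
    have h4 : q ^ (n + 1) * (t₀ + 1) ≤ q ^ (n + 1) * (2 * t₀) := Nat.mul_le_mul_left _ (by omega)
    calc T ≤ q ^ (n + 1) * (2 * t₀) := this.le.trans h4
      _ = _ := by ring
  have t1 : ∀ j, t₀ ≤ q ^ j * t₀ := fun j => Nat.le_mul_of_pos_left _ (Nat.one_le_pow _ _ q1)
  have t2 : ∀ j ≤ n + 1, q ^ j * t₀ ≤ T := fun j hj =>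
    le_trans (Nat.mul_le_mul_right _ (Nat.pow_le_pow_right q1 hj)) h2
  have t3 : ∀ j, q ^ j * t₀ ≤ q ^ (j + 1) * t₀ := fun j =>
    Nat.mul_le_mul_right _ (Nat.pow_le_pow_right q1 (Nat.le_succ j))
  let J : ℕ → Ideal (MvPolynomial σ L) := fun j => Ideal.span (low I (q ^ j * t₀))
  let S : Set (Ideal (MvPolynomial σ L)) :=
    {p | ∃ j ≤ n, p ∈ (J j).minimalPrimes ∧ J (j + 1) ≤ p}
  have hS : S.Finite := by
    refine Set.Finite.subset (Set.Finite.biUnion (Set.finite_Iic n) fun j _ =>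
      (J j).finite_minimalPrimes_of_isNoetherianRing _) ?_
    rintro p ⟨j, hj, hp, -⟩
    exact Set.mem_biUnion hj hp
  choose! ι ι1 ι2 ι3 using fun p (hp : p ∈ S) => hp
  refine ⟨hS.toFinset, fun p hp => ?_, fun y hy => ?_, ?_⟩
  · rw [Set.Finite.mem_toFinset] at hp
    exact adm_of_min (ι2 p hp) fun g hg => hg.2.trans (t2 _ ((ι1 p hp).trans (Nat.le_succ n)))
  · obtain ⟨j, hj, p, a, b, e⟩ := exists_common J
      (fun j => Ideal.span_mono fun f hf => ⟨hf.1, hf.2.trans (t3 j)⟩) (mI_isPrime y)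
      fun j _ => Ideal.span_le.2 fun f hf => mem_mI.2 (hy f hf.1)
    exact ⟨p, hS.mem_toFinset.2 ⟨j, hj, a, b⟩, fun f hf => mem_mI.1 (e hf)⟩
  · have hmap : ∀ p ∈ hS.toFinset, (ι p, dimP p) ∈ Finset.range (n + 1) ×ˢ Finset.range n := by
      intro p hp
      rw [Set.Finite.mem_toFinset] at hp
      refine Finset.mem_product.2 ⟨Finset.mem_range.2 (Nat.lt_succ_of_le (ι1 p hp)),
        Finset.mem_range.2 (dimP_lt_card (ι2 p hp).1.1 ((ι2 p hp).1.2 (Ideal.subset_span ?_)) F0)⟩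
      exact ⟨hF, by have := t1 (ι p); omega⟩
    rw [← Finset.sum_fiberwise_of_maps_to hmap, Finset.mul_sum]
    have key : ∀ a ∈ Finset.range (n + 1) ×ˢ Finset.range n,
        T ^ (n - 1) * ∑ p ∈ hS.toFinset with (ι p, dimP p) = a, Hf p (κ * s) ≤
          (2 * q ^ (n + 1)) ^ n * K * s ^ (n - 1) * Hf I T := by
      rintro ⟨j, m⟩ ha
      obtain ⟨hj, hm⟩ := Finset.mem_product.1 ha
      simp only [Finset.mem_range] at hj hm
      have b := hK L (hS.toFinset.filter fun p => (ι p, dimP p) = (j, m)) (low I (q ^ j * t₀))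
        (q ^ j * t₀) m 0 (fun _ => 0) I (q ^ (j + 1) * t₀) s (by have := t1 j; omega)
        ((t2 j hj.le).trans hs) (by
          rw [pow_succ', mul_assoc q]
          exact Nat.mul_le_mul_right _ (Nat.le_succ _))
        (fun g hg => hg.2) (by omega) (fun p hp => by
          obtain ⟨hp', e⟩ := Finset.mem_filter.1 hp
          clear hp
          rw [Set.Finite.mem_toFinset] at hp'
          obtain ⟨rfl, rfl⟩ := Prod.mk.inj e
          refine ⟨ι2 p hp', rfl, fun g hg l hl => ?_⟩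
          rw [List.length_eq_zero_iff.1 (Nat.le_zero.1 hl), pd_nil]
          exact (ι2 p hp').1.2 (Ideal.subset_span hg)) (fun p hp f hf hd l hl => by
          obtain ⟨hp', e⟩ := Finset.mem_filter.1 hp
          clear hp
          rw [Set.Finite.mem_toFinset] at hp'
          obtain ⟨rfl, rfl⟩ := Prod.mk.inj e
          rw [List.length_eq_zero_iff.1 (Nat.le_zero.1 hl), pd_nil]
          exact ι3 p hp' (Ideal.subset_span ⟨hf, hd⟩))
      simp only [Nat.choose_zero_right, one_mul] at b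
      set Z := ∑ p ∈ hS.toFinset with (ι p, dimP p) = (j, m), Hf p (κ * s)
      have c1 : Hf I (q ^ (j + 1) * t₀) ≤ Hf I T := Hf_mono I (t2 _ (by omega))
      have c2 : T ^ m ≤ (2 * q ^ (n + 1)) ^ n * (q ^ (j + 1) * t₀) ^ m := by
        refine (Nat.pow_le_pow_left (h3.trans (Nat.mul_le_mul_left _ (t1 (j + 1)))) m).trans ?_
        rw [mul_pow]
        exact Nat.mul_le_mul_right _ (Nat.pow_le_pow_right (by omega) hm.le)
      have c3 : T ^ (n - 1 - m) ≤ s ^ (n - 1 - m) := Nat.pow_le_pow_left hs _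
      have c4 : n - 1 = n - 1 - m + m := by omega
      calc T ^ (n - 1) * Z = T ^ (n - 1 - m) * (T ^ m * Z) := by
            rw [← mul_assoc, ← pow_add, ← c4]
        _ ≤ s ^ (n - 1 - m) * ((2 * q ^ (n + 1)) ^ n * (q ^ (j + 1) * t₀) ^ m * Z) := by gcongr
        _ ≤ s ^ (n - 1 - m) * ((2 * q ^ (n + 1)) ^ n * (K * s ^ m * Hf I T)) := by
            rw [mul_assoc]
            exact Nat.mul_le_mul_left _ (Nat.mul_le_mul_left _
              (b.trans (Nat.mul_le_mul_left _ c1)))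
        _ = (2 * q ^ (n + 1)) ^ n * K * (s ^ (n - 1 - m) * s ^ m) * Hf I T := by ring
        _ = _ := by rw [← pow_add, ← c4]
    refine (Finset.sum_le_card_nsmul _ _ _ key).trans ?_
    rw [Finset.card_product, Finset.card_range, Finset.card_range, smul_eq_mul]
    calc _ = (n + 1) * n * ((2 * q ^ (n + 1)) ^ n * K) * s ^ (n - 1) * Hf I T := by ring
      _ ≤ _ := by gcongr; exact Nat.le_add_left _ _

end Crest.Agent.R65.CA
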