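import Mathlib

/-!
# Row 65, commutative algebra module: definitions

`A = MvPolynomial σ L`, `n = Fintype.card σ`.  Hilbert function `Hf`, admissible primes `Adm`,
growth at infinity `Grow` (through valuation rings), linear Noether normalisation `Norm`, the
conjugate generic points `Pts`, fat points `fatI`.
-/

set_option autoImplicit false

namespace Crest.Agent.R65.CA

open MvPolynomial

variable {σ : Type} {L : Type} [Field L]

/-- affine Hilbert function: `dim A_{≤ T} / I_{≤ T}` -/
noncomputable def Hf (I : Ideal (MvPolynomial σ L)) (T : ℕ) : ℕ :=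
  Module.finrank L ((restrictTotalDegree σ L T).map (Ideal.Quotient.mkₐ L I).toLinearMap)

/-- the elements of degree at most `t` -/
def low (I : Ideal (MvPolynomial σ L)) (t : ℕ) : Set (MvPolynomial σ L) :=
  {f | f ∈ I ∧ f.totalDegree ≤ t}

/-- `p` is a prime which is minimal over its elements of degree at most `t` -/
def Adm (p : Ideal (MvPolynomial σ L)) (t : ℕ) : Prop := p ∈ (Ideal.span (low p t)).minimalPrimes

/-- dimension of a prime -/
noncomputable def dimP (p : Ideal (MvPolynomial σ L)) : ℕ :=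
  (Algebra.trdeg L (MvPolynomial σ L ⧸ p)).toNat

/-- the points of `Y` on the zero set of `p` -/
def ZV (Y : Set (σ → L)) (p : Ideal (MvPolynomial σ L)) : Set (σ → L) :=
  {y | y ∈ Y ∧ ∀ f ∈ p, eval y f = 0}

/-- the points of `Y` on `Z(p)` are dense in `Z(p)` up to degree `T` -/
def Rich (Y : Set (σ → L)) (p : Ideal (MvPolynomial σ L)) (T : ℕ) : Prop :=
  ∀ f : MvPolynomial σ L, f.totalDegree ≤ T → (∀ y ∈ ZV Y p, eval y f = 0) → f ∈ p

/-- restriction of polynomials to a set of points -/
noncomputable def evalOn (S : Set (σ → L)) : MvPolynomial σ L →ₗ[L] (S → L) :=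
  LinearMap.pi fun y => (aeval (y : σ → L) : MvPolynomial σ L →ₐ[L] L).toLinearMap

/-- rank of a space of polynomials on a set of points -/
noncomputable def rk (W : Submodule L (MvPolynomial σ L)) (S : Set (σ → L)) : ℕ :=
  Module.finrank L (W.map (evalOn S))

/-- iterated partial derivative -/
noncomputable def pd (l : List σ) (g : MvPolynomial σ L) : MvPolynomial σ L :=
  l.foldr (fun i f => pderiv i f) g

/-- `g` vanishes to order at least `k` at `y` -/
def OrdGe (y : σ → L) (g : MvPolynomial σ L) (k : ℕ) : Prop :=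
  ∀ l : List σ, l.length < k → eval y (pd l g) = 0

/-- the ideal of a point with coordinates in an extension field -/
noncomputable def kerAt (L : Type) [Field L] {Ω : Type} [Field Ω] [Algebra L Ω] (ξ : σ → Ω) :
    Ideal (MvPolynomial σ L) :=
  RingHom.ker (aeval ξ : MvPolynomial σ L →ₐ[L] Ω)

/-- the maximal ideal of a rational point -/
noncomputable def mI (ξ : σ → L) : Ideal (MvPolynomial σ L) := RingHom.ker (eval ξ)

/-- `|φ| ≤ max (1, |z|) ^ e` at the generic point of `p`, for every valuation trivial on `L` -/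
def Grow {ι : Type} (p : Ideal (MvPolynomial σ L)) (z : ι → MvPolynomial σ L) (e : ℕ)
    (φ : MvPolynomial σ L) : Prop :=
  ∀ (Ω : Type) [Field Ω] [Algebra L Ω] (ξ : σ → Ω), kerAt L ξ = p →
    ∀ O : ValuationSubring Ω, (∀ l : L, algebraMap L Ω l ∈ O) → ∀ γ : O.ValueGroup, 1 ≤ γ →
      (∀ i, O.valuation (aeval ξ (z i)) ≤ γ) → O.valuation (aeval ξ φ) ≤ γ ^ e

/-- the field of rational functions in `m` variables -/
abbrev Kf (L : Type) [Field L] (m : ℕ) : Type := FractionRing (MvPolynomial (Fin m) L)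

/-- its algebraic closure -/
abbrev Om (L : Type) [Field L] (m : ℕ) : Type := AlgebraicClosure (Kf L m)

/-- the variables in `Om L m` -/
noncomputable def Xo (L : Type) [Field L] (m : ℕ) (i : Fin m) : Om L m :=
  algebraMap (MvPolynomial (Fin m) L) (Om L m) (X i)

/-- linear Noether normalisation with linear growth -/
structure Norm (p : Ideal (MvPolynomial σ L)) {m : ℕ} (z : Fin m → MvPolynomial σ L) : Prop where
  deg : ∀ i, (z i).totalDegree ≤ 1
  indep : AlgebraicIndependent L fun i => Ideal.Quotient.mk p (z i)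
  grow : ∀ j, Grow p z 1 (X j)

/-- the generic points of `p` over the generic point of the base -/
def Pts (p : Ideal (MvPolynomial σ L)) {m : ℕ} (z : Fin m → MvPolynomial σ L) :
    Set (σ → Om L m) :=
  {ξ | kerAt L ξ = p ∧ ∀ i, aeval ξ (z i) = Xo L m i}

/-- polynomials vanishing to order `> k` at `ξ` along the flat with directions `η` -/
noncomputable def fatI {c : ℕ} (ξ : σ → L) (η : Fin c → σ → L) (k : ℕ) :
    Ideal (MvPolynomial σ L) :=
  (idealOfVars (Fin c) L ^ (k + 1)).comap
    (aeval fun j => C (ξ j) + ∑ l, C (η l j) * X l :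
      MvPolynomial σ L →ₐ[L] MvPolynomial (Fin c) L)

theorem mem_kerAt {Ω : Type} [Field Ω] [Algebra L Ω] {ξ : σ → Ω} {f : MvPolynomial σ L} :
    f ∈ kerAt L ξ ↔ aeval ξ f = 0 := RingHom.mem_ker

theorem mem_mI {ξ : σ → L} {f : MvPolynomial σ L} : f ∈ mI ξ ↔ eval ξ f = 0 := RingHom.mem_ker

theorem kerAt_isPrime {Ω : Type} [Field Ω] [Algebra L Ω] (ξ : σ → Ω) : (kerAt L ξ).IsPrime :=
  RingHom.ker_isPrime _

theorem mI_isPrime (ξ : σ → L) : (mI ξ).IsPrime := RingHom.ker_isPrime _

theorem mI_isMaximal (ξ : σ → L) : (mI ξ).IsMaximal :=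
  RingHom.ker_isMaximal_of_surjective _ fun a => ⟨C a, eval_C a⟩

theorem Adm.isPrime {p : Ideal (MvPolynomial σ L)} {t : ℕ} (h : Adm p t) : p.IsPrime := h.1.1

theorem adm_of_min {p : Ideal (MvPolynomial σ L)} {G : Set (MvPolynomial σ L)} {t : ℕ}
    (hp : p ∈ (Ideal.span G).minimalPrimes) (hG : ∀ g ∈ G, g.totalDegree ≤ t) : Adm p t := by
  refine ⟨⟨hp.1.1, Ideal.span_le.2 fun f hf => hf.1⟩, fun q hq hqp => hp.2 ⟨hq.1, ?_⟩ hqp⟩
  have h : G ⊆ low p t := fun g hg => ⟨hp.1.2 (Ideal.subset_span hg), hG g hg⟩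
  exact le_trans (Ideal.span_mono h) hq.2

theorem Adm.mono {p : Ideal (MvPolynomial σ L)} {t t' : ℕ} (h : Adm p t) (ht : t ≤ t') :
    Adm p t' := adm_of_min h fun _ hg => hg.2.trans ht

@[simp] theorem pd_nil (g : MvPolynomial σ L) : pd [] g = g := rfl

@[simp] theorem pd_cons (i : σ) (l : List σ) (g : MvPolynomial σ L) :
    pd (i :: l) g = pderiv i (pd l g) := rfl

theorem pd_append (l l' : List σ) (g : MvPolynomial σ L) : pd (l ++ l') g = pd l (pd l' g) :=
  List.foldr_append

theorem evalOn_apply (S : Set (σ → L)) (f : MvPolynomial σ L) (y : S) :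
    evalOn S f y = eval (y : σ → L) f := by
  simp [evalOn, aeval_eq_eval]

end Crest.Agent.R65.CA
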