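import Crest.Agent.R65.CADefs

/-! Row 65, commutative algebra module: dimension of primes, chains. -/

set_option autoImplicit false

namespace Crest.Agent.R65.CA

open MvPolynomial

variable {σ : Type} [Fintype σ] {L : Type} [Field L]

theorem CADim_trdeg_succ_le {A B : Type} [CommRing A] [IsDomain A] [CommRing B] [IsDomain B]
    [Algebra L A] [Algebra L B] (f : A →ₐ[L] B) (hf : Function.Surjective f) {a : A} (h0 : a ≠ 0)
    (ha : f a = 0) : Algebra.trdeg L B + 1 ≤ Algebra.trdeg L A := by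
  obtain ⟨ι, x, hx⟩ := exists_isTranscendenceBasis' L B
  choose y hy using fun i => hf (x i)
  have hfy : f ∘ y = x := funext hy
  have hyi : AlgebraicIndependent L y := AlgebraicIndependent.of_comp f (hfy ▸ hx.1)
  have ht : Transcendental (Algebra.adjoin L (Set.range y)) a := by
    intro halg
    obtain ⟨r, hr0, c, hc⟩ := halg.exists_nonzero_dvd (mem_nonZeroDivisors_of_ne_zero h0)
    obtain ⟨P, hP⟩ := (Algebra.adjoin_range_eq_range_aeval L y).le r.2
    have hP' : aeval y P = (r : A) := hP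
    have h1 : aeval x P = 0 := by
      have h2 : f (aeval y P) = aeval x P := by
        rw [← hfy, ← AlgHom.comp_apply, comp_aeval]; rfl
      have h3 : (r : A) = a * c := hc
      rw [← h2, hP', h3, map_mul, ha, zero_mul]
    have h4 : P = 0 := hx.1.eq_zero_of_aeval_eq_zero P h1
    apply hr0
    ext
    rw [← hP', h4, map_zero]; rfl
  have h5 := ((hyi.option_iff_transcendental a).2 ht).cardinalMk_le_trdeg
  rwa [Cardinal.mk_option, hx.cardinalMk_eq_trdeg] at h5

theorem trdeg_eq_dimP (p : Ideal (MvPolynomial σ L)) (hp : p.IsPrime) :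
    Algebra.trdeg L (MvPolynomial σ L ⧸ p) = dimP p := by
  have := hp
  exact (Cardinal.cast_toNat_of_lt_aleph0 trdeg_lt_aleph0_of_finiteType).symm

theorem dimP_bot : dimP (⊥ : Ideal (MvPolynomial σ L)) = Fintype.card σ := by
  unfold dimP
  rw [(AlgEquiv.quotientBot L (MvPolynomial σ L)).trdeg_eq, MvPolynomial.trdeg_of_isDomain]
  simp

/-- lift a transcendence basis of `A / q` to `A / p` and add an element of `q \ p` -/
theorem dimP_lt {p q : Ideal (MvPolynomial σ L)} (hp : p.IsPrime) (hq : q.IsPrime) (h : p < q) :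
    dimP q < dimP p := by
  have := hp
  have := hq
  obtain ⟨g, hgq, hgp⟩ := SetLike.exists_of_lt h
  have h1 := CADim_trdeg_succ_le (L := L) (Ideal.Quotient.factorₐ L h.le)
    (Ideal.Quotient.factor_surjective h.le) (a := Ideal.Quotient.mk p g)
    (fun h0 => hgp (Ideal.Quotient.eq_zero_iff_mem.1 h0))
    (Ideal.Quotient.eq_zero_iff_mem.2 hgq)
  rw [trdeg_eq_dimP p hp, trdeg_eq_dimP q hq] at h1
  exact_mod_cast h1

theorem dimP_le {p : Ideal (MvPolynomial σ L)} (hp : p.IsPrime) : dimP p ≤ Fintype.card σ := by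
  rw [← dimP_bot (L := L)]
  rcases eq_or_lt_of_le (bot_le : ⊥ ≤ p) with h | h
  · rw [← h]
  · exact (dimP_lt Ideal.isPrime_bot hp h).le

theorem dimP_lt_card {p : Ideal (MvPolynomial σ L)} (hp : p.IsPrime) {g : MvPolynomial σ L}
    (hg : g ∈ p) (h0 : g ≠ 0) : dimP p < Fintype.card σ := by
  rw [← dimP_bot (L := L)]
  refine dimP_lt Ideal.isPrime_bot hp (bot_lt_iff_ne_bot.2 fun h => h0 ?_)
  rwa [h, Ideal.mem_bot] at hg

/-- a prime of codimension one is minimal over each of its nonzero elements -/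
theorem min_of_codim_one {p : Ideal (MvPolynomial σ L)} (hp : p.IsPrime)
    (hd : dimP p + 1 = Fintype.card σ) {g : MvPolynomial σ L} (hg : g ∈ p) (h0 : g ≠ 0) :
    p ∈ (Ideal.span {g}).minimalPrimes := by
  refine ⟨⟨hp, (Ideal.span_singleton_le_iff_mem _).2 hg⟩, fun q hq hqp => ?_⟩
  rcases eq_or_lt_of_le hqp with h | h
  · exact h.ge
  · have h1 := dimP_lt hq.1 hp h
    have h2 := dimP_lt_card hq.1 ((Ideal.span_singleton_le_iff_mem _).1 hq.2) h0
    omega

/-- Common component: choose `p_{n+1} ≤ M` minimal over `I (n+1)`, then `p_j ≤ p_{j+1}` minimal over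
`I j` (`Ideal.exists_minimalPrimes_le`); the chain cannot be strict (`dimP_lt`, `dimP_le`). -/
theorem exists_common (I : ℕ → Ideal (MvPolynomial σ L)) (hI : ∀ j, I j ≤ I (j + 1))
    {M : Ideal (MvPolynomial σ L)} (hM : M.IsPrime) (h : ∀ j ≤ Fintype.card σ + 1, I j ≤ M) :
    ∃ j ≤ Fintype.card σ, ∃ p ∈ (I j).minimalPrimes, I (j + 1) ≤ p ∧ p ≤ M := by
  have := hM
  by_contra hcon
  have key : ∀ i j, i + j = Fintype.card σ + 1 →
      ∃ p ∈ (I j).minimalPrimes, p ≤ M ∧ i ≤ dimP p := by
    intro i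
    induction i with
    | zero =>
      intro j hj
      obtain ⟨p, hp, hpM⟩ := Ideal.exists_minimalPrimes_le (h j (by omega))
      exact ⟨p, hp, hpM, Nat.zero_le _⟩
    | succ i ih =>
      intro j hj
      obtain ⟨q, hq, hqM, hi⟩ := ih (j + 1) (by omega)
      have := hq.1.1
      obtain ⟨p, hp, hpq⟩ := Ideal.exists_minimalPrimes_le ((hI j).trans hq.1.2)
      refine ⟨p, hp, hpq.trans hqM, ?_⟩
      rcases eq_or_lt_of_le hpq with e | e
      · exact absurd ⟨j, by omega, p, hp, e ▸ hq.1.2, hpq.trans hqM⟩ hcon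
      · have := dimP_lt hp.1.1 hq.1.1 e
        omega
  obtain ⟨p, hp, -, hi⟩ := key (Fintype.card σ + 1) 0 rfl
  have := dimP_le hp.1.1
  omega

theorem comb_step [Infinite L] {G : Set (MvPolynomial σ L)} {M : Ideal (MvPolynomial σ L)}
    (hM : M ∈ (Ideal.span G).minimalPrimes) (I : Ideal (MvPolynomial σ L)) :
    ∃ g ∈ Submodule.span L G, ∀ q ∈ I.minimalPrimes, q < M → g ∉ q := by
  have hS : Set.Finite {q | q ∈ I.minimalPrimes ∧ q < M} :=
    (I.finite_minimalPrimes_of_isNoetherianRing _).subset fun _ h => h.1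
  have := hS.to_subtype
  obtain ⟨g, hg⟩ := Submodule.exists_forall_notMem_of_forall_ne_top
    (fun q : {q | q ∈ I.minimalPrimes ∧ q < M} =>
      (q.1.restrictScalars L).comap (Submodule.span L G).subtype) (by
      rintro ⟨q, hq, hqM⟩ h
      refine hqM.not_ge (hM.2 ⟨hq.1.1, Ideal.span_le.2 fun g hg => ?_⟩ hqM.le)
      have : (⟨g, Submodule.subset_span hg⟩ : Submodule.span L G) ∈
          (q.restrictScalars L).comap (Submodule.span L G).subtype := by
        simp only at h
        rw [h]; trivial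
      exact this)
  exact ⟨g, g.2, fun q hq hqM => hg ⟨q, hq, hqM⟩⟩

theorem comb_ind [Infinite L] {G : Set (MvPolynomial σ L)} {M : Ideal (MvPolynomial σ L)}
    (hM : M ∈ (Ideal.span G).minimalPrimes) (j : ℕ) :
    ∃ P : Fin j → MvPolynomial σ L, (∀ i, P i ∈ Submodule.span L G) ∧
      ∀ q : Ideal (MvPolynomial σ L), q.IsPrime → (∀ i, P i ∈ q) → q < M →
        dimP q + j ≤ Fintype.card σ := by
  induction j with
  | zero => exact ⟨Fin.elim0, fun i => i.elim0, fun q hq _ _ => dimP_le hq⟩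
  | succ j ih =>
    obtain ⟨P, hP, hd⟩ := ih
    obtain ⟨g, hg, hq⟩ := comb_step hM (Ideal.span (Set.range P))
    refine ⟨Fin.cons g P, fun i => Fin.cases hg hP i, fun q hqp hPq hqM => ?_⟩
    have hle : Ideal.span (Set.range P) ≤ q :=
      Ideal.span_le.2 (Set.range_subset_iff.2 fun i => hPq i.succ)
    obtain ⟨q', hq', hq'q⟩ := Ideal.exists_minimalPrimes_le hle
    have hM' : q' < M := hq'q.trans_lt hqM
    have hlt : q' < q := lt_of_le_of_ne hq'q fun e => hq q' hq' hM' (e ▸ hPq 0)
    have h1 := dimP_lt hq'.1.1 hqp hlt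
    have h2 := hd q' hq'.1.1 (fun i => hq'.1.2 (Ideal.subset_span ⟨i, rfl⟩)) hM'
    omega

/-- Generic combinations.  Induct on `j ≤ n`: there are `P_1, …, P_j` in the span such that every
prime `q` with `(P_1, …, P_j) ≤ q < M` has `dimP q + j ≤ n` and, as `q < M`, `dimP q ≥ 1`.  Step:
no minimal prime `q < M` of `(P_1, …, P_j)` contains `G`, so (infinite field, finitely many
minimal primes, `Subspace.biUnion_ne_univ_of_top_notMem` or induction) some `P_{j+1}` in the span
avoids all of them. -/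
theorem exists_comb [Infinite L] {G : Set (MvPolynomial σ L)} {M : Ideal (MvPolynomial σ L)}
    (hM : M ∈ (Ideal.span G).minimalPrimes) :
    ∃ P : σ → MvPolynomial σ L, (∀ i, P i ∈ Submodule.span L G) ∧
      M ∈ (Ideal.span (Set.range P)).minimalPrimes := by
  obtain ⟨P, hP, hd⟩ := comb_ind hM (Fintype.card σ)
  have hG : Submodule.span L G ≤ M.restrictScalars L :=
    Submodule.span_le.2 fun g hg => hM.1.2 (Ideal.subset_span hg)
  refine ⟨fun i => P (Fintype.equivFin σ i), fun i => hP _, ⟨hM.1.1, Ideal.span_le.2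
    (Set.range_subset_iff.2 fun i => hG (hP _))⟩, fun q hq hqM => ?_⟩
  by_contra hn
  have hlt : q < M := lt_of_le_of_ne hqM fun e => hn e.ge
  have h1 := hd q hq.1 (fun i => by
    have := hq.2 (Ideal.subset_span ⟨(Fintype.equivFin σ).symm i, rfl⟩)
    simpa using this) hlt
  have h2 := dimP_lt hq.1 hM.1.1 hlt
  omega

end Crest.Agent.R65.CA
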