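import Crest.Agent.R65.CABasic

/-! Row 65, commutative algebra module: adjoining variables. -/

set_option autoImplicit false

namespace Crest.Agent.R65.CA

open MvPolynomial

variable {σ τ : Type} [Fintype σ] [Fintype τ] {L : Type} [Field L]

/-- the extension of an ideal to more variables -/
noncomputable def ext (τ : Type) (p : Ideal (MvPolynomial σ L)) :
    Ideal (MvPolynomial (σ ⊕ τ) L) :=
  p.map (rename (Sum.inl : σ → σ ⊕ τ) : MvPolynomial σ L →ₐ[L] MvPolynomial (σ ⊕ τ) L)

/-- the new variables are taken outside -/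
noncomputable def extEquiv (σ τ L : Type) [Field L] :
    MvPolynomial (σ ⊕ τ) L ≃ₐ[L] MvPolynomial τ (MvPolynomial σ L) :=
  (sumAlgEquiv L σ τ).trans (commAlgEquiv L σ τ)

omit [Fintype σ] [Fintype τ] in
theorem extEquiv_rename (f : MvPolynomial σ L) :
    extEquiv σ τ L (rename (Sum.inl : σ → σ ⊕ τ) f) = C f := by
  have h : (extEquiv σ τ L).toAlgHom.comp (rename (Sum.inl : σ → σ ⊕ τ)) =
      IsScalarTower.toAlgHom L (MvPolynomial σ L) (MvPolynomial τ (MvPolynomial σ L)) := by
    refine MvPolynomial.algHom_ext fun i => ?_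
    simp [extEquiv]
  exact DFunLike.congr_fun h f

omit [Fintype σ] [Fintype τ] in
theorem ext_eq_comap (p : Ideal (MvPolynomial σ L)) :
    ext τ p = (p.map (C : MvPolynomial σ L →+* MvPolynomial τ (MvPolynomial σ L))).comap
      (extEquiv σ τ L) := by
  apply le_antisymm
  · refine Ideal.map_le_iff_le_comap.mpr fun f hf => ?_
    rw [Ideal.mem_comap, Ideal.mem_comap, extEquiv_rename]
    exact Ideal.mem_map_of_mem _ hf
  · have h : p.map (C : MvPolynomial σ L →+* MvPolynomial τ (MvPolynomial σ L)) ≤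
        (ext τ p).comap (extEquiv σ τ L).symm := by
      refine Ideal.map_le_iff_le_comap.mpr fun f hf => ?_
      rw [Ideal.mem_comap, Ideal.mem_comap, ← extEquiv_rename, AlgEquiv.symm_apply_apply]
      exact Ideal.mem_map_of_mem _ hf
    intro g hg
    have h1 := h (Ideal.mem_comap.mp hg)
    rwa [Ideal.mem_comap, AlgEquiv.symm_apply_apply] at h1

/-- `sumAlgEquiv`, `MvPolynomial.quotientEquivQuotientMvPolynomial` -/
theorem ext_isPrime {p : Ideal (MvPolynomial σ L)} (hp : p.IsPrime) : (ext τ p).IsPrime := by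
  have h : (p.map (C : MvPolynomial σ L →+* MvPolynomial τ (MvPolynomial σ L))).IsPrime := by
    have h1 := MvPolynomial.ker_map (σ := τ) (Ideal.Quotient.mk p)
    rw [Ideal.mk_ker] at h1
    rw [← h1]
    exact RingHom.ker_isPrime _
  rw [ext_eq_comap]
  exact Ideal.comap_isPrime _ _

theorem rename_mem_ext {p : Ideal (MvPolynomial σ L)} {f : MvPolynomial σ L} :
    rename (Sum.inl : σ → σ ⊕ τ) f ∈ ext τ p ↔ f ∈ p := by
  refine ⟨fun h => ?_, fun h => Ideal.mem_map_of_mem _ h⟩
  rw [ext_eq_comap, Ideal.mem_comap, extEquiv_rename, MvPolynomial.mem_map_C_iff] at h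
  simpa using h 0

theorem ext_adm {p : Ideal (MvPolynomial σ L)} {t : ℕ} (hp : Adm p t) : Adm (ext τ p) t := by
  refine adm_of_min (G := rename (Sum.inl : σ → σ ⊕ τ) '' low p t)
    ⟨⟨ext_isPrime hp.isPrime, Ideal.span_le.mpr ?_⟩, fun q hq hqp => ?_⟩ ?_
  · rintro _ ⟨f, hf, rfl⟩
    exact rename_mem_ext.mpr hf.1
  · have hq1 := hq.1
    refine Ideal.map_le_iff_le_comap.mpr (hp.2 ⟨Ideal.comap_isPrime _ _, ?_⟩ ?_)
    · exact Ideal.span_le.mpr fun f hf => hq.2 (Ideal.subset_span ⟨f, hf, rfl⟩)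
    · exact fun f hf => rename_mem_ext.mp (hqp hf)
  · rintro _ ⟨f, hf, rfl⟩
    exact (totalDegree_rename_le _ _).trans hf.2

theorem ext_finrank_mul_le {S : Type} [CommRing S] [Algebra L S] (M N : Submodule L S)
    [Module.Finite L M] [Module.Finite L N] :
    Module.Finite L ↥(M * N) ∧
      Module.finrank L ↥(M * N) ≤ Module.finrank L M * Module.finrank L N := by
  rw [← Submodule.mulMap_range, ← Module.finrank_tensorProduct]
  exact ⟨inferInstance, LinearMap.finrank_range_le _⟩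

theorem Hf_ext (p : Ideal (MvPolynomial σ L)) (T : ℕ) :
    Hf (ext τ p) T ≤ Hf p T * (T + Fintype.card τ).choose (Fintype.card τ) := by
  let π := Ideal.Quotient.mkₐ L (ext τ p)
  let M := (restrictTotalDegree σ L T).map (π.comp (rename (Sum.inl : σ → σ ⊕ τ))).toLinearMap
  let N := (restrictTotalDegree τ L T).map (π.comp (rename (Sum.inr : τ → σ ⊕ τ))).toLinearMap
  have hM : Module.finrank L M ≤ Hf p T := finrank_map_le_Hf _ p T fun f hf _ =>
    Ideal.Quotient.eq_zero_iff_mem.mpr (rename_mem_ext.mpr hf)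
  have hN : Module.finrank L N ≤ (T + Fintype.card τ).choose (Fintype.card τ) := by
    rw [← Hf_bot (L := L)]
    refine finrank_map_le_Hf _ ⊥ T fun f hf _ => ?_
    rw [Ideal.mem_bot.mp hf, map_zero]
  obtain ⟨h1, h2⟩ := ext_finrank_mul_le M N
  refine le_trans (Submodule.finrank_mono ?_) (h2.trans (Nat.mul_le_mul hM hN))
  rintro _ ⟨g, hg, rfl⟩
  have hg' : g.totalDegree ≤ T := (mem_restrictTotalDegree _ _ _).mp hg
  rw [as_sum g, map_sum]
  refine Submodule.sum_mem _ fun m hm => ?_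
  have hd := (le_totalDegree hm).trans hg'
  obtain ⟨m₁, m₂, hm12⟩ : ∃ (m₁ : σ →₀ ℕ) (m₂ : τ →₀ ℕ), m₁.sumElim m₂ = m :=
    ⟨_, _, Finsupp.comapDomain_sumElim_comapDomain m⟩
  have hd' : (m₁.sum fun _ e => e) + (m₂.sum fun _ e => e) ≤ T := by
    rw [← hm12, Finsupp.sum_sumElim] at hd
    exact hd
  have e : (monomial m (coeff m g) : MvPolynomial (σ ⊕ τ) L) =
      rename Sum.inl (monomial m₁ (coeff m g)) * rename Sum.inr (monomial m₂ 1) := by
    rw [rename_monomial, rename_monomial, monomial_mul, mul_one, ← Finsupp.sumElim_eq_add, hm12]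
  rw [e, AlgHom.toLinearMap_apply, map_mul]
  refine Submodule.mul_mem_mul ⟨_, (mem_restrictTotalDegree _ _ _).mpr ?_, rfl⟩
    ⟨_, (mem_restrictTotalDegree _ _ _).mpr ?_, rfl⟩
  · exact (totalDegree_monomial_le _ _).trans (le_trans (Nat.le_add_right _ _) hd')
  · exact (totalDegree_monomial_le _ _).trans (le_trans (Nat.le_add_left _ _) hd')

theorem eval_ext {p : Ideal (MvPolynomial σ L)} {y : σ ⊕ τ → L} :
    (∀ f ∈ ext τ p, eval y f = 0) ↔ ∀ f ∈ p, eval (fun j => y (Sum.inl j)) f = 0 := by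
  constructor
  · intro h f hf
    have h1 := h _ (rename_mem_ext.mpr hf)
    rwa [eval_rename] at h1
  · intro h
    have h1 : ext τ p ≤ RingHom.ker (eval y) := by
      refine Ideal.map_le_iff_le_comap.mpr fun f hf => ?_
      rw [Ideal.mem_comap, RingHom.mem_ker, eval_rename]
      exact h f hf
    exact fun f hf => h1 hf

end Crest.Agent.R65.CA
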