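import Crest.Agent.R65.CANum

/-! Row 65, commutative algebra module: fat points and the Chinese remainder theorem. -/

set_option autoImplicit false

namespace Crest.Agent.R65.CA

open MvPolynomial

variable {σ : Type} [Fintype σ] {Ω : Type} [Field Ω]

/-- translation of `ξ` to the origin -/
noncomputable def f1_tr {σ : Type} (ξ : σ → Ω) : MvPolynomial σ Ω ≃ₐ[Ω] MvPolynomial σ Ω :=
  AlgEquiv.ofAlgHom (aeval fun j => X j + C (ξ j)) (aeval fun j => X j - C (ξ j))
    (by ext j : 1; simp) (by ext j : 1; simp)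

omit [Fintype σ] in
theorem f1_tr_apply (ξ : σ → Ω) (f : MvPolynomial σ Ω) :
    f1_tr ξ f = aeval (fun j => X j + C (ξ j)) f := rfl

omit [Fintype σ] in
theorem f1_coeff_zero_tr (ξ : σ → Ω) (f : MvPolynomial σ Ω) :
    coeff 0 (f1_tr ξ f) = eval ξ f := by
  rw [← constantCoeff_eq, f1_tr_apply]
  induction f using MvPolynomial.induction_on with
  | C a => simp
  | add p q hp hq => simp only [map_add, hp, hq]
  | mul_X p j hp => simp only [map_mul, hp, aeval_X, map_add, constantCoeff_X, constantCoeff_C,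
      zero_add, eval_X]

omit [Fintype σ] in
theorem f1_pderiv_tr (ξ : σ → Ω) (i : σ) (f : MvPolynomial σ Ω) :
    pderiv i (f1_tr ξ f) = f1_tr ξ (pderiv i f) := by
  classical
  simp only [f1_tr_apply]
  induction f using MvPolynomial.induction_on with
  | C a => simp
  | add p q hp hq => simp only [map_add, hp, hq]
  | mul_X p j hp =>
    simp only [map_mul, aeval_X, pderiv_mul, hp, map_add, pderiv_C, add_zero]
    congr 2
    by_cases h : j = i
    · subst h; simp
    · simp [pderiv_X_of_ne h]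

omit [Fintype σ] in
theorem f1_pd_tr (ξ : σ → Ω) (l : List σ) (f : MvPolynomial σ Ω) :
    pd l (f1_tr ξ f) = f1_tr ξ (pd l f) := by
  induction l with
  | nil => rfl
  | cons i l ih => rw [pd_cons, pd_cons, ih, f1_pderiv_tr]

omit [Fintype σ] in
theorem f1_mI_eq_map (ξ : σ → Ω) : mI ξ = (idealOfVars σ Ω).map (f1_tr ξ).symm := by
  ext f
  rw [mem_mI, ← f1_coeff_zero_tr, Ideal.mem_map_of_equiv, ← pow_one (idealOfVars σ Ω)]
  constructor
  · intro h
    refine ⟨f1_tr ξ f, (mem_pow_idealOfVars_iff' 1 _).2 fun x hx => ?_, by simp⟩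
    rwa [(Finsupp.degree_eq_zero_iff x).1 (Nat.lt_one_iff.1 hx)]
  · rintro ⟨g, hg, rfl⟩
    rw [AlgEquiv.apply_symm_apply]
    exact (mem_pow_idealOfVars_iff' 1 _).1 hg 0 (by simp)

omit [Fintype σ] in
theorem f1_mem_pow_iff (ξ : σ → Ω) (N : ℕ) (f : MvPolynomial σ Ω) :
    f ∈ mI ξ ^ N ↔ ∀ x : σ →₀ ℕ, x.degree < N → coeff x (f1_tr ξ f) = 0 := by
  rw [f1_mI_eq_map, ← Ideal.map_pow, Ideal.mem_map_of_equiv, ← mem_pow_idealOfVars_iff']
  constructor
  · rintro ⟨g, hg, rfl⟩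
    rwa [AlgEquiv.apply_symm_apply]
  · intro h
    exact ⟨_, h, by simp⟩

omit [Fintype σ] in
theorem f1_coeff_of_pd [CharZero Ω] (n : ℕ) : ∀ (x : σ →₀ ℕ) (g : MvPolynomial σ Ω),
    x.degree = n → (∀ l : List σ, l.length = n → coeff 0 (pd l g) = 0) → coeff x g = 0 := by
  induction n with
  | zero =>
    intro x g hx h
    rw [(Finsupp.degree_eq_zero_iff x).1 hx]
    exact h [] rfl
  | succ n ih =>
    intro x g hx h
    have hx0 : x ≠ 0 := by
      rintro rfl
      simp at hx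
    obtain ⟨i, hi⟩ := Finsupp.ne_iff.1 hx0
    have hi' : x i ≠ 0 := hi
    obtain ⟨y, rfl⟩ : ∃ y, x = y + Finsupp.single i 1 :=
      ⟨x - Finsupp.single i 1, (Finsupp.sub_add_single_one_cancel hi').symm⟩
    have hy : y.degree = n := by simpa using hx
    have key := ih y (pderiv i g) hy fun l hl => by
      have := h (l ++ [i]) (by simp [hl])
      rwa [pd_append] at this
    rw [coeff_pderiv] at key
    exact (mul_eq_zero.1 key).resolve_right (Nat.cast_add_one_ne_zero _)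

omit [Fintype σ] in
theorem f1_coeff_pd (l : List σ) (g : MvPolynomial σ Ω) (k : ℕ)
    (h : ∀ x : σ →₀ ℕ, x.degree < k → coeff x g = 0) :
    ∀ x : σ →₀ ℕ, x.degree + l.length < k → coeff x (pd l g) = 0 := by
  induction l with
  | nil => simpa using h
  | cons i l ih =>
    intro x hx
    rw [pd_cons, coeff_pderiv, ih _ (by simpa [add_assoc, add_comm 1] using hx), zero_mul]

theorem mI_eq_span (ξ : σ → Ω) : mI ξ = Ideal.span (Set.range fun j => X j - C (ξ j)) := by
  rw [f1_mI_eq_map, idealOfVars, Ideal.map_span, ← Set.range_comp]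
  congr 2
  funext j
  simp [f1_tr]

theorem finite_quot_pow (ξ : σ → Ω) (N : ℕ) :
    FiniteDimensional Ω (MvPolynomial σ Ω ⧸ mI ξ ^ N) := by
  classical
  let F : restrictTotalDegree σ Ω N →ₗ[Ω] (MvPolynomial σ Ω ⧸ mI ξ ^ N) :=
    (Ideal.Quotient.mkₐ Ω (mI ξ ^ N)).toLinearMap ∘ₗ (f1_tr ξ).symm.toLinearMap ∘ₗ
      (restrictTotalDegree σ Ω N).subtype
  refine Module.Finite.of_surjective F fun q => ?_
  obtain ⟨f, rfl⟩ := Ideal.Quotient.mk_surjective q
  let g : MvPolynomial σ Ω := ∑ x ∈ (f1_tr ξ f).support with x.degree < N,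
    monomial x (coeff x (f1_tr ξ f))
  have hg : g ∈ restrictTotalDegree σ Ω N := by
    rw [mem_restrictTotalDegree]
    refine totalDegree_finsetSum_le fun x hx => (totalDegree_monomial_le _ _).trans ?_
    exact (Finset.mem_filter.1 hx).2.le
  refine ⟨⟨g, hg⟩, ?_⟩
  show Ideal.Quotient.mk (mI ξ ^ N) ((f1_tr ξ).symm g) = Ideal.Quotient.mk (mI ξ ^ N) f
  rw [Ideal.Quotient.eq, f1_mem_pow_iff]
  intro x hx
  rw [map_sub, AlgEquiv.apply_symm_apply, coeff_sub, sub_eq_zero, coeff_sum]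
  simp only [coeff_monomial]
  rw [Finset.sum_ite_eq']
  split_ifs with h
  · rfl
  · rw [Finset.mem_filter, not_and_or] at h
    exact (notMem_support_iff.1 (h.resolve_right (not_not.2 hx))).symm

theorem pow_le_fatI {c : ℕ} (ξ : σ → Ω) (η : Fin c → σ → Ω) (k : ℕ) :
    mI ξ ^ (k + 1) ≤ fatI ξ η k := by
  refine le_trans (Ideal.pow_right_mono ?_ _) (Ideal.le_comap_pow _ (k + 1))
  rw [mI_eq_span, Ideal.span_le]
  rintro _ ⟨j, rfl⟩
  rw [SetLike.mem_coe, Ideal.mem_comap]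
  simp only [map_sub, aeval_X, aeval_C, algebraMap_eq, add_sub_cancel_left]
  exact Ideal.sum_mem _ fun l _ => Ideal.mul_mem_left _ _ (Ideal.subset_span ⟨l, rfl⟩)

/-- Taylor: translate `ξ` to `0`, `mem_pow_idealOfVars_iff'`, and induct on the degree of the
monomial with the formula for the coefficients of `pderiv`. -/
theorem mem_pow_of_pd [CharZero Ω] (ξ : σ → Ω) (k : ℕ) (f : MvPolynomial σ Ω)
    (h : ∀ l : List σ, l.length ≤ k → eval ξ (pd l f) = 0) : f ∈ mI ξ ^ (k + 1) := by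
  rw [f1_mem_pow_iff]
  intro x hx
  refine f1_coeff_of_pd _ x _ rfl fun l hl => ?_
  rw [f1_pd_tr, f1_coeff_zero_tr]
  exact h l (by omega)

/-- converse of `mem_pow_of_pd` -/
theorem pd_of_mem_pow (ξ : σ → Ω) (k : ℕ) (f : MvPolynomial σ Ω) (h : f ∈ mI ξ ^ k)
    (l : List σ) (hl : l.length < k) : eval ξ (pd l f) = 0 := by
  rw [← f1_coeff_zero_tr, ← f1_pd_tr]
  exact f1_coeff_pd l _ k ((f1_mem_pow_iff ξ k f).1 h) 0 (by simpa using hl)

omit [Fintype σ] in
theorem pd_map {L : Type} [Field L] (φ : L →+* Ω) (l : List σ) (f : MvPolynomial σ L) :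
    pd l (map φ f) = map φ (pd l f) := by
  induction l with
  | nil => rfl
  | cons i l ih => rw [pd_cons, pd_cons, ih, pderiv_map]

omit [Fintype σ] in
theorem totalDegree_pd_le (l : List σ) (f : MvPolynomial σ Ω) :
    (pd l f).totalDegree ≤ f.totalDegree := by
  induction l with
  | nil => exact le_rfl
  | cons i l ih =>
    refine le_trans ?_ ih
    rw [pd_cons]
    refine Finset.sup_le fun x hx => ?_
    rw [mem_support_iff, coeff_pderiv] at hx
    have h := le_totalDegree (mem_support_iff.2 (left_ne_zero_of_mul hx))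
    change (x + Finsupp.single i 1).degree ≤ _ at h
    change x.degree ≤ _
    rw [map_add] at h
    omega

theorem fat2_lin {c : ℕ} (ξ : σ → Ω) (η : Fin c → σ → Ω) (b : σ → Ω) :
    (aeval fun j => C (ξ j) + ∑ l, C (η l j) * X l :
      MvPolynomial σ Ω →ₐ[Ω] MvPolynomial (Fin c) Ω) (∑ j, C (b j) * (X j - C (ξ j))) =
      ∑ l, C (∑ j, b j * η l j) * X l := by
  simp only [map_sum, map_mul, map_sub, aeval_X, aeval_C, algebraMap_eq, add_sub_cancel_left,
    Finset.mul_sum, Finset.sum_mul, mul_assoc]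
  exact Finset.sum_comm

theorem fat2_lin_mem {c : ℕ} (ξ : σ → Ω) (η : Fin c → σ → Ω) (k : ℕ) {b : σ → Ω}
    (h : ∀ l, ∑ j, b j * η l j = 0) : ∑ j, C (b j) * (X j - C (ξ j)) ∈ fatI ξ η k := by
  rw [fatI, Ideal.mem_comap, fat2_lin]
  simp [h]

theorem fat2_affine (ξ : σ → Ω) {f : MvPolynomial σ Ω} (hf : f.totalDegree ≤ 1) :
    f = C (eval ξ f) + ∑ j, C (eval ξ (pderiv j f)) * (X j - C (ξ j)) := by
  classical
  have key : ∀ d ∈ f.support, monomial d (coeff d f) = C (eval ξ (monomial d (coeff d f))) +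
      ∑ j, C (eval ξ (pderiv j (monomial d (coeff d f)))) * (X j - C (ξ j)) := by
    intro d hd
    generalize coeff d f = a
    rcases Nat.le_one_iff_eq_zero_or_eq_one.1 ((le_totalDegree hd).trans hf) with h | h
    · have : d = 0 := (Finsupp.degree_eq_zero_iff d).1 h
      subst this
      simp
    · obtain ⟨i, rfl⟩ := (Finsupp.sum_eq_one_iff d).1 h
      rw [← C_mul_X_eq_monomial, Finset.sum_eq_single i]
      · simp only [map_mul, eval_C, eval_X, pderiv_C_mul, pderiv_X_self, mul_one]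
        ring
      · intro j _ hj
        simp [pderiv_X_of_ne hj.symm]
      · simp
  conv_lhs => rw [f.as_sum, Finset.sum_congr rfl key]
  conv_rhs => rw [f.as_sum]
  simp only [map_sum, Finset.sum_add_distrib, Finset.sum_mul]
  rw [Finset.sum_comm]

theorem fat2_taylor (ξ : σ → Ω) (f : MvPolynomial σ Ω) :
    f - C (eval ξ f) - ∑ j, C (eval ξ (pderiv j f)) * (X j - C (ξ j)) ∈ mI ξ ^ 2 := by
  classical
  induction f using MvPolynomial.induction_on with
  | C a => simp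
  | add f g hf hg =>
    have := add_mem hf hg
    simp only [map_add, add_mul, Finset.sum_add_distrib]
    convert this using 1
    ring
  | mul_X f i hf =>
    have h1 : ∀ j, (X j - C (ξ j) : MvPolynomial σ Ω) ∈ mI ξ := fun j => by simp [mem_mI]
    have h2 : ∑ j, C (eval ξ (pderiv j f)) * (X j - C (ξ j)) ∈ mI ξ :=
      Ideal.sum_mem _ fun j _ => Ideal.mul_mem_left _ _ (h1 j)
    have h3 := add_mem (Ideal.mul_mem_right (X i) _ hf)
      ((sq (mI ξ)).symm ▸ Ideal.mul_mem_mul h2 (h1 i))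
    have h4 : ∑ j, C (eval ξ (pderiv j (f * X i))) * (X j - C (ξ j)) =
        (∑ j, C (eval ξ (pderiv j f)) * (X j - C (ξ j))) * C (ξ i) +
          C (eval ξ f) * (X i - C (ξ i)) := by
      rw [Finset.sum_mul, ← Finset.sum_ite_eq_of_mem Finset.univ i
        (fun j => C (eval ξ f) * (X j - C (ξ j) : MvPolynomial σ Ω)) (Finset.mem_univ i),
        ← Finset.sum_add_distrib]
      refine Finset.sum_congr rfl fun j _ => ?_
      by_cases hij : i = j
      · subst hij
        simp only [pderiv_mul, pderiv_X_self, map_add, map_mul, eval_X, mul_one, if_true]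
        ring
      · simp only [pderiv_mul, pderiv_X_of_ne hij, map_mul, eval_X, mul_zero, add_zero, if_neg hij]
        ring
    rw [h4, map_mul, eval_X, C_mul]
    convert h3 using 1
    ring

/-- an affine function which vanishes at `ξ` and is constant along `η` -/
theorem lin_mem_fatI {c : ℕ} (ξ : σ → Ω) (η : Fin c → σ → Ω) (k : ℕ) (f : MvPolynomial σ Ω)
    (hf : f.totalDegree ≤ 1) (h0 : eval ξ f = 0)
    (h1 : ∀ l, ∑ j, eval ξ (pderiv j f) * η l j = 0) : f ∈ fatI ξ η k := by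
  rw [fat2_affine ξ hf, h0, C_0, zero_add]
  exact fat2_lin_mem ξ η k h1

/-- first order: `f - ∑ ∂_j f(ξ) (x_j - ξ_j) ∈ mI ξ ^ 2` -/
theorem tan_mem_fatI {c : ℕ} (ξ : σ → Ω) (η : Fin c → σ → Ω) (f : MvPolynomial σ Ω)
    (h0 : eval ξ f = 0) (h1 : ∀ l, ∑ j, eval ξ (pderiv j f) * η l j = 0) : f ∈ fatI ξ η 1 := by
  have h := add_mem (pow_le_fatI ξ η 1 (fat2_taylor ξ f)) (fat2_lin_mem ξ η 1 h1)
  rwa [sub_add_cancel, h0, C_0, sub_zero] at h

/-- the substitution is surjective (left inverse of `η`), and polynomials of degree `≤ k` inject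
into the quotient by `idealOfVars ^ (k + 1)` -/
theorem finrank_fatI {c : ℕ} (ξ : σ → Ω) {η : Fin c → σ → Ω} (hη : LinearIndependent Ω η) (k : ℕ) :
    (k + c).choose c ≤ Module.finrank Ω (MvPolynomial σ Ω ⧸ fatI ξ η k) := by
  classical
  set φ : MvPolynomial σ Ω →ₐ[Ω] MvPolynomial (Fin c) Ω :=
    aeval fun j => C (ξ j) + ∑ l, C (η l j) * X l with hφ
  obtain ⟨g, hg⟩ := (Fintype.linearCombination Ω η).exists_leftInverse_of_injective
    (LinearMap.ker_eq_bot.2 hη.fintypeLinearCombination_injective)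
  have hX : ∀ l, X l ∈ φ.range := by
    intro l
    refine ⟨∑ j, C (g (Pi.single j 1) l) * (X j - C (ξ j)), ?_⟩
    have h1 : ∀ l', ∑ j, g (Pi.single j 1) l * η l' j = (Pi.single l' 1 : Fin c → Ω) l := by
      intro l'
      have h2 := LinearMap.congr_fun hg (Pi.single l' 1)
      rw [LinearMap.comp_apply, Fintype.linearCombination_apply_single, one_smul,
        LinearMap.id_apply] at h2
      rw [← h2]
      conv_rhs => rw [← Finset.univ_sum_single (η l'), map_sum, Finset.sum_apply]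
      refine Finset.sum_congr rfl fun j _ => ?_
      have : (Pi.single j (η l' j) : σ → Ω) = η l' j • Pi.single j 1 := by
        rw [← Pi.single_smul, smul_eq_mul, mul_one]
      rw [this, map_smul, Pi.smul_apply, smul_eq_mul, mul_comm]
    change φ _ = _
    rw [hφ, fat2_lin, Finset.sum_eq_single l]
    · simp [h1]
    · intro l' _ hl
      simp [h1, Pi.single_eq_of_ne hl.symm]
    · simp
  have hs : Function.Surjective φ := by
    rw [← AlgHom.range_eq_top, eq_top_iff, ← adjoin_range_X, Algebra.adjoin_le_iff]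
    rintro _ ⟨l, rfl⟩
    exact hX l
  set J := idealOfVars (Fin c) Ω ^ (k + 1) with hJ
  have hfin : FiniteDimensional Ω (MvPolynomial (Fin c) Ω ⧸ J) := by
    have := finite_quot_pow (0 : Fin c → Ω) (k + 1)
    have e : mI (0 : Fin c → Ω) = idealOfVars (Fin c) Ω := by simp [mI_eq_span]
    rwa [e] at this
  have hs' : Function.Surjective ((Ideal.Quotient.mkₐ Ω J).comp φ) :=
    (Ideal.Quotient.mkₐ_surjective Ω J).comp hs
  have hk : RingHom.ker ((Ideal.Quotient.mkₐ Ω J).comp φ) = fatI ξ η k := by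
    ext f
    rw [RingHom.mem_ker, AlgHom.comp_apply, Ideal.Quotient.mkₐ_eq_mk,
      Ideal.Quotient.eq_zero_iff_mem]
    rfl
  have e := ((Ideal.quotientEquivAlgOfEq Ω hk.symm).trans
    (Ideal.quotientKerAlgEquivOfSurjective hs')).toLinearEquiv.finrank_eq
  have h2 := finrank_restrict (Fin c) Ω k
  rw [Fintype.card_fin] at h2
  rw [e, ← h2]
  refine LinearMap.finrank_le_finrank_of_injective
    (f := (Ideal.Quotient.mkₐ Ω J).toLinearMap.comp (restrictTotalDegree (Fin c) Ω k).subtype) ?_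
  rw [injective_iff_map_eq_zero]
  rintro ⟨f, hf⟩ h0
  have h3 : f ∈ J := Ideal.Quotient.eq_zero_iff_mem.1 h0
  rw [hJ, mem_pow_idealOfVars_iff] at h3
  rw [mem_restrictTotalDegree] at hf
  refine Subtype.ext (eq_zero_iff.2 fun d => ?_)
  by_contra hd
  have h4 := mem_support_iff.2 hd
  have h5 : d.degree ≤ k := (le_totalDegree h4).trans hf
  have := h3 d h4
  omega

theorem exists_dirs {m c : ℕ} (h : c + m ≤ Fintype.card σ) (a : Fin m → σ → Ω) :
    ∃ η : Fin c → σ → Ω, LinearIndependent Ω η ∧ ∀ i l, ∑ j, a i j * η l j = 0 := by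
  let A : (σ → Ω) →ₗ[Ω] (Fin m → Ω) := (Matrix.of a).mulVecLin
  have h1 := A.finrank_range_add_finrank_ker
  have h2 : Module.finrank Ω (LinearMap.range A) ≤ m := by
    simpa using (LinearMap.range A).finrank_le
  rw [Module.finrank_fintype_fun_eq_card] at h1
  obtain ⟨v, hv⟩ := exists_linearIndependent_of_le_finrank (R := Ω) (M := LinearMap.ker A)
    (n := c) (by omega)
  refine ⟨fun l => v l, hv.map' (LinearMap.ker A).subtype (Submodule.ker_subtype _), fun i l => ?_⟩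
  exact congrFun (LinearMap.mem_ker.1 (v l).2) i

omit [Fintype σ] in
theorem crt_inj {ξ ζ : σ → Ω} (h : mI ξ ≤ mI ζ) : ξ = ζ := by
  funext j
  have h1 : X j - C (ξ j) ∈ mI ξ := mem_mI.2 (by simp)
  have h2 := mem_mI.1 (h h1)
  simp only [map_sub, eval_X, eval_C] at h2
  exact (sub_eq_zero.1 h2).symm

/-- Chinese remainder theorem (`Ideal.quotientInfRingEquivPiQuotient`) -/
theorem crt (Ξ : Finset (σ → Ω)) (Q : (σ → Ω) → Ideal (MvPolynomial σ Ω))
    (hQ : ∀ ξ ∈ Ξ, ∃ N, mI ξ ^ N ≤ Q ξ) :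
    FiniteDimensional Ω (MvPolynomial σ Ω ⧸ ⨅ ξ ∈ Ξ, Q ξ) ∧
      Module.finrank Ω (MvPolynomial σ Ω ⧸ ⨅ ξ ∈ Ξ, Q ξ) =
        ∑ ξ ∈ Ξ, Module.finrank Ω (MvPolynomial σ Ω ⧸ Q ξ) ∧
      ∀ ζ : σ → Ω, (⨅ ξ ∈ Ξ, Q ξ) ≤ mI ζ → ζ ∈ Ξ := by
  have hco : Pairwise (Function.onFun IsCoprime fun ξ : Ξ => Q ξ) := by
    intro ξ ξ' hne
    obtain ⟨N, hN⟩ := hQ ξ ξ.2
    obtain ⟨N', hN'⟩ := hQ ξ' ξ'.2
    have h1 : IsCoprime (mI (ξ : σ → Ω)) (mI (ξ' : σ → Ω)) :=
      Ideal.isCoprime_iff_sup_eq.2 ((mI_isMaximal _).coprime_of_ne (mI_isMaximal _)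
        fun h => hne (Subtype.ext (crt_inj h.le)))
    have h2 := Ideal.isCoprime_iff_sup_eq.1 (h1.pow (m := N) (n := N'))
    exact Ideal.isCoprime_iff_sup_eq.2 (top_le_iff.1 (h2.ge.trans (sup_le_sup hN hN')))
  have hfin : ∀ ξ : Ξ, FiniteDimensional Ω (MvPolynomial σ Ω ⧸ Q ξ) := by
    intro ξ
    obtain ⟨N, hN⟩ := hQ ξ ξ.2
    have := finite_quot_pow (ξ : σ → Ω) N
    exact Module.Finite.of_surjective (Ideal.Quotient.factorₐ Ω hN).toLinearMap
      (Ideal.Quotient.factor_surjective hN)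
  let e : (MvPolynomial σ Ω ⧸ ⨅ ξ : Ξ, Q ξ) ≃ₐ[Ω] ∀ ξ : Ξ, MvPolynomial σ Ω ⧸ Q ξ :=
    AlgEquiv.ofRingEquiv (f := Ideal.quotientInfRingEquivPiQuotient _ hco) fun _ => rfl
  refine ⟨?_, ?_, fun ζ hζ => ?_⟩
  · rw [iInf_subtype']
    exact e.symm.toLinearEquiv.finiteDimensional
  · rw [iInf_subtype', ← Finset.sum_coe_sort Ξ]
    exact e.toLinearEquiv.finrank_eq.trans (Module.finrank_pi_fintype Ω)
  · rw [← Finset.inf_eq_iInf, (mI_isPrime ζ).inf_le'] at hζ
    obtain ⟨ξ, hξ, hle⟩ := hζ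
    obtain ⟨N, hN⟩ := hQ ξ hξ
    have := mI_isPrime ζ
    rwa [← crt_inj (Ideal.IsPrime.le_of_pow_le (hN.trans hle))]

end Crest.Agent.R65.CA
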