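import Crest.Agent.R65.CADefs

/-! Row 65, commutative algebra module: a rational function of growth `e` is a polynomial of
degree at most `e` (auxiliary file for `exists_poly_of_growth`). -/

set_option autoImplicit false

namespace Crest.Agent.R65.CA

open MvPolynomial

variable {L : Type} [Field L]

open Classical in
/-- the degree valuation on polynomials -/
noncomputable def gx2_degV (L : Type) [Field L] (m : ℕ) :
    Valuation (MvPolynomial (Fin m) L) NNReal where
  toFun u := if u = 0 then 0 else 2 ^ u.totalDegree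
  map_zero' := by simp
  map_one' := by simp
  map_mul' f g := by
    by_cases hf : f = 0
    · simp [hf]
    by_cases hg : g = 0
    · simp [hg]
    simp only [hf, hg, mul_ne_zero hf hg, if_false]
    rw [totalDegree_mul_of_isDomain hf hg, pow_add]
  map_add_le_max' f g := by
    by_cases hfg : f + g = 0
    · simp [hfg]
    by_cases hf : f = 0
    · simp [hf]
    by_cases hg : g = 0
    · simp [hg]
    simp only [hf, hg, hfg, if_false]
    have h := totalDegree_add f g
    rcases le_total f.totalDegree g.totalDegree with h' | h'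
    · rw [max_eq_right h'] at h
      exact le_max_of_le_right (pow_le_pow_right₀ one_le_two h)
    · rw [max_eq_left h'] at h
      exact le_max_of_le_left (pow_le_pow_right₀ one_le_two h)

open Classical in
theorem gx2_degV_of_ne {m : ℕ} {u : MvPolynomial (Fin m) L} (hu : u ≠ 0) :
    gx2_degV L m u = 2 ^ u.totalDegree := by
  show (if u = 0 then (0 : NNReal) else 2 ^ u.totalDegree) = _
  rw [if_neg hu]

theorem gx2_le_primeCompl (L : Type) [Field L] (m : ℕ) :
    nonZeroDivisors (MvPolynomial (Fin m) L) ≤ (gx2_degV L m).supp.primeCompl := by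
  intro s hs
  have hs0 : s ≠ 0 := nonZeroDivisors.ne_zero hs
  show s ∉ (gx2_degV L m).supp
  rw [Valuation.mem_supp_iff, gx2_degV_of_ne hs0]
  exact pow_ne_zero _ two_ne_zero

/-- the degree valuation on rational functions -/
noncomputable def gx2_degK (L : Type) [Field L] (m : ℕ) : Valuation (Kf L m) NNReal :=
  (gx2_degV L m).extendToLocalization (gx2_le_primeCompl L m) (Kf L m)

theorem gx2_degK_alg {m : ℕ} {u : MvPolynomial (Fin m) L} (hu : u ≠ 0) :
    gx2_degK L m (algebraMap (MvPolynomial (Fin m) L) (Kf L m) u) = 2 ^ u.totalDegree := by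
  rw [gx2_degK, Valuation.extendToLocalization_apply_map_apply, gx2_degV_of_ne hu]

/-- a valuation ring of `Om` above the degree valuation -/
theorem gx2_exists_val (L : Type) [Field L] (m : ℕ) :
    ∃ O : ValuationSubring (Om L m),
      (∀ a : Kf L m, gx2_degK L m a ≤ 1 → O.valuation (algebraMap (Kf L m) (Om L m) a) ≤ 1) ∧
      (∀ a : Kf L m, gx2_degK L m a < 1 → O.valuation (algebraMap (Kf L m) (Om L m) a) < 1) := by
  let V : ValuationSubring (Kf L m) := (gx2_degK L m).valuationSubring
  let f : V →+* Om L m := (algebraMap (Kf L m) (Om L m)).comp V.subtype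
  obtain ⟨O, hO, hloc⟩ := IsLocalRing.exists_factor_valuationRing f
  refine ⟨O, fun a ha => ?_, fun a ha => ?_⟩
  · exact (O.valuation_le_one_iff _).2 (hO ⟨a, ha⟩)
  · have hmem : a ∈ V := ha.le
    have hO' : algebraMap (Kf L m) (Om L m) a ∈ O := hO ⟨a, hmem⟩
    have h1 : O.valuation (algebraMap (Kf L m) (Om L m) a) ≤ 1 := (O.valuation_le_one_iff _).2 hO'
    refine lt_of_le_of_ne h1 fun h2 => ?_
    have hu : IsUnit (⟨algebraMap (Kf L m) (Om L m) a, hO'⟩ : O) :=
      (O.valuation_eq_one_iff _).2 h2
    have hu' : IsUnit (⟨a, hmem⟩ : V) := by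
      apply hloc.map_nonunit
      exact hu
    obtain ⟨b, hb⟩ := hu'.exists_right_inv
    have hb' : a * (b : Kf L m) = 1 := congrArg Subtype.val hb
    have hb1 : gx2_degK L m (b : Kf L m) ≤ 1 := b.2
    have h3 : gx2_degK L m a * gx2_degK L m (b : Kf L m) = 1 := by
      rw [← map_mul, hb', map_one]
    have h4 : gx2_degK L m a * gx2_degK L m (b : Kf L m) ≤ gx2_degK L m a :=
      mul_le_of_le_one_right' hb1
    exact absurd (h3 ▸ h4) (not_le.2 ha)

theorem gx2_exists_poly {m : ℕ} (r : Kf L m)
    (h : ∀ O : ValuationSubring (Om L m), (∀ l : L, algebraMap L (Om L m) l ∈ O) →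
      (∀ i, Xo L m i ∈ O) → algebraMap (Kf L m) (Om L m) r ∈ O) :
    ∃ u : MvPolynomial (Fin m) L, algebraMap (MvPolynomial (Fin m) L) (Kf L m) u = r := by
  let g : MvPolynomial (Fin m) L →+* Om L m := algebraMap _ _
  let s : Set (Om L m) := Set.range g
  have h1 : algebraMap (Kf L m) (Om L m) r ∈
      (integralClosure (Subring.closure s) (Om L m)).toSubring := by
    rw [← iInf_valuationSubring_superset, Subring.mem_iInf]
    rintro ⟨V, hV⟩
    refine h V (fun l => hV ⟨C l, ?_⟩) (fun i => hV ⟨X i, rfl⟩)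
    show algebraMap (MvPolynomial (Fin m) L) (Om L m) (algebraMap L _ l) = _
    rw [← IsScalarTower.algebraMap_apply]
  have h2 : IsIntegral (Subring.closure s) (algebraMap (Kf L m) (Om L m) r) := h1
  have hs : Subring.closure s = g.range := by
    rw [← Subring.closure_eq g.range]; rfl
  have h3 : IsIntegral (MvPolynomial (Fin m) L) (algebraMap (Kf L m) (Om L m) r) := by
    rw [hs] at h2
    obtain ⟨P, hPm, hP⟩ := h2
    obtain ⟨Q, hQ, -, hQm⟩ := Polynomial.lifts_and_natDegree_eq_and_monic
      (Polynomial.mem_lifts (f := g.rangeRestrict) P |>.2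
        (Polynomial.map_surjective _ g.rangeRestrict_surjective P)) hPm
    refine ⟨Q, hQm, ?_⟩
    rw [← hQ, Polynomial.eval₂_map] at hP
    exact hP
  have h4 : IsIntegral (MvPolynomial (Fin m) L) r :=
    (isIntegral_algebraMap_iff (algebraMap (Kf L m) (Om L m)).injective).1 h3
  exact IsIntegrallyClosed.algebraMap_eq_of_integral h4

theorem gx2_exists_poly_of_growth {m : ℕ} (r : Kf L m) (e : ℕ)
    (h : ∀ O : ValuationSubring (Om L m), (∀ l : L, algebraMap L (Om L m) l ∈ O) →
      ∀ γ : O.ValueGroup, 1 ≤ γ → (∀ i, O.valuation (Xo L m i) ≤ γ) →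
        O.valuation (algebraMap (Kf L m) (Om L m) r) ≤ γ ^ e) :
    ∃ u : MvPolynomial (Fin m) L, u.totalDegree ≤ e ∧
      algebraMap (MvPolynomial (Fin m) L) (Kf L m) u = r := by
  obtain ⟨u, rfl⟩ := gx2_exists_poly r fun O hL hX => by
    have := h O hL 1 le_rfl fun i => (O.valuation_le_one_iff _).2 (hX i)
    rw [one_pow] at this
    exact (O.valuation_le_one_iff _).1 this
  refine ⟨u, ?_, rfl⟩
  by_contra hlt
  rw [not_le] at hlt
  have hu : u ≠ 0 := by
    rintro rfl
    simp at hlt
  rcases Nat.eq_zero_or_pos m with hm | hm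
  · subst hm
    have : u.totalDegree = 0 := by
      rw [u.eq_C_of_isEmpty]; exact totalDegree_C _
    omega
  let i0 : Fin m := ⟨0, hm⟩
  obtain ⟨O, hO1, hO2⟩ := gx2_exists_val L m
  let a : MvPolynomial (Fin m) L →+* Kf L m := algebraMap _ _
  let b : Kf L m →+* Om L m := algebraMap _ _
  have hXo : ∀ i, Xo L m i = b (a (X i)) := fun i =>
    IsScalarTower.algebraMap_apply _ _ _ _
  have hvX : ∀ i, gx2_degK L m (a (X i)) = 2 := fun i => by
    have := gx2_degK_alg (L := L) (X_ne_zero i)
    rwa [totalDegree_X, pow_one] at this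
  have hX0 : a (X i0) ≠ 0 := fun h0 => by
    have := hvX i0
    rw [h0, map_zero] at this
    exact two_ne_zero this.symm
  have hbX0 : O.valuation (b (a (X i0))) ≠ 0 := by
    rw [Valuation.ne_zero_iff]
    exact (map_ne_zero b).2 hX0
  have hpos : 0 < O.valuation (b (a (X i0))) := zero_lt_iff.2 hbX0
  have hL : ∀ l : L, algebraMap L (Om L m) l ∈ O := fun l => by
    have e1 : algebraMap L (Om L m) l = b (a (C l)) := by
      show _ = algebraMap (Kf L m) (Om L m) (algebraMap (MvPolynomial (Fin m) L) (Kf L m)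
        (algebraMap L _ l))
      rw [← IsScalarTower.algebraMap_apply, ← IsScalarTower.algebraMap_apply]
    rw [e1, ← O.valuation_le_one_iff]
    apply hO1
    by_cases hl : l = 0
    · simp [hl]
    · have := gx2_degK_alg (L := L) (m := m) (u := C l) (by simpa using hl)
      rw [totalDegree_C, pow_zero] at this
      exact this.le
  have hγ : 1 ≤ O.valuation (b (a (X i0))) := by
    have := hO1 (a (X i0))⁻¹ (by rw [map_inv₀, hvX]; exact inv_le_one_of_one_le₀ one_le_two)
    rw [map_inv₀, map_inv₀] at this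
    exact (inv_le_one₀ hpos).1 this
  have hXi : ∀ i, O.valuation (Xo L m i) ≤ O.valuation (b (a (X i0))) := fun i => by
    have := hO1 (a (X i) / a (X i0)) (by rw [map_div₀, hvX, hvX, div_self two_ne_zero])
    rw [map_div₀, map_div₀] at this
    rw [hXo]
    exact (div_le_one₀ hpos).1 this
  have h1 := h O hL _ hγ hXi
  have hau : a u ≠ 0 := fun h0 => by
    have := gx2_degK_alg (L := L) hu
    have h0' : algebraMap (MvPolynomial (Fin m) L) (Kf L m) u = 0 := h0
    rw [h0', map_zero] at this
    exact pow_ne_zero _ two_ne_zero this.symm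
  have hupos : 0 < O.valuation (b (a u)) := by
    rw [zero_lt_iff, Valuation.ne_zero_iff]
    exact (map_ne_zero b).2 hau
  have h2 := hO2 (a (X i0) ^ e / a u) (by
    rw [map_div₀, map_pow, hvX, gx2_degK_alg hu, div_lt_one (by positivity)]
    exact pow_lt_pow_right₀ one_lt_two hlt)
  rw [map_div₀, map_div₀, map_pow, map_pow] at h2
  exact absurd h1 (not_le.2 ((div_lt_one₀ hupos).1 h2))

end Crest.Agent.R65.CA
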