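import Crest.Agent.R65.CADefs
import Crest.Agent.R65.CAGrowAux2

/-! Row 65, commutative algebra module: calculus of growth at infinity. -/

set_option autoImplicit false

namespace Crest.Agent.R65.CA

open MvPolynomial

variable {σ : Type} {L : Type} [Field L] {ι κ : Type} {p : Ideal (MvPolynomial σ L)}
  {z : ι → MvPolynomial σ L}

theorem Grow.mono {e e' : ℕ} {φ : MvPolynomial σ L} (h : Grow p z e φ) (he : e ≤ e') :
    Grow p z e' φ := by
  intro Ω _ _ ξ hξ O hO γ hγ hz
  exact (h Ω ξ hξ O hO γ hγ hz).trans (pow_le_pow_right₀ hγ he)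

theorem grow_C (e : ℕ) (a : L) : Grow p z e (C a) := by
  intro Ω _ _ ξ hξ O hO γ hγ hz
  rw [aeval_C]
  exact ((O.valuation_le_one_iff _).2 (hO a)).trans (one_le_pow₀ hγ)

theorem grow_self (i : ι) : Grow p z 1 (z i) := by
  intro Ω _ _ ξ hξ O hO γ hγ hz
  rw [pow_one]
  exact hz i

theorem Grow.add {e : ℕ} {φ ψ : MvPolynomial σ L} (h : Grow p z e φ) (h' : Grow p z e ψ) :
    Grow p z e (φ + ψ) := by
  intro Ω _ _ ξ hξ O hO γ hγ hz
  rw [map_add]
  exact O.valuation.map_add_le (h Ω ξ hξ O hO γ hγ hz) (h' Ω ξ hξ O hO γ hγ hz)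

theorem Grow.mul {e e' : ℕ} {φ ψ : MvPolynomial σ L} (h : Grow p z e φ) (h' : Grow p z e' ψ) :
    Grow p z (e + e') (φ * ψ) := by
  intro Ω _ _ ξ hξ O hO γ hγ hz
  rw [map_mul, map_mul, pow_add]
  exact mul_le_mul' (h Ω ξ hξ O hO γ hγ hz) (h' Ω ξ hξ O hO γ hγ hz)

theorem Grow.smul {e : ℕ} {φ : MvPolynomial σ L} (h : Grow p z e φ) (a : L) :
    Grow p z e (a • φ) := by
  rw [smul_eq_C_mul]
  simpa using (grow_C 0 a).mul h

theorem Grow.span {e : ℕ} {S : Set (MvPolynomial σ L)} (h : ∀ φ ∈ S, Grow p z e φ) :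
    ∀ φ ∈ Submodule.span L S, Grow p z e φ := by
  intro φ hφ
  induction hφ using Submodule.span_induction with
  | mem x hx => exact h x hx
  | zero => simpa using grow_C (p := p) (z := z) e 0
  | add x y _ _ hx hy => exact hx.add hy
  | smul a x _ hx => exact hx.smul a

theorem Grow.of_pow {e N : ℕ} {φ : MvPolynomial σ L} (hN : 1 ≤ N)
    (h : Grow p z (e * N) (φ ^ N)) : Grow p z e φ := by
  intro Ω _ _ ξ hξ O hO γ hγ hz
  have h1 := h Ω ξ hξ O hO γ hγ hz
  rw [map_pow, map_pow, pow_mul] at h1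
  exact (pow_le_pow_iff_left₀ zero_le zero_le (by omega)).1 h1

theorem Grow.sum' {τ : Type} {e : ℕ} (s : Finset τ) {φ : τ → MvPolynomial σ L}
    (h : ∀ t ∈ s, Grow p z e (φ t)) : Grow p z e (∑ t ∈ s, φ t) :=
  Finset.sum_induction φ (Grow p z e) (fun _ _ => Grow.add)
    (by simpa using grow_C (p := p) (z := z) e 0) h

theorem Grow.pow' {e : ℕ} {φ : MvPolynomial σ L} (h : Grow p z e φ) (n : ℕ) :
    Grow p z (e * n) (φ ^ n) := by
  induction n with
  | zero => simpa using grow_C (p := p) (z := z) 0 1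
  | succ n ih => rw [pow_succ, Nat.mul_succ]; exact ih.mul h

theorem Grow.prod' {τ : Type} (s : Finset τ) {e : τ → ℕ} {φ : τ → MvPolynomial σ L}
    (h : ∀ t, Grow p z (e t) (φ t)) : Grow p z (∑ t ∈ s, e t) (∏ t ∈ s, φ t) := by
  classical
  induction s using Finset.induction_on with
  | empty => simpa using grow_C (p := p) (z := z) 0 1
  | insert a s ha ih => rw [Finset.sum_insert ha, Finset.prod_insert ha]; exact (h a).mul ih

/-- polynomial expressions -/
theorem grow_aeval {y : κ → MvPolynomial σ L} {a : ℕ} (hy : ∀ k, Grow p z a (y k))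
    (u : MvPolynomial κ L) {e : ℕ} (hu : u.totalDegree ≤ e) : Grow p z (a * e) (aeval y u) := by
  rw [u.as_sum, map_sum]
  refine Grow.sum' _ fun d hd => ?_
  rw [aeval_monomial, algebraMap_eq, Finsupp.prod]
  have h1 := (grow_C (p := p) (z := z) 0 (coeff d u)).mul
    (Grow.prod' d.support fun k => (hy k).pow' (d k))
  refine h1.mono ?_
  rw [zero_add, ← Finset.mul_sum]
  exact Nat.mul_le_mul_left a ((le_totalDegree hd).trans hu)

theorem grow_of_degree (hX : ∀ j, Grow p z 1 (X j)) {φ : MvPolynomial σ L} {e : ℕ}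
    (h : φ.totalDegree ≤ e) : Grow p z e φ := by
  have := grow_aeval hX φ h
  rwa [one_mul, aeval_X_left_apply] at this

theorem Grow.trans {y : κ → MvPolynomial σ L} (hy : ∀ k, Grow p z 1 (y k)) {e : ℕ}
    {φ : MvPolynomial σ L} (h : Grow p y e φ) : Grow p z e φ := by
  intro Ω _ _ ξ hξ O hO γ hγ hz
  exact h Ω ξ hξ O hO γ hγ fun k => by simpa using hy k Ω ξ hξ O hO γ hγ hz

/-- Take `Ω = Frac (A / p)`, `γ = 1`, `iInf_valuationSubring_superset`. -/
theorem Grow.isIntegral (hp : p.IsPrime) {e : ℕ} {φ : MvPolynomial σ L} (h : Grow p z e φ) :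
    IsIntegral (Algebra.adjoin L (Set.range fun i => Ideal.Quotient.mk p (z i)))
      (Ideal.Quotient.mk p φ) := by
  set R := Algebra.adjoin L (Set.range fun i => Ideal.Quotient.mk p (z i)) with hR
  let Ω := FractionRing (MvPolynomial σ L ⧸ p)
  have hinj : Function.Injective (algebraMap (MvPolynomial σ L ⧸ p) Ω) :=
    IsFractionRing.injective _ _
  let ξ : σ → Ω := fun j => algebraMap (MvPolynomial σ L ⧸ p) Ω (Ideal.Quotient.mk p (X j))
  have hev : ∀ g, aeval ξ g = algebraMap (MvPolynomial σ L ⧸ p) Ω (Ideal.Quotient.mk p g) := by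
    have : (aeval ξ : MvPolynomial σ L →ₐ[L] Ω) =
        (IsScalarTower.toAlgHom L (MvPolynomial σ L ⧸ p) Ω).comp (Ideal.Quotient.mkₐ L p) :=
      MvPolynomial.algHom_ext fun j => aeval_X _ _
    exact fun g => AlgHom.congr_fun this g
  have hξ : kerAt L ξ = p := by
    ext g
    rw [mem_kerAt, hev, map_eq_zero_iff _ hinj, Ideal.Quotient.eq_zero_iff_mem]
  let f : R →+* Ω := algebraMap R Ω
  have hf : ∀ r : R, f r = algebraMap (MvPolynomial σ L ⧸ p) Ω r := fun r => rfl
  have hmem : aeval ξ φ ∈ (integralClosure (Subring.closure (f.range : Set Ω)) Ω).toSubring := by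
    rw [← iInf_valuationSubring_superset, Subring.mem_iInf]
    rintro ⟨O, hO⟩
    have h1 := h Ω ξ hξ O (fun l => hO ⟨algebraMap L R l, ?_⟩) 1 le_rfl fun i =>
      (O.valuation_le_one_iff _).2 (hO ⟨⟨_, Algebra.subset_adjoin ⟨i, rfl⟩⟩, (hev _).symm⟩)
    · rw [one_pow] at h1
      exact (O.valuation_le_one_iff _).1 h1
    · exact (IsScalarTower.algebraMap_apply L (MvPolynomial σ L ⧸ p) Ω l).symm
  rw [Subring.closure_eq] at hmem
  have h2 : IsIntegral f.range (aeval ξ φ) := hmem
  have hb : Function.Bijective f.rangeRestrict :=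
    ⟨fun a b hab => Subtype.ext (hinj (congrArg Subtype.val hab)), f.rangeRestrict_surjective⟩
  rw [← RingEquiv.isIntegral_iff (RingEquiv.ofBijective _ hb) (RingHom.ext fun _ => rfl), hev] at h2
  exact (isIntegral_algebraMap_iff hinj).1 h2

/-- A rational function of growth `e` is a polynomial of degree at most `e`.  With `γ = 1` it is
integral over the normal ring `L[X]`.  If its degree `e'` is larger than `e`, take (after `m ≥ 1`)
the subring `R = L[1 / X_0, X_i / X_0]` of `Om`, its prime `(1 / X_0)` = kernel of the map to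
`L[X_i / X_0]`, a valuation ring `O ⊇ R` centred there (`LocalSubring.exists_le_valuationSubring`
applied to the localisation, or `IsLocalRing.exists_factor_valuationRing`); `u / X_0 ^ e'` is a unit
of `O`, and `γ = v X_0 > 1`. -/
theorem exists_poly_of_growth {m : ℕ} (r : Kf L m) (e : ℕ)
    (h : ∀ O : ValuationSubring (Om L m), (∀ l : L, algebraMap L (Om L m) l ∈ O) →
      ∀ γ : O.ValueGroup, 1 ≤ γ → (∀ i, O.valuation (Xo L m i) ≤ γ) →
        O.valuation (algebraMap (Kf L m) (Om L m) r) ≤ γ ^ e) :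
    ∃ u : MvPolynomial (Fin m) L, u.totalDegree ≤ e ∧
      algebraMap (MvPolynomial (Fin m) L) (Kf L m) u = r :=
  gx2_exists_poly_of_growth r e h

end Crest.Agent.R65.CA
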