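import Crest.Agent.R65.CADefs

/-! Row 65, commutative algebra module: the determinant lemma at an isolated point. -/

set_option autoImplicit false

namespace Crest.Agent.R65.CA

open MvPolynomial

variable {σ : Type} [Fintype σ] [DecidableEq σ] {L : Type} [Field L]

/-- first Koszul syzygies of the variables -/
theorem wb_koszul (I : Ideal (MvPolynomial σ L)) (c h : σ → MvPolynomial σ L)
    (hc : ∀ j k, X k * c j - X j * c k ∈ I) (hh : ∑ j, h j * X j = 0) : ∑ j, h j * c j ∈ I := by
  let φ : MvPolynomial σ L →ₗ[L] MvPolynomial σ L :=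
    (basisMonomials σ L).constr L fun m =>
      if hm : m.support.Nonempty then monomial (m - Finsupp.single hm.choose 1) 1 * c hm.choose
      else 0
  have key : ∀ (g : MvPolynomial σ L) (j : σ), φ (g * X j) - g * c j ∈ I := by
    intro g j
    induction g using MvPolynomial.induction_on' with
    | add p q hp hq =>
      rw [add_mul, map_add, add_mul, add_sub_add_comm]
      exact I.add_mem hp hq
    | monomial a t =>
      have hm : (a + Finsupp.single j 1).support.Nonempty :=
        ⟨j, Finsupp.mem_support_iff.2 (by simp)⟩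
      have e1 : (monomial a t * X j : MvPolynomial σ L) =
          t • basisMonomials σ L (a + Finsupp.single j 1) := by
        rw [X, monomial_mul, coe_basisMonomials, smul_monomial, smul_eq_mul]
      have e2 : (monomial a t : MvPolynomial σ L) = C t * monomial a 1 := by
        rw [C_mul_monomial, mul_one]
      rw [e1, map_smul, Module.Basis.constr_basis, dif_pos hm, e2, smul_eq_C_mul, mul_assoc,
        ← mul_sub]
      refine I.mul_mem_left _ ?_
      have hk := Finsupp.mem_support_iff.1 hm.choose_spec
      generalize hm.choose = k at hk ⊢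
      by_cases hkj : k = j
      · rw [hkj, add_tsub_cancel_right, sub_self]
        exact I.zero_mem
      · have ha : Finsupp.single k 1 ≤ a := by
          rw [Finsupp.single_le_iff]
          rw [Finsupp.add_apply, Finsupp.single_eq_of_ne hkj, add_zero] at hk
          omega
        obtain ⟨b, rfl⟩ := exists_add_of_le ha
        have e3 : Finsupp.single k 1 + b + Finsupp.single j 1 - Finsupp.single k 1 =
            b + Finsupp.single j 1 := by
          rw [add_assoc, add_tsub_cancel_left]
        have e4 : (monomial (b + Finsupp.single j 1) 1 : MvPolynomial σ L) =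
            monomial b 1 * X j := by
          rw [X, monomial_mul, mul_one]
        have e5 : (monomial (Finsupp.single k 1 + b) 1 : MvPolynomial σ L) =
            monomial b 1 * X k := by
          rw [X, monomial_mul, mul_one, add_comm]
        rw [e3, e4, e5, mul_assoc, mul_assoc, ← mul_sub]
        exact I.mul_mem_left _ (hc k j)
  have h1 : ∑ j, (φ (h j * X j) - h j * c j) ∈ I := I.sum_mem fun j _ => key (h j) j
  rw [Finset.sum_sub_distrib, ← map_sum, hh, map_zero, zero_sub] at h1
  exact (I.neg_mem_iff).1 h1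

theorem wb_det_row (M : Matrix σ σ (MvPolynomial σ L)) (i : σ) (a : σ → MvPolynomial σ L) :
    (M.updateRow i a).det = ∑ j, a j * (M.updateRow i (Pi.single j 1)).det := by
  rw [Matrix.det_eq_sum_mul_adjugate_row _ i]
  refine Finset.sum_congr rfl fun j _ => ?_
  rw [Matrix.updateRow_self, Matrix.adjugate_apply, Matrix.updateRow_idem]

/-- Cramer's rule for the cofactors of one row -/
theorem wb_cof (I : Ideal (MvPolynomial σ L)) (M : Matrix σ σ (MvPolynomial σ L)) (i : σ)
    (hM : ∀ l, M.mulVec X l ∈ I) (j k : σ) :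
    X k * (M.updateRow i (Pi.single j 1)).det - X j * (M.updateRow i (Pi.single k 1)).det ∈ I := by
  have e := congrFun (Matrix.mulVec_mulVec (X : σ → MvPolynomial σ L)
    (M.updateRow i (Pi.single j 1)).adjugate (M.updateRow i (Pi.single j 1))) k
  rw [Matrix.adjugate_mul, Matrix.smul_mulVec, Matrix.one_mulVec, Pi.smul_apply, smul_eq_mul,
    Matrix.mulVec, dotProduct, ← Finset.add_sum_erase _ _ (Finset.mem_univ i),
    Matrix.adjugate_apply, Matrix.updateRow_idem] at e
  have e1 : (M.updateRow i (Pi.single j 1)).mulVec X i = (X j : MvPolynomial σ L) := by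
    rw [Matrix.mulVec]
    simp
  rw [e1] at e
  rw [mul_comm (X k), ← e, mul_comm (X j), add_sub_cancel_left]
  refine I.sum_mem fun l hl => I.mul_mem_left _ ?_
  have e2 : (M.updateRow i (Pi.single j 1)).mulVec X l = M.mulVec X l := by
    simp only [Matrix.mulVec, dotProduct, Matrix.updateRow_ne (Finset.ne_of_mem_erase hl)]
  rw [e2]
  exact hM l

theorem wb_row (I : Ideal (MvPolynomial σ L)) (M : Matrix σ σ (MvPolynomial σ L)) (i : σ)
    (hM : ∀ l, M.mulVec X l ∈ I) (a b : σ → MvPolynomial σ L)
    (hab : ∑ j, a j * X j = ∑ j, b j * X j) :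
    (M.updateRow i a).det - (M.updateRow i b).det ∈ I := by
  rw [wb_det_row M i a, wb_det_row M i b, ← Finset.sum_sub_distrib]
  simp only [← sub_mul]
  refine wb_koszul I _ (fun j => a j - b j) (wb_cof I M i hM) ?_
  simp only [sub_mul]
  rw [Finset.sum_sub_distrib, hab, sub_self]

/-- If `A x = B x` then `det A ≡ det B` modulo the entries.  Replace one row at a time: for fixed
other rows `r_2, …` the map `h ↦ det (h, r_2, …) mod (r_i · x)` factors through `h ↦ h · x`, since
`x_k C_j - x_j C_k ∈ (r_i · x)` for the cofactors `C_j` (Cramer) and a vector `h` with `h · x = 0`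
is a combination of the `x_k e_j - x_j e_k` (look at each monomial). -/
theorem det_sub_det_mem (A B : Matrix σ σ (MvPolynomial σ L))
    (h : A.mulVec X = B.mulVec X) : A.det - B.det ∈ Ideal.span (Set.range (A.mulVec X)) := by
  have key : ∀ S : Finset σ, A.det - (Matrix.of fun i => if i ∈ S then B i else A i).det ∈
      Ideal.span (Set.range (A.mulVec X)) := by
    intro S
    induction S using Finset.induction_on with
    | empty =>
      have : (Matrix.of fun i => if i ∈ (∅ : Finset σ) then B i else A i) = A := by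
        ext i j : 2
        simp
      rw [this, sub_self]
      exact Ideal.zero_mem _
    | insert i S hi ih =>
      have e1 : (Matrix.of fun l => if l ∈ insert i S then B l else A l) =
          (Matrix.of fun l => if l ∈ S then B l else A l).updateRow i (B i) := by
        ext l j : 2
        by_cases hl : l = i
        · simp [hl]
        · simp [hl]
      have e2 : (Matrix.of fun l => if l ∈ S then B l else A l).updateRow i (A i) =
          Matrix.of fun l => if l ∈ S then B l else A l := by
        ext l j : 2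
        by_cases hl : l = i
        · simp [hl, hi]
        · simp [Matrix.updateRow_ne hl]
      have h1 := wb_row (Ideal.span (Set.range (A.mulVec X)))
        (Matrix.of fun l => if l ∈ S then B l else A l) i (fun l => by
          refine Ideal.subset_span ⟨l, ?_⟩
          by_cases hl : l ∈ S
          · rw [h]
            simp [Matrix.mulVec, dotProduct, hl]
          · simp [Matrix.mulVec, dotProduct, hl]) (A i) (B i) (congrFun h i)
      rw [e2, ← e1] at h1
      have h2 := Ideal.add_mem _ ih h1
      rwa [sub_add_sub_cancel] at h2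
  have h1 := key Finset.univ
  have : (Matrix.of fun i => if i ∈ (Finset.univ : Finset σ) then B i else A i) = B := by
    ext i j : 2
    simp
  rwa [this] at h1

theorem wb_loc {R : Type} [CommRing R] {I m : Ideal R} (hmin : m ∈ I.minimalPrimes) {x : R}
    (hx : x ∈ m) : ∃ u, u ∉ m ∧ ∃ N : ℕ, u * x ^ N ∈ I := by
  by_contra hcon
  have hm : m.IsPrime := hmin.1.1
  let S : Submonoid R :=
    { carrier := {s | ∃ u, u ∉ m ∧ ∃ N : ℕ, s = u * x ^ N}
      one_mem' := ⟨1, (Ideal.ne_top_iff_one m).1 hm.ne_top, 0, by simp⟩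
      mul_mem' := by
        rintro a b ⟨u, hu, N, rfl⟩ ⟨v, hv, K, rfl⟩
        refine ⟨u * v, fun h => (hm.mem_or_mem h).elim hu hv, N + K, by ring⟩ }
  have hd : Disjoint (I : Set R) S := by
    rw [Set.disjoint_left]
    rintro a ha ⟨u, hu, N, rfl⟩
    exact hcon ⟨u, hu, N, ha⟩
  obtain ⟨q, hq, hIq, hqS⟩ := Ideal.exists_le_prime_disjoint I S hd
  have hqm : q ≤ m := fun a ha => by
    by_contra h
    exact Set.disjoint_left.1 hqS ha ⟨a, h, 0, by simp⟩
  have hmq : m ≤ q := hmin.2 ⟨hq, hIq⟩ hqm
  exact Set.disjoint_left.1 hqS (hmq hx) ⟨1, (Ideal.ne_top_iff_one m).1 hm.ne_top, 1, by simp⟩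

theorem wb_zero (M : Matrix σ σ (MvPolynomial σ L)) (u : MvPolynomial σ L)
    (hu : constantCoeff u ≠ 0) (N : ℕ)
    (h : ∀ i, u * X i ^ (N + 1) ∈ Ideal.span (Set.range (M.mulVec X))) :
    M.det ∉ Ideal.span (Set.range (M.mulVec X)) := by
  intro hdet
  choose M' hM' using fun i => Ideal.mem_span_range_iff_exists_fun.1 (h i)
  set A : Matrix σ σ (MvPolynomial σ L) := Matrix.diagonal fun i => u * X i ^ N with hA
  have hAX : A.mulVec X = fun i => u * X i ^ (N + 1) := by
    funext i
    rw [hA, Matrix.mulVec_diagonal]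
    ring
  have hBX : (Matrix.of M' * M).mulVec X = fun i => u * X i ^ (N + 1) := by
    funext i
    rw [← Matrix.mulVec_mulVec, ← hM' i]
    rfl
  have h1 := det_sub_det_mem A (Matrix.of M' * M) (hAX.trans hBX.symm)
  rw [hAX] at h1
  set J := Ideal.span (Set.range fun i : σ => u * X i ^ (N + 1)) with hJ
  have h2 : ∀ k, (Matrix.of M').det * M.mulVec X k ∈ J := by
    intro k
    have e : (Matrix.of M').adjugate.mulVec ((Matrix.of M' * M).mulVec X) =
        (Matrix.of M').det • M.mulVec X := by
      rw [← Matrix.mulVec_mulVec, Matrix.mulVec_mulVec, Matrix.adjugate_mul, Matrix.smul_mulVec,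
        Matrix.one_mulVec]
    have e' := congrFun e k
    rw [Pi.smul_apply, smul_eq_mul] at e'
    rw [← e', hBX]
    exact Ideal.sum_mem _ fun i _ => Ideal.mul_mem_left _ _ (Ideal.subset_span ⟨i, rfl⟩)
  have h3 : (Matrix.of M' * M).det ∈ J := by
    obtain ⟨c, hc⟩ := Ideal.mem_span_range_iff_exists_fun.1 hdet
    rw [Matrix.det_mul, ← hc, Finset.mul_sum]
    refine Ideal.sum_mem _ fun k _ => ?_
    rw [mul_left_comm]
    exact Ideal.mul_mem_left _ _ (h2 k)
  have h4 : A.det ∈ J := by
    have := Ideal.add_mem _ h1 h3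
    rwa [sub_add_cancel] at this
  obtain ⟨c, hc⟩ := Ideal.mem_span_range_iff_exists_fun.1 h4
  let m0 : σ →₀ ℕ := ∑ i, Finsupp.single i N
  have hm0 : ∀ i, m0 i = N := fun i => by
    simp [m0, Finsupp.finsetSum_apply, Finsupp.single_apply]
  have hdA : A.det = u ^ Fintype.card σ * monomial m0 1 := by
    rw [hA, Matrix.det_diagonal, Finset.prod_mul_distrib, Finset.prod_const, Finset.card_univ]
    congr 1
    simp only [X_pow_eq_monomial, m0]
    rw [monomial_sum_one]
  have h5 := congrArg (coeff m0) hc
  rw [hdA, coeff_mul_monomial', if_pos le_rfl, tsub_self, mul_one, coeff_sum] at h5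
  have h6 : ∀ i, coeff m0 (c i * (u * X i ^ (N + 1))) = 0 := fun i => by
    rw [← mul_assoc, X_pow_eq_monomial, coeff_mul_monomial', if_neg]
    intro hle
    have := hle i
    rw [hm0, Finsupp.single_eq_same] at this
    omega
  rw [Finset.sum_eq_zero fun i _ => h6 i] at h5
  have h7 : constantCoeff (u ^ Fintype.card σ) = 0 := h5.symm
  rw [map_pow] at h7
  exact hu (eq_zero_of_pow_eq_zero h7)

/-- Wiebe: translate `ξ` to `0`; `u x_i ^ N ∈ (P)` with `u 0 ≠ 0` (`Ideal.exists_le_prime_disjoint`),
`u x ^ N = M' P = M' M x`, so `det M' det M ≡ u ^ n (∏ x) ^ (N - 1)` modulo `(x_i ^ N)`, while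
`det M ∈ (P)` gives `det M' det M ∈ (x_i ^ N)` (adjugate); compare the coefficients of
`(∏ x) ^ (N - 1)`. -/
theorem wiebe (ξ : σ → L) (M : Matrix σ σ (MvPolynomial σ L)) (P : σ → MvPolynomial σ L)
    (hP : ∀ i, P i = ∑ j, M i j * (X j - C (ξ j)))
    (hmin : mI ξ ∈ (Ideal.span (Set.range P)).minimalPrimes) :
    M.det ∉ Ideal.span (Set.range P) := by
  intro hdet
  have hx : ∀ i, (X i - C (ξ i) : MvPolynomial σ L) ∈ mI ξ := fun i => by simp [mem_mI]
  choose u hu N hN using fun i => wb_loc hmin (hx i)
  let φ : MvPolynomial σ L →ₐ[L] MvPolynomial σ L := aeval fun j => X j + C (ξ j)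
  have hφ : ∀ j, φ (X j - C (ξ j)) = X j := fun j => by simp [φ]
  have hφ0 : ∀ f, constantCoeff (φ f) = eval ξ f := fun f => by
    induction f using MvPolynomial.induction_on with
    | C a => simp [φ]
    | add p q hp hq => simp only [map_add, hp, hq]
    | mul_X p j hp => simp only [map_mul, hp]; simp [φ]
  have hmap : ∀ f ∈ Ideal.span (Set.range P),
      φ f ∈ Ideal.span (Set.range ((φ.toRingHom.mapMatrix M).mulVec X)) := by
    intro f hf
    obtain ⟨c, rfl⟩ := Ideal.mem_span_range_iff_exists_fun.1 hf
    rw [map_sum]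
    refine Ideal.sum_mem _ fun i _ => ?_
    rw [map_mul]
    refine Ideal.mul_mem_left _ _ (Ideal.subset_span ⟨i, ?_⟩)
    rw [hP i, map_sum]
    simp only [map_mul, hφ]
    rfl
  refine wb_zero (φ.toRingHom.mapMatrix M) (φ (∏ i, u i)) ?_ (∑ i, N i) (fun i => ?_) ?_
  · rw [hφ0, map_prod]
    exact Finset.prod_ne_zero_iff.2 fun i _ h => hu i (mem_mI.2 h)
  · rw [← hφ i, ← map_pow, ← map_mul]
    refine hmap _ ?_
    have hle : N i ≤ ∑ k, N k + 1 :=
      (Finset.single_le_sum (fun k _ => Nat.zero_le (N k)) (Finset.mem_univ i)).trans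
        (Nat.le_succ _)
    obtain ⟨d, hd⟩ := Nat.exists_eq_add_of_le hle
    rw [hd, ← Finset.mul_prod_erase _ _ (Finset.mem_univ i)]
    have := Ideal.mul_mem_left _ ((∏ k ∈ Finset.univ.erase i, u k) * (X i - C (ξ i)) ^ d) (hN i)
    convert this using 1
    ring
  · rw [← RingHom.map_det]
    exact hmap _ hdet

end Crest.Agent.R65.CA
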