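import Crest.Agent.R65.CADim
import Crest.Agent.R65.CAWiebe

/-! Row 65, commutative algebra module: the interpolation lemma at isolated points. -/

set_option autoImplicit false

namespace Crest.Agent.R65.CA

open MvPolynomial

theorem il1_mono {σ : Type} [Fintype σ] {R : Type} [CommRing R] (c : σ → R) (a : R) (k : ℕ) :
    ∀ s : σ →₀ ℕ, (s.sum fun _ e => e) = k → ∃ M : σ → MvPolynomial σ R,
      (∀ j, (M j).totalDegree ≤ k) ∧
      monomial s a - C (eval c (monomial s a)) = ∑ j, M j * (X j - C (c j)) := by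
  classical
  induction k with
  | zero =>
    intro s hs
    have : s = 0 := by
      ext j
      have := Finsupp.le_degree j s
      rw [Finsupp.degree_apply] at this
      exact Nat.le_zero.1 (this.trans_eq hs)
    subst this
    exact ⟨0, fun _ => by simp, by simp⟩
  | succ k ih =>
    intro s hs
    obtain ⟨j, hj⟩ : ∃ j, s j ≠ 0 := by
      by_contra h
      have : s = 0 := Finsupp.ext fun j => by simpa using fun h' => h ⟨j, h'⟩
      simp [this] at hs
    obtain ⟨s', rfl⟩ : ∃ s', s = s' + Finsupp.single j 1 :=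
      ⟨s - Finsupp.single j 1, (tsub_add_cancel_of_le
        (Finsupp.single_le_iff.2 (Nat.one_le_iff_ne_zero.2 hj))).symm⟩
    rw [Finsupp.sum_add_index' (fun _ => rfl) (fun _ _ _ => rfl),
      Finsupp.sum_single_index rfl] at hs
    have hs' : (s'.sum fun _ e => e) = k := by omega
    obtain ⟨M, h1, h2⟩ := ih s' hs'
    refine ⟨fun i => (if i = j then monomial s' a else 0) + C (c j) * M i, fun i => ?_, ?_⟩
    · refine (totalDegree_add _ _).trans (max_le ?_ ((totalDegree_mul _ _).trans ?_))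
      · split_ifs
        · exact (totalDegree_monomial_le _ _).trans (hs'.le.trans k.le_succ)
        · simp
      · rw [totalDegree_C, zero_add]
        exact (h1 i).trans k.le_succ
    · simp only [add_mul, Finset.sum_add_distrib, mul_assoc, ← Finset.mul_sum, ← h2, ite_mul,
        zero_mul, Finset.sum_ite_eq', Finset.mem_univ, if_true]
      rw [monomial_add_single, pow_one, map_mul, eval_X, map_mul]
      ring

/-- division by `X j - c j` without raising the degree (induct over monomials) -/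
theorem exists_div {σ : Type} [Fintype σ] {R : Type} [CommRing R] (c : σ → R)
    (F : MvPolynomial σ R) : ∃ M : σ → MvPolynomial σ R, (∀ j, (M j).totalDegree ≤ F.totalDegree) ∧
      F - C (eval c F) = ∑ j, M j * (X j - C (c j)) := by
  choose M h1 h2 using fun s : σ →₀ ℕ => il1_mono c (coeff s F) _ s rfl
  refine ⟨fun j => ∑ s ∈ F.support, M s j, fun j => ?_, ?_⟩
  · exact totalDegree_finsetSum_le fun s hs => (h1 s j).trans (le_totalDegree hs)
  · simp only [Finset.sum_mul]
    rw [Finset.sum_comm, ← Finset.sum_congr rfl fun s _ => h2 s, Finset.sum_sub_distrib,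
      ← map_sum, ← map_sum, ← F.as_sum]

variable {σ : Type} [Fintype σ] {Ω : Type} [Field Ω]

/-- Socle: maximise `{f | ∀ h, lam (a f h) = 0}` over the `a` with `lam (a ·) ≠ 0`; the maximal one is
prime and contains `Q`, hence maximal, hence the ideal of a point. -/
theorem exists_socle [IsAlgClosed Ω] (Q : Ideal (MvPolynomial σ Ω))
    [FiniteDimensional Ω (MvPolynomial σ Ω ⧸ Q)] (lam : MvPolynomial σ Ω →ₗ[Ω] Ω) (h0 : lam ≠ 0)
    (hQ : ∀ f ∈ Q, lam f = 0) : ∃ (a : MvPolynomial σ Ω) (ξ : σ → Ω), Q ≤ mI ξ ∧ lam a ≠ 0 ∧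
      ∀ f, lam (a * f) = lam a * eval ξ f := by
  let ann : MvPolynomial σ Ω → Ideal (MvPolynomial σ Ω) := fun a =>
    { carrier := {f | ∀ h, lam (a * f * h) = 0}
      add_mem' := fun {f g} hf hg h => by
        rw [mul_add, add_mul, map_add, hf h, hg h, add_zero]
      zero_mem' := fun h => by simp
      smul_mem' := fun c f hf h => by
        have := hf (c * h)
        rw [smul_eq_mul]
        convert this using 2
        ring }
  have hann : ∀ a f, f ∈ ann a ↔ ∀ h, lam (a * f * h) = 0 := fun _ _ => Iff.rfl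
  have hne : ({I | ∃ a, (∃ h, lam (a * h) ≠ 0) ∧ I = ann a} :
      Set (Ideal (MvPolynomial σ Ω))).Nonempty := by
    obtain ⟨h, hh⟩ : ∃ h, lam h ≠ 0 := by
      by_contra hc
      push Not at hc
      exact h0 (LinearMap.ext hc)
    exact ⟨ann 1, 1, ⟨h, by rwa [one_mul]⟩, rfl⟩
  obtain ⟨I, ⟨a, ⟨h, hh⟩, rfl⟩, hmax⟩ :=
    set_has_maximal_iff_noetherian.2 (inferInstance : IsNoetherian (MvPolynomial σ Ω)
      (MvPolynomial σ Ω)) _ hne
  have hprime : (ann a).IsPrime := by
    refine ⟨fun ht => hh ?_, fun {f g} hfg => ?_⟩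
    · have h1 : (1 : MvPolynomial σ Ω) ∈ ann a := ht ▸ Submodule.mem_top
      simpa using (hann _ _).1 h1 h
    · by_contra hc
      push Not at hc
      obtain ⟨hf, hg⟩ := hc
      rw [hann] at hf
      push Not at hf
      refine hmax (ann (a * f)) ⟨a * f, hf, rfl⟩ (lt_of_le_of_ne (fun u hu h' => ?_) fun he => hg ?_)
      · have := (hann _ _).1 hu (f * h')
        convert this using 2
        ring
      · rw [he]
        intro h'
        have := (hann _ _).1 hfg h'
        convert this using 2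
        ring
  have hQa : Q ≤ ann a := fun f hf h' =>
    hQ _ (Q.mul_mem_right _ (Q.mul_mem_left _ hf))
  have hfin : FiniteDimensional Ω (MvPolynomial σ Ω ⧸ ann a) :=
    Module.Finite.of_surjective (Ideal.Quotient.factorₐ Ω hQa).toLinearMap
      (Ideal.Quotient.factor_surjective hQa)
  have hart : IsArtinianRing (MvPolynomial σ Ω ⧸ ann a) := IsArtinianRing.of_finite Ω _
  have hM : (ann a).IsMaximal :=
    Ideal.Quotient.maximal_of_isField _ (IsArtinianRing.isField_of_isDomain _)
  obtain ⟨ξ, hξ⟩ := isMaximal_iff_eq_vanishingIdeal_singleton.1 hM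
  have hmem : ∀ f, f ∈ ann a ↔ eval ξ f = 0 := fun f => by
    rw [hξ, mem_vanishingIdeal_singleton_iff, aeval_eq_eval]
  have key : ∀ f, lam (a * f) = lam a * eval ξ f := fun f => by
    have h1 : f - C (eval ξ f) ∈ ann a := (hmem _).2 (by simp)
    have h2 := (hann _ _).1 h1 1
    rw [mul_one, mul_sub, map_sub, mul_comm a (C _), C_mul', map_smul, smul_eq_mul,
      sub_eq_zero] at h2
    rw [h2, mul_comm]
  refine ⟨a, ξ, fun f hf => mem_mI.2 ((hmem f).1 (hQa hf)), fun ha => hh ?_, key⟩
  rw [key, ha, zero_mul]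

/-- Bezoutian: `P_i(y) - P_i(x) = ∑ M_ij (y_j - x_j)` in `A[y]`, `A = Ω[x]` (`exists_div`),
`Δ = det M` of degree `≤ n t` in `y`; `Λ : A[y] → A`, `A`-linear with `y ^ α ↦ C (lam (x ^ α))`.
`Λ Δ = 0`, `(a(y) - a(x)) Δ ∈ (P_i(y) - P_i(x))` (adjugate), `Λ (P_i(y) F) = 0`; hence
`Λ (a(y) Δ) = lam a * Δ(y = ξ) ∈ (P)`. -/
theorem bez [DecidableEq σ] (P : σ → MvPolynomial σ Ω) (t : ℕ) (hP : ∀ i, (P i).totalDegree ≤ t)
    (lam : MvPolynomial σ Ω →ₗ[Ω] Ω) (h1 : ∀ i f, lam (P i * f) = 0)
    (h2 : ∀ f : MvPolynomial σ Ω, f.totalDegree ≤ Fintype.card σ * t → lam f = 0)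
    (a : MvPolynomial σ Ω) (ξ : σ → Ω) (ha : lam a ≠ 0) (h3 : ∀ f, lam (a * f) = lam a * eval ξ f) :
    ∃ M : Matrix σ σ (MvPolynomial σ Ω), (∀ i, P i = ∑ j, M i j * (X j - C (ξ j))) ∧
      M.det ∈ Ideal.span (Set.range P) := by
  obtain ⟨Λ, hΛ⟩ : ∃ Λ : MvPolynomial σ (MvPolynomial σ Ω) →ₗ[MvPolynomial σ Ω] MvPolynomial σ Ω,
      ∀ s, Λ (monomial s 1) = C (lam (monomial s 1)) :=
    ⟨(basisMonomials σ _).constr (MvPolynomial σ Ω) fun s => C (lam (monomial s 1)), fun s => by
      have := (basisMonomials σ (MvPolynomial σ Ω)).constr_basis (MvPolynomial σ Ω)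
        (fun s => (C (lam (monomial s 1)) : MvPolynomial σ Ω)) s
      rwa [coe_basisMonomials] at this⟩
  have l0 : ∀ s b, Λ (monomial s b) = b * C (lam (monomial s 1)) := fun s b => by
    rw [← hΛ, ← smul_eq_mul, ← map_smul, smul_monomial, smul_eq_mul, mul_one]
  have l1 : ∀ f, Λ (map C f) = C (lam f) := fun f => by
    induction f using MvPolynomial.induction_on' with
    | monomial s b =>
      rw [map_monomial, l0, ← map_mul, ← smul_eq_mul, ← map_smul, smul_monomial, smul_eq_mul,
        mul_one]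
    | add p q hp hq => simp only [map_add, hp, hq]
  have l2 : ∀ (g : MvPolynomial σ Ω) (r : Ω), (∀ f, lam (g * f) = r * eval ξ f) →
      ∀ F, Λ (map C g * F) = C r * eval (fun j => C (ξ j)) F := fun g r hg F => by
    induction F using MvPolynomial.induction_on' with
    | monomial s b =>
      have e : map C g * monomial s b = b • map C (g * monomial s (1 : Ω)) := by
        rw [map_mul, map_monomial, map_one, ← mul_smul_comm, smul_monomial, smul_eq_mul, mul_one]
      rw [e, map_smul, l1, hg, eval_monomial, eval_monomial, one_mul, map_mul, smul_eq_mul,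
        map_finsuppProd]
      simp only [map_pow]
      ring
    | add p q hp hq => simp only [mul_add, map_add, hp, hq]
  have l3 : ∀ F : MvPolynomial σ (MvPolynomial σ Ω), F.totalDegree ≤ Fintype.card σ * t →
      Λ F = 0 := fun F hF => by
    rw [F.as_sum, map_sum]
    refine Finset.sum_eq_zero fun s hs => ?_
    rw [l0, h2 _ ((totalDegree_monomial_le _ _).trans ((le_totalDegree hs).trans hF)), map_zero,
      mul_zero]
  have ev : ∀ f : MvPolynomial σ Ω, eval X (map (C : Ω →+* MvPolynomial σ Ω) f) = f := fun f => by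
    rw [eval_map, eval₂_eta]
  choose M m1 m2 using fun i => exists_div X (map (C : Ω →+* MvPolynomial σ Ω) (P i))
  obtain ⟨N, -, n2⟩ := exists_div X (map (C : Ω →+* MvPolynomial σ Ω) a)
  simp only [ev] at m2 n2
  have hdeg : (Matrix.of M).det.totalDegree ≤ Fintype.card σ * t := by
    rw [Matrix.det_apply']
    refine totalDegree_finsetSum_le fun π _ => (totalDegree_mul _ _).trans ?_
    rw [← map_intCast (C : MvPolynomial σ Ω →+* MvPolynomial σ (MvPolynomial σ Ω)),
      totalDegree_C, zero_add]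
    refine (totalDegree_finsetProd _ _).trans ?_
    rw [← Finset.card_univ, ← smul_eq_mul]
    exact Finset.sum_le_card_nsmul _ _ _ fun i _ =>
      (m1 _ _).trans ((Finset.sup_mono (support_map_subset _ _)).trans (hP _))
  have hadj : ∀ j, (X j - C (X j)) * (Matrix.of M).det =
      ∑ i, (Matrix.of M).adjugate j i * (map C (P i) - C (P i)) := fun j => by
    have := congrFun (congrArg (fun A => A.mulVec fun j => X j - C (X j))
      (Matrix.adjugate_mul (Matrix.of M))) j
    simp only [← Matrix.mulVec_mulVec, Matrix.smul_mulVec, Matrix.one_mulVec, Pi.smul_apply,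
      smul_eq_mul] at this
    rw [mul_comm, ← this]
    simp only [m2]
    rfl
  have hmem : ∀ i G, Λ (G * (map C (P i) - C (P i))) ∈ Ideal.span (Set.range P) := fun i G => by
    rw [mul_comm, sub_mul, map_sub, l2 (P i) 0 fun f => by rw [h1, zero_mul], map_zero, zero_mul,
      ← smul_eq_C_mul, map_smul, zero_sub]
    exact neg_mem (Ideal.mul_mem_right _ _ (Ideal.subset_span ⟨i, rfl⟩))
  have key : Λ ((map C a - C a) * (Matrix.of M).det) ∈ Ideal.span (Set.range P) := by
    rw [n2, Finset.sum_mul, map_sum]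
    refine Ideal.sum_mem _ fun j _ => ?_
    rw [mul_assoc, hadj, Finset.mul_sum, map_sum]
    exact Ideal.sum_mem _ fun i _ => by rw [← mul_assoc]; exact hmem i _
  rw [sub_mul, map_sub, l2 a _ h3, ← smul_eq_C_mul (Matrix.of M).det a, map_smul, l3 _ hdeg, smul_zero, sub_zero,
    RingHom.map_det] at key
  refine ⟨(eval fun j => C (ξ j)).mapMatrix (Matrix.of M), fun i => ?_, ?_⟩
  · have e0 : eval ξ (P i) = 0 := by
      have := h3 (P i)
      rw [mul_comm, h1] at this
      exact (mul_eq_zero.1 this.symm).resolve_left ha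
    have e1 : eval (fun j => (C (ξ j) : MvPolynomial σ Ω)) (map C (P i)) = C (eval ξ (P i)) := by
      rw [eval_map, ← eval₂_id, eval₂_comp_left]
      rfl
    have := congrArg (eval fun j => (C (ξ j) : MvPolynomial σ Ω)) (m2 i)
    rw [map_sub, e1, e0, map_zero, eval_C, zero_sub, neg_eq_iff_eq_neg, map_sum,
      ← Finset.sum_neg_distrib] at this
    rw [this]
    refine Finset.sum_congr rfl fun j _ => ?_
    simp only [map_mul, map_sub, eval_X, eval_C, RingHom.mapMatrix_apply, Matrix.map_apply,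
      Matrix.of_apply]
    ring
  · have := Ideal.mul_mem_left _ (C (lam a)⁻¹) key
    rwa [← mul_assoc, ← map_mul, inv_mul_cancel₀ ha, map_one, one_mul] at this

/-- Interpolation lemma.  Otherwise a nonzero functional kills `Q` and all polynomials of degree
`≤ n t`; use `exists_socle`, `exists_comb`, `bez`, `wiebe`. -/
theorem il [IsAlgClosed Ω] (Q : Ideal (MvPolynomial σ Ω))
    [FiniteDimensional Ω (MvPolynomial σ Ω ⧸ Q)] (G : Set (MvPolynomial σ Ω)) (t : ℕ)
    (hG : ∀ g ∈ G, g ∈ Q ∧ g.totalDegree ≤ t)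
    (hiso : ∀ ξ : σ → Ω, Q ≤ mI ξ → mI ξ ∈ (Ideal.span G).minimalPrimes) (f : MvPolynomial σ Ω) :
    ∃ h : MvPolynomial σ Ω, h.totalDegree ≤ Fintype.card σ * t ∧ f - h ∈ Q := by
  classical
  by_contra hc
  have hf : f ∉ restrictTotalDegree σ Ω (Fintype.card σ * t) ⊔ Q.restrictScalars Ω := by
    intro hf
    obtain ⟨h, hh, q, hq, rfl⟩ := Submodule.mem_sup.1 hf
    exact hc ⟨h, (mem_restrictTotalDegree _ _ _).1 hh, by simpa using hq⟩
  obtain ⟨lam, hl0, hl⟩ := Submodule.exists_le_ker_of_notMem hf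
  have hQ : ∀ g ∈ Q, lam g = 0 := fun g hg => hl (Submodule.mem_sup_right hg)
  have hD : ∀ g : MvPolynomial σ Ω, g.totalDegree ≤ Fintype.card σ * t → lam g = 0 :=
    fun g hg => hl (Submodule.mem_sup_left ((mem_restrictTotalDegree _ _ _).2 hg))
  obtain ⟨a, ξ, hξ, ha, h3⟩ := exists_socle Q lam (fun h => hl0 (by simp [h])) hQ
  obtain ⟨P, hPG, hP⟩ := exists_comb (hiso ξ hξ)
  have hPQ : ∀ i, P i ∈ Q := fun i =>
    (Submodule.span_le (p := Q.restrictScalars Ω)).2 (fun g hg => (hG g hg).1) (hPG i)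
  have hPt : ∀ i, (P i).totalDegree ≤ t := fun i =>
    (mem_restrictTotalDegree _ _ _).1 ((Submodule.span_le (p := restrictTotalDegree σ Ω t)).2
      (fun g hg => (mem_restrictTotalDegree _ _ _).2 (hG g hg).2) (hPG i))
  obtain ⟨M, hM1, hM2⟩ := bez P t hPt lam (fun i g => hQ _ (Q.mul_mem_right _ (hPQ i))) hD a ξ ha h3
  exact wiebe ξ M P hM1 hP hM2

end Crest.Agent.R65.CA
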