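import Crest.Agent.R65.CAIL
import Crest.Agent.R65.CABasic
import Crest.Agent.R65.CAFat

/-! Row 65, commutative algebra module: the lower bound. -/

set_option autoImplicit false

namespace Crest.Agent.R65.CA

open MvPolynomial

variable {σ : Type} [Fintype σ] {L : Type} [Field L] {m : ℕ}

/-- the equations over `Om L m` -/
def eqs (G : Set (MvPolynomial σ L)) (z : Fin m → MvPolynomial σ L) :
    Set (MvPolynomial σ (Om L m)) :=
  (map (algebraMap L (Om L m)) '' G) ∪
    Set.range fun i => map (algebraMap L (Om L m)) (z i) - C (Xo L m i)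

/-- Generic points of components are isolated.  Let `span ≤ M' ≤ mI ξ`, `M'` prime.  The contraction
of `M'` to `A` contains `G` and lies in `p = kerAt L ξ`, so equals `p`.  `ξ j` satisfies a nonzero
equation `∑ u_k(X) ξ_j ^ k = 0`, so `∑ u_k(z) x_j ^ k ∈ p`, so `∑ u_k(X) x_j ^ k ∈ M'`; it splits over
`Om`, so `x_j - c ∈ M'`, and `c = ξ j`. -/
theorem iso_pt {G : Set (MvPolynomial σ L)} {z : Fin m → MvPolynomial σ L} {ξ : σ → Om L m}
    (hz : ∀ i, aeval ξ (z i) = Xo L m i) (hmin : kerAt L ξ ∈ (Ideal.span G).minimalPrimes) :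
    mI ξ ∈ (Ideal.span (eqs G z)).minimalPrimes := by
  have hev : ∀ f : MvPolynomial σ L, eval ξ (map (algebraMap L (Om L m)) f) = aeval ξ f := fun f => by
    rw [eval_map, aeval_def]
  refine ⟨⟨mI_isPrime ξ, Ideal.span_le.2 ?_⟩, fun M hM hle => ?_⟩
  · rintro _ (⟨g, hg, rfl⟩ | ⟨i, rfl⟩)
    · exact mem_mI.2 ((hev g).trans (mem_kerAt.1 (hmin.1.2 (Ideal.subset_span hg))))
    · exact mem_mI.2 (by rw [map_sub, hev, hz, eval_C, sub_self])
  have := hM.1
  let φ : MvPolynomial σ L →+* MvPolynomial σ (Om L m) ⧸ M :=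
    (Ideal.Quotient.mk M).comp (map (algebraMap L (Om L m)))
  have hφ : ∀ f, φ f = 0 ↔ map (algebraMap L (Om L m)) f ∈ M := fun f =>
    Ideal.Quotient.eq_zero_iff_mem
  have hker : kerAt L ξ ≤ RingHom.ker φ :=
    hmin.2 ⟨RingHom.ker_isPrime φ, Ideal.span_le.2 fun g hg =>
      (hφ g).2 (hM.2 (Ideal.subset_span (Or.inl ⟨g, hg, rfl⟩)))⟩ fun f hf =>
      mem_kerAt.2 ((hev f).symm.trans (mem_mI.1 (hle ((hφ f).1 hf))))
  let ψ : MvPolynomial (Fin m) L →+* MvPolynomial σ L := (aeval z : _ →ₐ[L] _)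
  have hC : ∀ c : L, algebraMap (MvPolynomial (Fin m) L) (Om L m) (C c) = algebraMap L (Om L m) c :=
    fun c => (IsScalarTower.algebraMap_apply L (MvPolynomial (Fin m) L) (Om L m) c).symm
  have hinj : Function.Injective (algebraMap (MvPolynomial (Fin m) L) (Om L m)) := by
    rw [IsScalarTower.algebraMap_eq _ (Kf L m), RingHom.coe_comp]
    exact (RingHom.injective _).comp (IsFractionRing.injective _ _)
  have h1 : ((aeval ξ : MvPolynomial σ L →ₐ[L] Om L m) : MvPolynomial σ L →+* Om L m).comp ψ =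
      algebraMap (MvPolynomial (Fin m) L) (Om L m) :=
    ringHom_ext (fun c => by simp [ψ, hC]) fun i => by simpa [ψ, Xo] using hz i
  have h2 : φ.comp ψ = (algebraMap (Om L m) (MvPolynomial σ (Om L m) ⧸ M)).comp
      (algebraMap (MvPolynomial (Fin m) L) (Om L m)) := by
    refine ringHom_ext (fun c => ?_) fun i => ?_
    · simp only [φ, ψ, RingHom.coe_coe, aeval_C, RingHom.comp_apply, algebraMap_eq, map_C, hC]
      rfl
    · simp only [φ, ψ, RingHom.coe_coe, aeval_X, RingHom.comp_apply]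
      exact Ideal.Quotient.eq.2 (hM.2 (Ideal.subset_span (Or.inr ⟨i, rfl⟩)))
  have hX : ∀ j, Ideal.Quotient.mk M (X j) =
      algebraMap (Om L m) (MvPolynomial σ (Om L m) ⧸ M) (ξ j) := by
    intro j
    obtain ⟨P, hP, hP0⟩ : IsAlgebraic (MvPolynomial (Fin m) L) (ξ j) :=
      (IsFractionRing.isAlgebraic_iff _ (Kf L m) _).2 (Algebra.IsAlgebraic.isAlgebraic _)
    have h3 : P.eval₂ ψ (X j) ∈ kerAt L ξ := by
      have := Polynomial.hom_eval₂ P ψ
        ((aeval ξ : MvPolynomial σ L →ₐ[L] Om L m) : MvPolynomial σ L →+* Om L m) (X j)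
      rw [h1, RingHom.coe_coe, aeval_X, ← Polynomial.aeval_def, hP0] at this
      exact mem_kerAt.2 this
    have h4 : IsAlgebraic (Om L m) (Ideal.Quotient.mk M (X j)) := by
      refine ⟨P.map (algebraMap (MvPolynomial (Fin m) L) (Om L m)),
        (Polynomial.map_ne_zero_iff hinj).2 hP, ?_⟩
      rw [Polynomial.aeval_def, Polynomial.eval₂_map, ← h2]
      have h5 := Polynomial.hom_eval₂ P ψ φ (X j)
      rw [RingHom.mem_ker.1 (hker h3)] at h5
      rw [h5]
      simp only [φ, RingHom.comp_apply, map_X]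
    obtain ⟨c, hc⟩ := minpoly.mem_range_of_degree_eq_one _ _
      (IsAlgClosed.degree_eq_one_of_irreducible _ (minpoly.irreducible h4.isIntegral))
    have h6 : C c - X j ∈ mI ξ := hle (Ideal.Quotient.eq.1 hc)
    rw [mem_mI, map_sub, eval_C, eval_X, sub_eq_zero] at h6
    rw [← hc, h6]
  intro f hf
  have h7 : Ideal.Quotient.mk M =
      (algebraMap (Om L m) (MvPolynomial σ (Om L m) ⧸ M)).comp (eval ξ) :=
    ringHom_ext (fun c => by rw [RingHom.comp_apply, eval_C]; rfl) fun j => by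
      rw [RingHom.comp_apply, eval_X, hX]
  rw [← Ideal.Quotient.eq_zero_iff_mem, h7, RingHom.comp_apply, mem_mI.1 hf, map_zero]

theorem lbc_deg_map {K K' : Type} [CommRing K] [CommRing K'] {τ : Type} (φ : K →+* K')
    (f : MvPolynomial τ K) : (map φ f).totalDegree ≤ f.totalDegree :=
  Finset.sup_mono (support_map_subset φ f)

theorem lbc_deg_aeval {τ κ : Type} {z : κ → MvPolynomial τ L} (hz : ∀ i, (z i).totalDegree ≤ 1)
    (u : MvPolynomial κ L) : (aeval z u).totalDegree ≤ u.totalDegree := by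
  conv_lhs => rw [u.as_sum, map_sum]
  refine totalDegree_finsetSum_le fun α hα => ?_
  rw [aeval_monomial]
  refine (totalDegree_mul _ _).trans ?_
  rw [show algebraMap L (MvPolynomial τ L) (coeff α u) = C (coeff α u) from rfl, totalDegree_C,
    zero_add]
  refine le_trans ?_ (le_totalDegree hα)
  refine (totalDegree_finsetProd _ _).trans (Finset.sum_le_sum fun i _ => ?_)
  refine (totalDegree_pow _ _).trans ?_
  simpa using Nat.mul_le_mul_left (α i) (hz i)

/-- abstract form of the lower bound -/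
theorem lbc_abs {Ω B : Type} [Field Ω] [Algebra L Ω] [CommRing B] [Algebra Ω B] [Algebra L B]
    [IsScalarTower L Ω B] [FiniteDimensional Ω B] (ψ : MvPolynomial σ L →ₐ[L] B)
    (ι : MvPolynomial (Fin m) L →ₐ[L] Ω) (hι : Function.Injective ι)
    {z : Fin m → MvPolynomial σ L} (hz : ∀ i, (z i).totalDegree ≤ 1)
    (hψ : ∀ i, ψ (z i) = algebraMap Ω B (ι (X i))) (d e : ℕ)
    (hsp : Submodule.span Ω (ψ '' {a | a.totalDegree ≤ d}) = ⊤) :
    Module.finrank Ω B * (e + m).choose m ≤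
      Module.finrank L ((restrictTotalDegree σ L (e + d)).map ψ.toLinearMap) := by
  classical
  obtain ⟨b, hb, hbs, hbi⟩ := exists_linearIndependent Ω (ψ '' {a | a.totalDegree ≤ d})
  rw [hsp] at hbs
  have hfin : Finite b := hbi.finite
  have : Fintype b := Fintype.ofFinite b
  have hcard : Module.finrank Ω B = Fintype.card b :=
    Module.finrank_eq_card_basis (Module.Basis.mk hbi (by
      rw [Subtype.range_coe, hbs]))
  have ha : ∀ i : b, ∃ a : MvPolynomial σ L, a.totalDegree ≤ d ∧ ψ a = i := fun i => hb i.2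
  choose a ha1 ha2 using ha
  have hcomp : ∀ u : MvPolynomial (Fin m) L, ψ (aeval z u) = algebraMap Ω B (ι u) := by
    intro u
    have : ψ.comp (aeval z) = (IsScalarTower.toAlgHom L Ω B).comp ι := by
      refine algHom_ext fun i => ?_
      simp [hψ]
    exact DFunLike.congr_fun this u
  let Φ₀ : (b → restrictTotalDegree (Fin m) L e) →ₗ[L] MvPolynomial σ L :=
    { toFun := fun u => ∑ i, aeval z (u i : MvPolynomial (Fin m) L) * a i
      map_add' := fun u v => by simp [add_mul, Finset.sum_add_distrib]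
      map_smul' := fun c u => by simp [Finset.smul_sum] }
  have hΦ₀ : ∀ u, Φ₀ u ∈ restrictTotalDegree σ L (e + d) := by
    intro u
    rw [mem_restrictTotalDegree]
    refine totalDegree_finsetSum_le fun i _ => (totalDegree_mul _ _).trans ?_
    exact add_le_add ((lbc_deg_aeval hz _).trans ((mem_restrictTotalDegree _ _ _).1 (u i).2))
      (ha1 i)
  have hΦ : ∀ u, ψ (Φ₀ u) = ∑ i : b, ι (u i : MvPolynomial (Fin m) L) • (i : B) := by
    intro u
    change ψ (∑ i, aeval z (u i : MvPolynomial (Fin m) L) * a i) = _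
    rw [map_sum]
    refine Finset.sum_congr rfl fun i _ => ?_
    rw [map_mul, hcomp, ha2, Algebra.smul_def]
  let Φ : (b → restrictTotalDegree (Fin m) L e) →ₗ[L]
      (restrictTotalDegree σ L (e + d)).map ψ.toLinearMap :=
    LinearMap.codRestrict _ (ψ.toLinearMap ∘ₗ Φ₀) fun u => ⟨Φ₀ u, hΦ₀ u, rfl⟩
  have hinj : Function.Injective Φ := by
    rw [injective_iff_map_eq_zero]
    intro u hu
    have h1 : ψ (Φ₀ u) = 0 := congrArg Subtype.val hu
    rw [hΦ] at h1
    have h2 := Fintype.linearIndependent_iff.1 hbi _ h1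
    funext i
    exact Subtype.ext (hι ((h2 i).trans (map_zero ι).symm))
  have h3 := LinearMap.finrank_le_finrank_of_injective hinj
  rw [Module.finrank_pi_fintype, Finset.sum_const, finrank_restrict, Fintype.card_fin,
    Finset.card_univ, smul_eq_mul] at h3
  rwa [hcard]

/-- Lower bound.  By `il` the classes of polynomials of `A` (monomials) of degree `≤ n t` span
`B = Om[x] / Q` over `Om`; choose a basis `b_i` among them.  `(u_i) ↦ ∑ u_i(X) b_i` is an injective
`L`-linear map from `(L[X]_{≤ e}) ^ r` into the image of `A_{≤ e + n t}` (`u_i(X) ≡ u_i(z)`).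
Use `finrank_restrict`, `finrank_map_le_Hf`. -/
theorem lb_core {G : Set (MvPolynomial σ L)} {t : ℕ} (ht : 1 ≤ t)
    (hG : ∀ g ∈ G, g.totalDegree ≤ t) {z : Fin m → MvPolynomial σ L}
    (hz : ∀ i, (z i).totalDegree ≤ 1) (Q : Ideal (MvPolynomial σ (Om L m)))
    [FiniteDimensional (Om L m) (MvPolynomial σ (Om L m) ⧸ Q)] (hQ : eqs G z ⊆ Q)
    (hmin : ∀ ξ : σ → Om L m, Q ≤ mI ξ → kerAt L ξ ∈ (Ideal.span G).minimalPrimes)
    (I : Ideal (MvPolynomial σ L)) (e : ℕ)
    (hI : ∀ f ∈ I, f.totalDegree ≤ e + Fintype.card σ * t → map (algebraMap L (Om L m)) f ∈ Q) :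
    Module.finrank (Om L m) (MvPolynomial σ (Om L m) ⧸ Q) * (e + m).choose m ≤
      Hf I (e + Fintype.card σ * t) := by
  let ψ : MvPolynomial σ L →ₐ[L] MvPolynomial σ (Om L m) ⧸ Q :=
    (Ideal.Quotient.mkₐ L Q).comp (mapAlgHom (Algebra.ofId L (Om L m)))
  have hψ : ∀ f, ψ f = Ideal.Quotient.mk Q (map (algebraMap L (Om L m)) f) := fun f => rfl
  have hzQ : ∀ i, map (algebraMap L (Om L m)) (z i) - C (Xo L m i) ∈ Q :=
    fun i => hQ (Or.inr ⟨i, rfl⟩)
  have hil := il Q (eqs G z) t (by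
      intro g hg
      refine ⟨hQ hg, ?_⟩
      rcases hg with ⟨g', hg', rfl⟩ | ⟨i, rfl⟩
      · exact (lbc_deg_map _ _).trans (hG g' hg')
      · refine (totalDegree_sub _ _).trans (max_le ?_ ?_)
        · exact (lbc_deg_map _ _).trans ((hz i).trans ht)
        · rw [totalDegree_C]
          exact Nat.zero_le _)
    (fun ξ hξ => iso_pt (fun i => by
      have h1 := mem_mI.1 (hξ (hzQ i))
      rw [map_sub, eval_C, sub_eq_zero, eval_map] at h1
      exact h1) (hmin ξ hξ))
  refine le_trans (lbc_abs ψ (IsScalarTower.toAlgHom L (MvPolynomial (Fin m) L) (Om L m)) ?_ hz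
    (fun i => ?_) (Fintype.card σ * t) e ?_) (finrank_map_le_Hf _ I _ fun f hf hd => ?_)
  · intro u v huv
    have h1 : algebraMap (MvPolynomial (Fin m) L) (Om L m) u =
        algebraMap (MvPolynomial (Fin m) L) (Om L m) v := huv
    rw [IsScalarTower.algebraMap_apply _ (Kf L m), IsScalarTower.algebraMap_apply _ (Kf L m) _ v]
      at h1
    exact IsFractionRing.injective (MvPolynomial (Fin m) L) (Kf L m)
      ((algebraMap (Kf L m) (Om L m)).injective h1)
  · exact Ideal.Quotient.eq.2 (hzQ i)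
  · rw [eq_top_iff]
    rintro x -
    obtain ⟨f, rfl⟩ := Ideal.Quotient.mk_surjective x
    obtain ⟨h, hd, hh⟩ := hil f
    rw [Ideal.Quotient.eq.2 hh, h.as_sum, map_sum]
    refine Submodule.sum_mem _ fun α hα => ?_
    have h1 : Ideal.Quotient.mk Q (monomial α (coeff α h)) = coeff α h • ψ (monomial α 1) := by
      rw [hψ, map_monomial, map_one]
      change _ = coeff α h • Ideal.Quotient.mkₐ (Om L m) Q _
      rw [← map_smul, smul_monomial, smul_eq_mul, mul_one]
      rfl
    rw [h1]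
    refine Submodule.smul_mem _ _ (Submodule.subset_span ⟨_, ?_, rfl⟩)
    exact (totalDegree_monomial_le _ _).trans ((le_totalDegree hα).trans hd)
  · exact Ideal.Quotient.eq_zero_iff_mem.2 (hI f hf hd)

/-- Lower bound for a finite family of fat points (`crt` and `lb_core`). -/
theorem lb_pts {G : Set (MvPolynomial σ L)} {t : ℕ} (ht : 1 ≤ t)
    (hG : ∀ g ∈ G, g.totalDegree ≤ t) {z : Fin m → MvPolynomial σ L}
    (hz : ∀ i, (z i).totalDegree ≤ 1) (Ξ : Finset (σ → Om L m))
    (Q : (σ → Om L m) → Ideal (MvPolynomial σ (Om L m))) (hpow : ∀ ξ ∈ Ξ, ∃ N, mI ξ ^ N ≤ Q ξ)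
    (hQ : ∀ ξ ∈ Ξ, eqs G z ⊆ Q ξ) (hmin : ∀ ξ ∈ Ξ, kerAt L ξ ∈ (Ideal.span G).minimalPrimes)
    (I : Ideal (MvPolynomial σ L)) (e : ℕ)
    (hI : ∀ ξ ∈ Ξ, ∀ f ∈ I, f.totalDegree ≤ e + Fintype.card σ * t →
      map (algebraMap L (Om L m)) f ∈ Q ξ) :
    (∑ ξ ∈ Ξ, Module.finrank (Om L m) (MvPolynomial σ (Om L m) ⧸ Q ξ)) * (e + m).choose m ≤
      Hf I (e + Fintype.card σ * t) := by
  obtain ⟨h1, h2, h3⟩ := crt Ξ Q hpow
  rw [← h2]
  refine lb_core ht hG hz _ (fun g hg => ?_) (fun ξ hξ => hmin ξ (h3 ξ hξ)) I e fun f hf hd => ?_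
  · simp only [SetLike.mem_coe, Submodule.mem_iInf]
    exact fun ξ hξ => hQ ξ hξ hg
  · simp only [Submodule.mem_iInf]
    exact fun ξ hξ => hI ξ hξ f hf hd

end Crest.Agent.R65.CA
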