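import Crest.Agent.R65.CAGrow
import Crest.Agent.R65.CADim

/-! Row 65, commutative algebra module: linear Noether normalisation with linear growth. -/

set_option autoImplicit false

namespace Crest.Agent.R65.CA

open MvPolynomial

variable {σ : Type} [Fintype σ] {L : Type} [Field L]

theorem NN1_scale {κ Ω : Type} [CommRing Ω] [Algebra L Ω] {F : MvPolynomial κ L} {n : ℕ}
    (hF : F.IsHomogeneous n) (t : Ω) (a : κ → Ω) :
    aeval (fun i => t * a i) F = t ^ n * aeval a F := by
  rw [aeval_def, aeval_def, eval₂_eq, eval₂_eq, Finset.mul_sum]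
  refine Finset.sum_congr rfl fun d hd => ?_
  simp only [mul_pow, Finset.prod_mul_distrib, Finset.prod_pow_eq_pow_sum,
    ← hF.degree_eq_sum_deg_support hd]
  ring

theorem NN1_val {κ Ω Γ : Type} [Field Ω] [Algebra L Ω] [LinearOrderedCommGroupWithZero Γ]
    (v : Valuation Ω Γ) (hL : ∀ l : L, v (algebraMap L Ω l) ≤ 1) {b : κ → Ω} {c : κ → L}
    (h : ∀ i, v (b i - algebraMap L Ω (c i)) < 1) (u : MvPolynomial κ L) :
    v (aeval b u - algebraMap L Ω (eval c u)) < 1 := by
  induction u using MvPolynomial.induction_on with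
  | C a => simp
  | add p q hp hq =>
    rw [map_add, map_add, map_add, add_sub_add_comm]
    exact v.map_add_lt hp hq
  | mul_X p i hp =>
    have e : aeval b (p * X i) - algebraMap L Ω (eval c (p * X i)) =
        (aeval b p - algebraMap L Ω (eval c p)) * (b i - algebraMap L Ω (c i)) +
        ((aeval b p - algebraMap L Ω (eval c p)) * algebraMap L Ω (c i) +
          algebraMap L Ω (eval c p) * (b i - algebraMap L Ω (c i))) := by
      simp only [map_mul, aeval_X, eval_X]
      ring
    rw [e]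
    refine v.map_add_lt ?_ (v.map_add_lt ?_ ?_) <;> rw [map_mul]
    · exact mul_lt_one_of_nonneg_of_lt_one_left zero_le hp (h i).le
    · exact mul_lt_one_of_nonneg_of_lt_one_left zero_le hp (hL _)
    · exact mul_lt_one_of_nonneg_of_lt_one_right (hL _) zero_le (h i)

omit [Fintype σ] in
/-- One projection.  `R (y) ∈ p`, `R ≠ 0` of degree `D` with top part `R_D`, `R_D (1, c) ≠ 0`; put
`y'_i = y_{i+1} - c_i y_0`.  If `v (y_0) > γ ≥ v (y'_i)` then `R (y) / y_0 ^ D ≡ R_D (1, c)` modulo the
maximal ideal of the valuation ring, a contradiction. -/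
theorem grow_step {N : ℕ} {p : Ideal (MvPolynomial σ L)} (y : Fin (N + 1) → MvPolynomial σ L)
    (R : MvPolynomial (Fin (N + 1)) L) (hR : aeval y R ∈ p) (c : Fin N → L)
    (hc : eval (Fin.cons 1 c) (homogeneousComponent R.totalDegree R) ≠ 0) (i : Fin (N + 1)) :
    Grow p (fun k : Fin N => y k.succ - C (c k) * y 0) 1 (y i) := by
  intro Ω _ _ ξ hξ O hO γ hγ hz
  obtain ⟨a, ha⟩ : ∃ a : Fin (N + 1) → Ω, a = fun i => aeval ξ (y i) := ⟨_, rfl⟩
  have hL : ∀ l : L, O.valuation (algebraMap L Ω l) ≤ 1 := fun l =>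
    (O.valuation_le_one_iff _).2 (hO l)
  have hz' : ∀ k : Fin N, O.valuation (a k.succ - algebraMap L Ω (c k) * a 0) ≤ γ := fun k => by
    simpa [ha] using hz k
  have hR' : aeval a R = 0 := by
    rw [← hξ, mem_kerAt, ← AlgHom.comp_apply, comp_aeval] at hR
    rw [ha, hR]
  have h0 : O.valuation (a 0) ≤ γ := by
    refine not_lt.1 fun h => ?_
    have h1 : 1 < O.valuation (a 0) := hγ.trans_lt h
    have hpos : 0 < O.valuation (a 0) := zero_lt_one.trans h1
    have ha0 : a 0 ≠ 0 := by
      intro h'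
      simp [h'] at hpos
    have ht : O.valuation (a 0)⁻¹ < 1 := by
      rw [map_inv₀]
      exact inv_lt_one_of_one_lt₀ h1
    have hb : ∀ i, O.valuation ((a 0)⁻¹ * a i -
        algebraMap L Ω ((Fin.cons 1 c : Fin (N + 1) → L) i)) < 1 := by
      intro i
      refine Fin.cases ?_ (fun k => ?_) i
      · simp [ha0]
      · have e : (a 0)⁻¹ * a k.succ - algebraMap L Ω ((Fin.cons 1 c : Fin (N + 1) → L) k.succ) =
            (a k.succ - algebraMap L Ω (c k) * a 0) / a 0 := by
          rw [Fin.cons_succ]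
          field_simp
        rw [e, map_div₀, div_lt_one₀ hpos]
        exact (hz' k).trans_lt h
    have hv := NN1_val O.valuation hL hb
    have hle : ∀ u : MvPolynomial (Fin (N + 1)) L,
        O.valuation (aeval (fun i => (a 0)⁻¹ * a i) u) ≤ 1 := fun u => by
      rw [← sub_add_cancel (aeval _ u) (algebraMap L Ω (eval (Fin.cons 1 c) u))]
      exact O.valuation.map_add_le (hv u).le (hL _)
    have e : aeval (fun i => (a 0)⁻¹ * a i) (homogeneousComponent R.totalDegree R) =
        -∑ j ∈ Finset.range R.totalDegree, (a 0)⁻¹ ^ (R.totalDegree - j) *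
          aeval (fun i => (a 0)⁻¹ * a i) (homogeneousComponent j R) := by
      rw [← sum_homogeneousComponent R, map_sum, Finset.sum_range_succ] at hR'
      rw [NN1_scale (homogeneousComponent_isHomogeneous _ _), eq_neg_of_add_eq_zero_right hR',
        mul_neg, Finset.mul_sum]
      refine congrArg _ (Finset.sum_congr rfl fun j hj => ?_)
      rw [NN1_scale (homogeneousComponent_isHomogeneous _ _), ← mul_assoc, ← pow_add,
        Nat.sub_add_cancel (Finset.mem_range.1 hj).le]
    have h2 : O.valuation (aeval (fun i => (a 0)⁻¹ * a i)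
        (homogeneousComponent R.totalDegree R)) < 1 := by
      rw [e, Valuation.map_neg]
      refine O.valuation.map_sum_lt one_ne_zero fun j hj => ?_
      rw [map_mul, map_pow]
      exact mul_lt_one_of_nonneg_of_lt_one_left zero_le
        (pow_lt_one₀ zero_le ht (Nat.sub_ne_zero_of_lt (Finset.mem_range.1 hj))) (hle _)
    have h3 := O.valuation.map_sub_lt h2 (hv (homogeneousComponent R.totalDegree R))
    rw [sub_sub_cancel] at h3
    have h4 := mul_lt_one_of_nonneg_of_lt_one_left zero_le h3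
      (hL (eval (Fin.cons 1 c) (homogeneousComponent R.totalDegree R))⁻¹)
    rw [← map_mul, ← map_mul, mul_inv_cancel₀ hc, map_one, map_one] at h4
    exact lt_irrefl _ h4
  rw [pow_one, show aeval ξ (y i) = a i by rw [ha]]
  refine Fin.cases h0 (fun k => ?_) i
  rw [← sub_add_cancel (a k.succ) (algebraMap L Ω (c k) * a 0)]
  refine O.valuation.map_add_le (hz' k) ?_
  rw [map_mul]
  exact (mul_le_of_le_one_left' (hL _)).trans h0

/-- a nonzero form does not vanish on the chart `x_0 = 1` -/
theorem exists_chart [Infinite L] {N : ℕ} {R : MvPolynomial (Fin (N + 1)) L} (hR : R ≠ 0) :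
    ∃ c : Fin N → L, eval (Fin.cons 1 c) (homogeneousComponent R.totalDegree R) ≠ 0 := by
  have h1 : homogeneousComponent R.totalDegree R ≠ 0 := by
    obtain ⟨d, hd, e⟩ := Finset.exists_mem_eq_sup _ (support_nonempty.2 hR)
      fun s : Fin (N + 1) →₀ ℕ => s.sum fun _ e => e
    intro h
    have := coeff_homogeneousComponent R.totalDegree R d
    rw [h, coeff_zero, if_pos (show Finsupp.degree d = R.totalDegree from e.symm)] at this
    exact mem_support_iff.1 hd this.symm
  obtain ⟨x, hx⟩ : ∃ x : Fin (N + 1) → L,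
      eval x (X 0 * homogeneousComponent R.totalDegree R) ≠ 0 := by
    by_contra! h
    exact mul_ne_zero (X_ne_zero 0) h1 (MvPolynomial.funext fun x => by rw [h, map_zero])
  rw [map_mul, eval_X, mul_ne_zero_iff] at hx
  refine ⟨fun k => (x 0)⁻¹ * x k.succ, ?_⟩
  have e : (Fin.cons 1 fun k : Fin N => (x 0)⁻¹ * x k.succ : Fin (N + 1) → L) =
      fun i => (x 0)⁻¹ * x i := by
    funext i
    refine Fin.cases ?_ (fun k => rfl) i
    rw [Fin.cons_zero, inv_mul_cancel₀ hx.1]
  rw [e, ← aeval_eq_eval, NN1_scale (homogeneousComponent_isHomogeneous _ _), aeval_eq_eval]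
  exact mul_ne_zero (pow_ne_zero _ (inv_ne_zero hx.1)) hx.2

/-- if `z` controls all variables and has `dimP p` members then it is independent
(`Grow.isIntegral`, `Algebra.IsAlgebraic.isTranscendenceBasis_of_le_trdeg_of_finite`); fewer members
are impossible -/
theorem indep_of_grow {N : ℕ} {p : Ideal (MvPolynomial σ L)} (hp : p.IsPrime)
    {z : Fin N → MvPolynomial σ L} (hz : ∀ j, Grow p z 1 (X j)) (hN : N ≤ dimP p) :
    N = dimP p ∧ AlgebraicIndependent L fun i => Ideal.Quotient.mk p (z i) := by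
  have hdom : IsDomain (MvPolynomial σ L ⧸ p) := Ideal.Quotient.isDomain p
  have hint : Algebra.IsIntegral
      (Algebra.adjoin L (Set.range fun i => Ideal.Quotient.mk p (z i))) (MvPolynomial σ L ⧸ p) := by
    refine ⟨fun a => ?_⟩
    obtain ⟨φ, rfl⟩ := Ideal.Quotient.mk_surjective a
    exact (grow_of_degree hz (le_refl φ.totalDegree)).isIntegral hp
  have halg : Algebra.IsAlgebraic
      (Algebra.adjoin L (Set.range fun i => Ideal.Quotient.mk p (z i))) (MvPolynomial σ L ⧸ p) :=
    Algebra.IsIntegral.isAlgebraic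
  have hinj : FaithfulSMul L (MvPolynomial σ L ⧸ p) :=
    (faithfulSMul_iff_algebraMap_injective _ _).mpr (algebraMap L (MvPolynomial σ L ⧸ p)).injective
  have hb : IsTranscendenceBasis L fun i => Ideal.Quotient.mk p (z i) := by
    refine Algebra.IsAlgebraic.isTranscendenceBasis_of_le_trdeg_of_finite L _ ?_
    rw [trdeg_eq_dimP p hp, Cardinal.mk_fin]
    exact_mod_cast hN
  refine ⟨?_, hb.1⟩
  have h := hb.cardinalMk_eq_trdeg
  rw [trdeg_eq_dimP p hp, Cardinal.mk_fin] at h
  exact_mod_cast h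

/-- more than `dimP p` elements satisfy a relation -/
theorem exists_rel {N : ℕ} {p : Ideal (MvPolynomial σ L)} (hp : p.IsPrime)
    (y : Fin N → MvPolynomial σ L) (hN : dimP p < N) :
    ∃ R : MvPolynomial (Fin N) L, R ≠ 0 ∧ aeval y R ∈ p := by
  by_contra! h
  have hi : AlgebraicIndependent L fun i => Ideal.Quotient.mkₐ L p (y i) := by
    refine algebraicIndependent_iff.2 fun R hR => by_contra fun h0 => h R h0 ?_
    rw [← comp_aeval, AlgHom.comp_apply] at hR
    exact Ideal.Quotient.eq_zero_iff_mem.1 hR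
  have := hi.cardinalMk_le_trdeg
  rw [trdeg_eq_dimP p hp, Cardinal.mk_fin, Nat.cast_le] at this
  omega

theorem nn_exists_norm_fin [Infinite L] (P : Finset (Ideal (MvPolynomial σ L))) (m : ℕ)
    (hP : ∀ p ∈ P, p.IsPrime ∧ dimP p = m) (N : ℕ) :
    ∀ y : Fin N → MvPolynomial σ L, (∀ i, (y i).totalDegree ≤ 1) →
      (∀ p ∈ P, ∀ j, Grow p y 1 (X j)) →
      ∃ z : Fin m → MvPolynomial σ L, (∀ i, (z i).totalDegree ≤ 1) ∧ ∀ p ∈ P, Norm p z := by
  have base : ∀ N : ℕ, N ≤ m → ∀ y : Fin N → MvPolynomial σ L, (∀ i, (y i).totalDegree ≤ 1) →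
      (∀ p ∈ P, ∀ j, Grow p y 1 (X j)) →
      ∃ z : Fin m → MvPolynomial σ L, (∀ i, (z i).totalDegree ≤ 1) ∧ ∀ p ∈ P, Norm p z := by
    intro N hN y hy hX
    rcases P.eq_empty_or_nonempty with h0 | ⟨p₀, hp₀⟩
    · refine ⟨fun _ => 0, fun _ => by simp, fun p hp => ?_⟩
      rw [h0] at hp
      exact absurd hp (Finset.notMem_empty p)
    · have hNm : N = m := by
        have := (indep_of_grow (hP p₀ hp₀).1 (hX p₀ hp₀) (by rw [(hP p₀ hp₀).2]; exact hN)).1
        rw [this, (hP p₀ hp₀).2]
      subst hNm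
      exact ⟨y, hy, fun p hp => ⟨hy,
        (indep_of_grow (hP p hp).1 (hX p hp) (by rw [(hP p hp).2])).2, hX p hp⟩⟩
  induction N with
  | zero => exact base 0 (Nat.zero_le m)
  | succ N ih =>
    intro y hy hX
    by_cases hN : N + 1 ≤ m
    · exact base _ hN y hy hX
    have hrel : ∀ p : P, ∃ R : MvPolynomial (Fin (N + 1)) L, R ≠ 0 ∧ aeval y R ∈ p.1 :=
      fun p => exists_rel (hP p.1 p.2).1 y (by rw [(hP p.1 p.2).2]; omega)
    choose R hR0 hR using hrel
    have hprod0 : ∏ p : P, R p ≠ 0 := Finset.prod_ne_zero_iff.mpr fun p _ => hR0 p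
    have hprod : ∀ p ∈ P, aeval y (∏ q : P, R q) ∈ p := by
      intro p hp
      rw [map_prod]
      exact Ideal.prod_mem p (Finset.mem_univ (⟨p, hp⟩ : P)) (hR ⟨p, hp⟩)
    obtain ⟨c, hc⟩ := exists_chart hprod0
    refine ih (fun k : Fin N => y k.succ - C (c k) * y 0) (fun k => ?_) fun p hp j => ?_
    · refine (totalDegree_sub _ _).trans (max_le (hy _) ?_)
      refine (totalDegree_mul _ _).trans ?_
      rw [totalDegree_C, zero_add]
      exact hy 0
    · exact Grow.trans (fun i => grow_step y _ (hprod p hp) c hc i) (hX p hp j)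

/-- Common normalisation: induct on the number of the `y` (product of the relations). -/
theorem exists_norm [Infinite L] (P : Finset (Ideal (MvPolynomial σ L))) (m : ℕ)
    (hP : ∀ p ∈ P, p.IsPrime ∧ dimP p = m) {ι : Type} [Fintype ι] (y : ι → MvPolynomial σ L)
    (hy : ∀ i, (y i).totalDegree ≤ 1) (hX : ∀ p ∈ P, ∀ j, Grow p y 1 (X j)) :
    ∃ z : Fin m → MvPolynomial σ L, (∀ i, (z i).totalDegree ≤ 1) ∧
      ∀ p ∈ P, Norm p z ∧ ∀ i, Grow p z 1 (y i) := by
  obtain ⟨z, hz, hN⟩ := nn_exists_norm_fin P m hP (Fintype.card ι)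
    (fun k => y ((Fintype.equivFin ι).symm k)) (fun k => hy _) fun p hp j => by
      refine Grow.trans (fun i => ?_) (hX p hp j)
      have := grow_self (p := p) (z := fun k => y ((Fintype.equivFin ι).symm k))
        (Fintype.equivFin ι i)
      simpa using this
  exact ⟨z, hz, fun p hp => ⟨hN p hp, fun i => grow_of_degree (hN p hp).grow (hy i)⟩⟩

end Crest.Agent.R65.CA
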