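import Crest.Agent.R65.CADefs

/-! Row 65, commutative algebra module: counting monomials, binomial estimates. -/

set_option autoImplicit false

namespace Crest.Agent.R65.CA

open MvPolynomial

theorem num_sum_multichoose (n s : ℕ) :
    ∑ k ∈ Finset.range (s + 1), n.multichoose k = (n + 1).multichoose s := by
  induction s with
  | zero => simp
  | succ s ih => rw [Finset.sum_range_succ, ih, Nat.multichoose_succ_succ, add_comm]

theorem num_step (x m : ℕ) :
    (x + (m + 1)).choose (m + 1) * (m + 1) = (x + m + 1) * (x + m).choose m :=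
  (Nat.add_one_mul_choose_eq (x + m) m).symm

theorem num_tele (x m δ : ℕ) :
    (x + δ + (m + 1)).choose (m + 1) ≤ (x + (m + 1)).choose (m + 1) + δ * (x + δ + m).choose m := by
  induction δ with
  | zero => simp
  | succ δ ih =>
    have h1 : (x + (δ + 1) + (m + 1)).choose (m + 1) =
        (x + (δ + 1) + m).choose m + (x + δ + (m + 1)).choose (m + 1) := by
      rw [show x + (δ + 1) + (m + 1) = (x + (δ + 1) + m) + 1 by omega, Nat.choose_succ_succ',
        show x + δ + (m + 1) = x + (δ + 1) + m by omega]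
    have h2 : (x + δ + m).choose m ≤ (x + (δ + 1) + m).choose m :=
      Nat.choose_le_choose m (by omega)
    have h3 := Nat.mul_le_mul_left δ h2
    rw [h1, add_mul, one_mul]
    omega

theorem num_card_deg_le (σ : Type) [Fintype σ] (s : ℕ) :
    ∃ A : Finset (σ →₀ ℕ), (∀ α, α ∈ A ↔ α.degree ≤ s) ∧
      A.card = (s + Fintype.card σ).choose (Fintype.card σ) := by
  classical
  refine ⟨(Finset.range (s + 1)).biUnion fun k => (Finset.univ : Finset σ).finsuppAntidiag k,
    fun α => ?_, ?_⟩
  · simp only [Finset.mem_biUnion, Finset.mem_range, Finset.mem_finsuppAntidiag,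
      Finset.subset_univ, and_true, Finsupp.degree_eq_sum]
    constructor
    · rintro ⟨k, hk, h⟩
      exact h.trans_le (by omega)
    · intro h
      exact ⟨_, Nat.lt_succ_of_le h, rfl⟩
  · rw [Finset.card_biUnion]
    · simp only [Finset.card_finsuppAntidiag_nat_eq_multichoose, Finset.card_univ]
      rw [num_sum_multichoose, Nat.multichoose_eq]
      rw [show Fintype.card σ + 1 + s - 1 = s + Fintype.card σ by omega, Nat.choose_symm_add]
    · intro i _ j _ hij
      rw [Function.onFun, Finset.disjoint_left]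
      intro α h1 h2
      rw [Finset.mem_finsuppAntidiag] at h1 h2
      exact hij (h1.1.symm.trans h2.1)

theorem num_ratio (r c t m : ℕ) :
    ((r + c) * t + m).choose m * r ^ m ≤ (r * t + m).choose m * (r + c) ^ m := by
  induction m with
  | zero => simp
  | succ m ih =>
    refine Nat.le_of_mul_le_mul_right (c := m + 1) ?_ (by omega)
    calc ((r + c) * t + (m + 1)).choose (m + 1) * r ^ (m + 1) * (m + 1)
        = (((r + c) * t + (m + 1)).choose (m + 1) * (m + 1)) * r ^ (m + 1) := by ring
      _ = (((r + c) * t + m + 1) * r) * (((r + c) * t + m).choose m * r ^ m) := by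
          rw [num_step]; ring
      _ ≤ ((r * t + m + 1) * (r + c)) * ((r * t + m).choose m * (r + c) ^ m) :=
          Nat.mul_le_mul (by nlinarith [Nat.zero_le (m * c)]) ih
      _ = ((r * t + m + 1) * (r * t + m).choose m) * (r + c) ^ (m + 1) := by ring
      _ = _ := by rw [← num_step]; ring

theorem num_bern (r c : ℤ) (hr : 0 ≤ r) (hc : 0 ≤ c) (m : ℕ) :
    (r + c) ^ m * (r - m * c) ≤ r ^ (m + 1) := by
  induction m with
  | zero => simp
  | succ m ih =>
    have h1 : (r + c) * (r - (m + 1 : ℕ) * c) ≤ r * (r - m * c) := by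
      push_cast
      nlinarith [mul_nonneg (mul_nonneg hc hc) (show (0 : ℤ) ≤ m + 1 by positivity)]
    calc (r + c) ^ (m + 1) * (r - (m + 1 : ℕ) * c)
        = (r + c) ^ m * ((r + c) * (r - (m + 1 : ℕ) * c)) := by ring
      _ ≤ (r + c) ^ m * (r * (r - m * c)) :=
          mul_le_mul_of_nonneg_left h1 (pow_nonneg (add_nonneg hr hc) m)
      _ = r * ((r + c) ^ m * (r - m * c)) := by ring
      _ ≤ r * r ^ (m + 1) := mul_le_mul_of_nonneg_left ih hr
      _ = _ := by ring

theorem num_lt_two (r c m : ℕ) (h : 2 * (m * c) < r) : (r + c) ^ m < 2 * r ^ m := by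
  have h1 := num_bern (r : ℤ) c (by positivity) (by positivity) m
  have h2 : (2 * (m * c) : ℤ) < r := by exact_mod_cast h
  have hr : (0 : ℤ) < r := lt_of_le_of_lt (by positivity) h2
  have h3 : (0 : ℤ) < (r + c) ^ m := by positivity
  have h4 : ((r : ℤ) + c) ^ m * r < 2 * r ^ m * r := by
    have : ((r : ℤ) + c) ^ m * r < (r + c) ^ m * (2 * (r - m * c)) :=
      mul_lt_mul_of_pos_left (by linarith) h3
    rw [pow_succ] at h1
    linarith
  have h5 := lt_of_mul_lt_mul_right h4 hr.le
  exact_mod_cast h5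

/-- number of monomials of degree at most `T` -/
theorem finrank_restrict (σ : Type) [Fintype σ] (L : Type) [Field L] (T : ℕ) :
    Module.finrank L (restrictTotalDegree σ L T) =
      (T + Fintype.card σ).choose (Fintype.card σ) := by
  classical
  obtain ⟨A, hA, hc⟩ := num_card_deg_le σ T
  have hs : {n : σ →₀ ℕ | (n.sum fun _ e => e) ≤ T} = (A : Set (σ →₀ ℕ)) := by
    ext a
    rw [Set.mem_ofPred_eq, Finset.mem_coe, hA]
    rfl
  rw [restrictTotalDegree, hs, Module.finrank_eq_card_basis (basisRestrictSupport L _), ← hc]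
  simp

theorem choose_hi (e m : ℕ) : (e + m).choose m ≤ (e + 1) ^ m := by
  induction m with
  | zero => simp
  | succ m ih =>
    refine Nat.le_of_mul_le_mul_right (c := m + 1) ?_ (by omega)
    rw [num_step]
    calc (e + m + 1) * (e + m).choose m ≤ ((e + 1) * (m + 1)) * (e + 1) ^ m :=
          Nat.mul_le_mul (by nlinarith [Nat.zero_le (e * m)]) ih
      _ = _ := by ring

theorem choose_lo (e m : ℕ) : (e + 1) ^ m ≤ m.factorial * (e + m).choose m := by
  induction m with
  | zero => simp
  | succ m ih =>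
    calc (e + 1) ^ (m + 1) = (e + 1) * (e + 1) ^ m := by ring
      _ ≤ (e + m + 1) * (m.factorial * (e + m).choose m) := Nat.mul_le_mul (by omega) ih
      _ = m.factorial * ((e + m + 1) * (e + m).choose m) := by ring
      _ = _ := by rw [← num_step, Nat.factorial_succ]; ring

/-- telescoping: `C(x+1+m,m) - C(x+m,m) = C((x+1)+(m-1),m-1) ≤ (x+2)^(m-1)` for `m ≥ 1`. -/
theorem choose_diff {a b : ℕ} (h : b ≤ a) (m : ℕ) :
    (a + m).choose m ≤ (b + m).choose m + (a - b) * m * (a + 1) ^ (m - 1) := by
  obtain ⟨δ, rfl⟩ := Nat.exists_eq_add_of_le h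
  cases m with
  | zero => simp
  | succ m =>
    have h1 := num_tele b m δ
    have h2 := choose_hi (b + δ) m
    rw [Nat.add_sub_cancel_left, Nat.add_sub_cancel]
    have h3 : δ * (b + δ + m).choose m ≤ δ * (m + 1) * (b + δ + 1) ^ m := by
      rw [mul_assoc]
      exact Nat.mul_le_mul_left _ (h2.trans (Nat.le_mul_of_pos_left _ (by omega)))
    omega

/-- `C(r t + 2 n t + m, m) / C(r t + m, m) ≤ (1 + 2 n / r) ^ n < 2` for large `r`. -/
theorem choose_two (n : ℕ) : ∃ r : ℕ, 1 ≤ r ∧ ∀ t m : ℕ, 1 ≤ t → m ≤ n →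
    (r * t + n * t + n * t + m).choose m < 2 * (r * t + m).choose m := by
  refine ⟨4 * n * n + 1, by omega, fun t m _ hm => ?_⟩
  set r := 4 * n * n + 1 with hr
  have h1 := num_ratio r (2 * n) t m
  have h2 := num_lt_two r (2 * n) m (by nlinarith [Nat.mul_le_mul_right n hm])
  have h3 : 0 < (r * t + m).choose m := Nat.choose_pos (by omega)
  have h4 : 0 < r ^ m := pow_pos (by omega) m
  rw [show r * t + n * t + n * t = (r + 2 * n) * t by ring]
  refine lt_of_mul_lt_mul_right (a := r ^ m) (h1.trans_lt ?_) h4.le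
  calc (r * t + m).choose m * (r + 2 * n) ^ m < (r * t + m).choose m * (2 * r ^ m) :=
        Nat.mul_lt_mul_of_pos_left h2 h3
    _ = _ := by ring

end Crest.Agent.R65.CA
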