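import Crest.Agent.R65.CABudNum
import Crest.Agent.R65.CAConst

/-! Row 65, commutative algebra module: reduction to rich varieties. -/

set_option autoImplicit false

namespace Crest.Agent.R65.CA

open MvPolynomial

theorem rv_num {a K₁ K₂ Cm Cm' S H HJ u r tj m m' : ℕ} (hu : 0 < u) (hr : 0 < r) (ht : 0 < tj)
    (h1 : (r * tj) ^ m' * S ≤ K₁ * tj ^ m' * HJ) (h2 : u * HJ ≤ K₂ * u ^ m * H)
    (h3 : a * K₁ * K₂ * Cm' * u ^ m ≤ Cm * u * r ^ m') : a * (Cm' * S) ≤ Cm * H := by
  have h4 : r ^ m' * S ≤ K₁ * HJ := by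
    refine Nat.le_of_mul_le_mul_left (c := tj ^ m') ?_ (pow_pos ht _)
    calc tj ^ m' * (r ^ m' * S) = (r * tj) ^ m' * S := by ring
      _ ≤ _ := h1
      _ = _ := by ring
  refine Nat.le_of_mul_le_mul_left (c := u * r ^ m') ?_ (Nat.mul_pos hu (pow_pos hr _))
  calc u * r ^ m' * (a * (Cm' * S)) = a * Cm' * u * (r ^ m' * S) := by ring
    _ ≤ a * Cm' * u * (K₁ * HJ) := Nat.mul_le_mul_left _ h4
    _ = a * Cm' * K₁ * (u * HJ) := by ring
    _ ≤ a * Cm' * K₁ * (K₂ * u ^ m * H) := Nat.mul_le_mul_left _ h2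
    _ = a * K₁ * K₂ * Cm' * u ^ m * H := by ring
    _ ≤ Cm * u * r ^ m' * H := Nat.mul_le_mul_right _ h3
    _ = _ := by ring

/-- Strong induction on `C (dimP p) * Hf p (κ t)` with the constants of `exists_const`
(`K = 2 (n+1)^2 K₁ K₂`, `τ₀ = c + 2 n + 1`).  If `(p, t)` is not rich, `g ∉ p`, `J = p ⊔ (g)`,
`t_j = τ m j * t`, `I_j = span (low J t_j)`; by `exists_common` (with `M = mI y`) the points lie on
the primes `q` minimal over `I_j` (finitely many) and containing `I_{j+1}`; group them by `j` and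
`dimP q`; `bud_num` (`k = 0`, `c = 0`, `s = t = t_j`, `T = t_{j+1}`) and `diff_num` bound the sum of the
potentials by half of the potential of `(p, t)`. -/
theorem rv (σ : Type) [Fintype σ] (c κ : ℕ) (hκ : Fintype.card σ + 1 ≤ κ) : ∃ C : ℕ,
    ∀ (L : Type) [Field L] [CharZero L] (Y : Set (σ → L)) (ρ : Set (σ → L) → ℕ) (s : ℕ),
      ρ ∅ = 0 → (∀ S S', S ⊆ S' → ρ S ≤ ρ S') → (∀ S S', ρ (S ∪ S') ≤ ρ S + ρ S') → 1 ≤ s →
      (∀ p t, s ≤ t → Adm p t → Rich Y p (c * t) → ρ (ZV Y p) ≤ Hf p (κ * t)) →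
      ∀ p t, s ≤ t → Adm p t → ρ (ZV Y p) ≤ C * Hf p (κ * t) := by
  classical
  obtain ⟨K₁, hK₁⟩ := bud_num σ κ
  obtain ⟨K₂, hK₂⟩ := diff_num σ c κ hκ
  set n := Fintype.card σ with hn
  obtain ⟨C, τ, r, hC1, hτ, hC⟩ := exists_const n (2 * (n + 1) ^ 2 * K₁ * K₂) (c + 2 * n + 1)
  refine ⟨∑ m ∈ Finset.range (n + 1), C m, fun L _ _ Y ρ s h0 hm hu hs hrich => ?_⟩
  have main : ∀ N : ℕ, ∀ (p : Ideal (MvPolynomial σ L)) (t : ℕ),
      C (dimP p) * Hf p (κ * t) < N → s ≤ t → Adm p t →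
        ρ (ZV Y p) ≤ C (dimP p) * Hf p (κ * t) := by
    intro N
    induction N with
    | zero => intro p t h; omega
    | succ N ih =>
      intro p t hN hst hp
      by_cases hR : Rich Y p (c * t)
      · exact (hrich p t hst hp hR).trans (Nat.le_mul_of_pos_left _ (hC1 _))
      simp only [Rich, not_forall] at hR
      obtain ⟨g, hgd, hgv, hgp⟩ := hR
      have ht1 : 1 ≤ t := hs.trans hst
      have hmn : dimP p ≤ n := dimP_le hp.isPrime
      have hH : 0 < C (dimP p) * Hf p (κ * t) :=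
        Nat.mul_pos (hC1 _) (Hf_pos hp.isPrime.ne_top _)
      set m := dimP p with hmdef
      set J : Ideal (MvPolynomial σ L) := p ⊔ Ideal.span {g} with hJ
      have hτ1 : ∀ j, 1 ≤ τ m j := fun j => le_trans (by omega) (hτ m j).1
      have hr1 : ∀ j, 1 ≤ r m j := fun j => le_trans (by omega) (hτ m j).2.1
      have hstep : ∀ j, τ m (j + 1) * t = r m j * (τ m j * t) := fun j => by
        rw [(hτ m j).2.2, mul_assoc]
      let I : ℕ → Ideal (MvPolynomial σ L) := fun j => Ideal.span (low J (τ m j * t))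
      have hI : ∀ j, I j ≤ I (j + 1) := fun j => Ideal.span_mono fun f hf =>
        ⟨hf.1, hf.2.trans (by rw [hstep]; exact Nat.le_mul_of_pos_left _ (hr1 j))⟩
      have hIJ : ∀ j, I j ≤ J := fun j => Ideal.span_le.2 fun f hf => hf.1
      let P : ℕ × ℕ → Finset (Ideal (MvPolynomial σ L)) := fun a =>
        (Ideal.finite_minimalPrimes_of_isNoetherianRing _ (I a.1)).toFinset.filter
          fun q => I (a.1 + 1) ≤ q ∧ dimP q = a.2
      have hP : ∀ a q, q ∈ P a ↔ q ∈ (I a.1).minimalPrimes ∧ I (a.1 + 1) ≤ q ∧ dimP q = a.2 :=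
        fun a q => by simp only [P, Finset.mem_filter, Set.Finite.mem_toFinset]
      have hbud : ∀ a ∈ Finset.range (n + 1) ×ˢ Finset.range (n + 1),
          2 * (n + 1) ^ 2 * (C a.2 * ∑ q ∈ P a, Hf q (κ * (τ m a.1 * t))) ≤
            C m * Hf p (κ * t) := by
        rintro ⟨j, m'⟩ ha
        simp only [Finset.mem_product, Finset.mem_range, Nat.lt_succ_iff] at ha
        have htj : 0 < τ m j * t := Nat.mul_pos (hτ1 j) ht1
        have b1 := hK₁ L (P (j, m')) (low J (τ m j * t)) (τ m j * t) m' 0 (fun _ => 0) J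
          (τ m (j + 1) * t) (τ m j * t) htj le_rfl
          (by
            rw [hstep]
            exact Nat.mul_le_mul_right _ (le_trans (by omega) (hτ m j).2.1))
          (fun f hf => hf.2) (by omega)
          (fun q hq => by
            obtain ⟨a1, a2, a3⟩ := (hP _ _).1 hq
            refine ⟨a1, a3, fun f hf l hl => ?_⟩
            obtain rfl : l = [] := List.eq_nil_of_length_eq_zero (by omega)
            exact a1.1.2 (Ideal.subset_span hf))
          (fun q hq f hf hd l hl => by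
            obtain ⟨a1, a2, a3⟩ := (hP _ _).1 hq
            obtain rfl : l = [] := List.eq_nil_of_length_eq_zero (by omega)
            exact a2 (Ideal.subset_span ⟨hf, hd⟩))
        simp only [Nat.choose_zero_right, one_mul] at b1
        have b2 := hK₂ L p t (τ m (j + 1)) g ht1 hp hgp hgd (le_trans (by omega) (hτ m _).1)
        refine rv_num (HJ := Hf J (τ m (j + 1) * t)) (hτ1 (j + 1)) (hr1 j) htj ?_ b2
          (hC m hmn m' ha.2 j ha.1)
        rw [← hstep]
        exact b1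
      have hcov : ρ (ZV Y p) ≤ ∑ a ∈ Finset.range (n + 1) ×ˢ Finset.range (n + 1),
          ρ {y | ∃ q ∈ P a, y ∈ ZV Y q} := by
        refine sub_cover ρ h0 hm hu _ (fun a => {y | ∃ q ∈ P a, y ∈ ZV Y q}) fun y hy => ?_
        have hJy : J ≤ mI y := by
          refine sup_le (fun f hf => mem_mI.2 (hy.2 f hf)) ?_
          rw [Ideal.span_le, Set.singleton_subset_iff]
          exact mem_mI.2 (hgv y hy)
        obtain ⟨j, hj, q, q1, q2, q3⟩ := exists_common I hI (mI_isPrime y)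
          fun j _ => (hIJ j).trans hJy
        refine ⟨(j, dimP q), ?_, q, (hP _ _).2 ⟨q1, q2, rfl⟩, hy.1, fun f hf => mem_mI.1 (q3 hf)⟩
        simp only [Finset.mem_product, Finset.mem_range, Nat.lt_succ_iff]
        exact ⟨hj, dimP_le q1.1.1⟩
      have hpiece : ∀ a ∈ Finset.range (n + 1) ×ˢ Finset.range (n + 1),
          ρ {y | ∃ q ∈ P a, y ∈ ZV Y q} ≤ C a.2 * ∑ q ∈ P a, Hf q (κ * (τ m a.1 * t)) := by
        intro a ha
        refine (sub_cover ρ h0 hm hu (P a) (fun q => ZV Y q) fun y hy => hy).trans ?_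
        rw [Finset.mul_sum]
        refine Finset.sum_le_sum fun q hq => ?_
        obtain ⟨a1, a2, a3⟩ := (hP _ _).1 hq
        rw [← a3]
        refine ih q _ ?_ (hst.trans (Nat.le_mul_of_pos_left _ (hτ1 _)))
          (adm_of_min a1 fun f hf => hf.2)
        have b1 := hbud a ha
        have b2 := Nat.mul_le_mul_left (C a.2) (Finset.single_le_sum
          (f := fun q => Hf q (κ * (τ m a.1 * t))) (fun _ _ => Nat.zero_le _) hq)
        have b3 := Nat.mul_le_mul_right (C a.2 * ∑ q ∈ P a, Hf q (κ * (τ m a.1 * t)))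
          (show 2 ≤ 2 * (n + 1) ^ 2 from Nat.le_mul_of_pos_right _ (by positivity))
        rw [a3]
        omega
      refine Nat.le_of_mul_le_mul_left (c := 2 * (n + 1) ^ 2) ?_ (by positivity)
      calc 2 * (n + 1) ^ 2 * ρ (ZV Y p)
          ≤ 2 * (n + 1) ^ 2 * ∑ a ∈ Finset.range (n + 1) ×ˢ Finset.range (n + 1),
            C a.2 * ∑ q ∈ P a, Hf q (κ * (τ m a.1 * t)) :=
            Nat.mul_le_mul_left _ (hcov.trans (Finset.sum_le_sum hpiece))
        _ ≤ (Finset.range (n + 1) ×ˢ Finset.range (n + 1)).card * (C m * Hf p (κ * t)) := by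
            rw [Finset.mul_sum, ← smul_eq_mul]
            exact Finset.sum_le_card_nsmul _ _ _ hbud
        _ ≤ _ := by
            rw [Finset.card_product, Finset.card_range]
            exact Nat.mul_le_mul_right _ (by nlinarith)
  intro p t hst hp
  refine (main _ p t (Nat.lt_succ_self _) hst hp).trans (Nat.mul_le_mul_right _ ?_)
  exact Finset.single_le_sum (f := C) (fun _ _ => Nat.zero_le _)
    (Finset.mem_range.2 (Nat.lt_succ_of_le (dimP_le hp.isPrime)))

/-- The form used for the key lemma: on rich varieties it is enough to control the growth. -/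
theorem rv_grow (σ : Type) [Fintype σ] (c a : ℕ) : ∃ C : ℕ,
    ∀ (L : Type) [Field L] [CharZero L] (Y : Set (σ → L)) (W : Submodule L (MvPolynomial σ L))
      [FiniteDimensional L W] (s : ℕ) (ι : Type) [Fintype ι] (y : ι → MvPolynomial σ L), 1 ≤ s →
      (∀ i, (y i).totalDegree ≤ 1) →
      (∀ p t, s ≤ t → Adm p t → Rich Y p (c * t) → (ZV Y p).Nonempty →
        (∀ j, Grow p y 1 (X j)) ∧ ∀ φ ∈ W, Grow p y (a * t) φ) →
      ∀ p t, s ≤ t → Adm p t → rk W (ZV Y p) ≤ C * Hf p ((a + 2 * Fintype.card σ + 1) * t) := by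
  obtain ⟨C, hC⟩ := rv σ c (a + 2 * Fintype.card σ + 1) (by omega)
  refine ⟨C, fun L _ _ Y W _ s ι _ y hs hy h => hC L Y (rk W) s (rk_empty W)
    (fun _ _ => rk_mono W) (rk_union W) hs fun p t ht hp hr => ?_⟩
  rcases (ZV Y p).eq_empty_or_nonempty with h0 | h0
  · rw [h0, rk_empty]
    exact Nat.zero_le _
  obtain ⟨h1, h2⟩ := h p t ht hp hr h0
  refine (rk_ZV_le W Y p).trans ((gb (hs.trans ht) hp y hy h1 W h2).trans (Hf_mono p ?_))
  nlinarith

end Crest.Agent.R65.CA
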