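import Crest.Agent.R65.CABud

/-! Row 65, commutative algebra module: stability under derivations. -/

set_option autoImplicit false

namespace Crest.Agent.R65.CA

open MvPolynomial

/-- derivations extend along formally étale maps -/
theorem cr_ext {S T : Type} [CommRing S] [CommRing T] [Algebra S T] [Algebra.FormallyEtale S T]
    (d : S →+ T) (hd : ∀ u v, d (u * v) = algebraMap S T u * d v + algebraMap S T v * d u) :
    ∃ D : T →+ T, (∀ a b, D (a * b) = a * D b + b * D a) ∧ ∀ u, D (algebraMap S T u) = d u := by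
  let d' : Derivation ℤ S T := Derivation.mk' d.toIntLinearMap fun a b => by
    rw [Algebra.smul_def, Algebra.smul_def]; exact hd a b
  have h := KaehlerDifferential.isBaseChange_of_formallyEtale ℤ S T
  let φ : Ω[T⁄ℤ] →ₗ[T] T := h.lift d'.liftKaehlerDifferential
  refine ⟨AddMonoidHom.mk' (fun a => φ (KaehlerDifferential.D ℤ T a)) fun a b => by
    rw [map_add, map_add], fun a b => ?_, fun u => ?_⟩
  · change φ (KaehlerDifferential.D ℤ T (a * b)) =
      a * φ (KaehlerDifferential.D ℤ T b) + b * φ (KaehlerDifferential.D ℤ T a)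
    rw [Derivation.leibniz, map_add, map_smul, map_smul, smul_eq_mul, smul_eq_mul]
  · change φ (KaehlerDifferential.D ℤ T (algebraMap S T u)) = d u
    rw [← KaehlerDifferential.map_D ℤ ℤ S T, h.lift_eq,
      Derivation.liftKaehlerDifferential_comp_D]
    rfl

/-- a derivation at a point which kills the constants is a directional derivative -/
theorem cr_dir {σ : Type} [Fintype σ] {L Ω : Type} [Field L] [Field Ω] [Algebra L Ω] (ξ : σ → Ω)
    (e : MvPolynomial σ L → Ω) (hadd : ∀ f g, e (f + g) = e f + e g)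
    (hmul : ∀ f g, e (f * g) = aeval ξ f * e g + aeval ξ g * e f) (hC : ∀ a, e (C a) = 0)
    (f : MvPolynomial σ L) : ∑ j, aeval ξ (pderiv j f) * e (X j) = e f := by
  classical
  induction f using MvPolynomial.induction_on with
  | C a => simp [hC]
  | add f g hf hg =>
    rw [hadd, ← hf, ← hg, ← Finset.sum_add_distrib]
    exact Finset.sum_congr rfl fun j _ => by rw [map_add, map_add, add_mul]
  | mul_X f i hf =>
    rw [hmul, ← hf, Finset.mul_sum]
    have h1 : ∀ j, aeval ξ (pderiv j (f * X i)) * e (X j) =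
        (if i = j then aeval ξ f * e (X j) else 0) +
          aeval ξ (X i : MvPolynomial σ L) * (aeval ξ (pderiv j f) * e (X j)) := fun j => by
      rw [pderiv_mul, map_add, map_mul, map_mul, pderiv_X, Pi.single_apply]
      split_ifs
      · rw [map_one]; ring
      · rw [map_zero]; ring
    rw [Finset.sum_congr rfl fun j _ => h1 j, Finset.sum_add_distrib, Finset.sum_ite_eq,
      if_pos (Finset.mem_univ i)]

/-- Derivations extend to the algebraic closure of the fraction field: `Om` is formally étale over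
`L[X]` (`Algebra.FormallyEtale.of_isLocalization`, `.of_isSeparable`, `.comp`); lift the identity of
`Om` along `TrivSqZeroExt.fst` for the algebra structure `u ↦ (u, d u)`. -/
theorem der_ext {L : Type} [Field L] [CharZero L] {m : ℕ} (d : MvPolynomial (Fin m) L →+ Om L m)
    (hd : ∀ u v, d (u * v) = algebraMap _ (Om L m) u * d v + algebraMap _ (Om L m) v * d u) :
    ∃ D : Om L m →+ Om L m, (∀ a b, D (a * b) = a * D b + b * D a) ∧
      ∀ u, D (algebraMap _ (Om L m) u) = d u := by
  have : Algebra.FormallyEtale (MvPolynomial (Fin m) L) (Kf L m) :=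
    Algebra.FormallyEtale.of_isLocalization (nonZeroDivisors (MvPolynomial (Fin m) L))
  have : Algebra.FormallyEtale (Kf L m) (Om L m) := Algebra.FormallyEtale.of_isSeparable _ _
  have : Algebra.FormallyEtale (MvPolynomial (Fin m) L) (Om L m) :=
    Algebra.FormallyEtale.comp _ (Kf L m) _
  exact cr_ext d hd

/-- The tangent vector.  `d u = (D (u (z))) (ξ)`, `D'` its extension, `d' f = (D f)(ξ) - D' (f (ξ))` is a
derivation at `ξ` which kills `L` and the `z i`, so `d' f = ∑ ∂_j f (ξ) η_j` with `η_j = d' x_j`; on `p`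
it equals `(D f)(ξ)`. -/
theorem exists_tan {σ : Type} [Fintype σ] {L : Type} [Field L] [CharZero L] {m : ℕ}
    {z : Fin m → MvPolynomial σ L} {ξ : σ → Om L m} (hξ : ∀ i, aeval ξ (z i) = Xo L m i)
    (D : MvPolynomial σ L →+ MvPolynomial σ L) (hD : ∀ f g, D (f * g) = f * D g + g * D f) :
    ∃ η : σ → Om L m, (∀ i, ∑ j, aeval ξ (pderiv j (z i)) * η j = 0) ∧
      ∀ f ∈ kerAt L ξ, ∑ j, aeval ξ (pderiv j f) * η j = aeval ξ (D f) := by
  have hz : ∀ u : MvPolynomial (Fin m) L, aeval ξ (aeval z u) = algebraMap _ (Om L m) u := by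
    have : (aeval ξ : MvPolynomial σ L →ₐ[L] Om L m).comp (aeval z) =
        IsScalarTower.toAlgHom L (MvPolynomial (Fin m) L) (Om L m) :=
      MvPolynomial.algHom_ext fun i => by
        rw [AlgHom.comp_apply, aeval_X, hξ]; rfl
    exact fun u => DFunLike.congr_fun this u
  obtain ⟨D', hD', hext⟩ := der_ext (L := L) (m := m)
    (AddMonoidHom.mk' (fun u => aeval ξ (D (aeval z u))) fun u v => by
      rw [map_add, map_add, map_add]) fun u v => by
      change aeval ξ (D (aeval z (u * v))) = _ * aeval ξ (D (aeval z v)) + _ * aeval ξ (D (aeval z u))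
      rw [map_mul, hD, map_add, map_mul, map_mul, hz, hz]
  have hkill : ∀ u : MvPolynomial (Fin m) L,
      aeval ξ (D (aeval z u)) - D' (aeval ξ (aeval z u)) = 0 := fun u => by
    rw [hz, hext]; exact sub_self _
  have key := cr_dir ξ (fun f : MvPolynomial σ L => aeval ξ (D f) - D' (aeval ξ f))
    (fun f g => by rw [map_add, map_add, map_add, map_add]; ring)
    (fun f g => by rw [hD, map_add, map_mul, map_mul, map_mul, hD']; ring)
    (fun a => by simpa using hkill (C a))
  refine ⟨fun j => aeval ξ (D (X j)) - D' (aeval ξ (X j : MvPolynomial σ L)), fun i => ?_,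
    fun f hf => ?_⟩
  · rw [key]
    simpa using hkill (X i)
  · rw [key, mem_kerAt.1 hf, map_zero, sub_zero]

/-- Otherwise all tangent vectors are nonzero, and `lb_pts` with `Q ξ = fatI ξ ![η ξ] 1`,
`G = low p t`, `I = p` gives `2 δ C(r t + m, m) ≤ Hf p (r t + n t) ≤ δ C(r t + 2 n t + m, m)`,
against `choose_two` (take `C = r + n`). -/
theorem red (σ : Type) [Fintype σ] : ∃ C : ℕ, 1 ≤ C ∧
    ∀ (L : Type) [Field L] [CharZero L] (p : Ideal (MvPolynomial σ L)) (t : ℕ), 1 ≤ t → Adm p t →
      ∀ D : MvPolynomial σ L →+ MvPolynomial σ L, (∀ f g, D (f * g) = f * D g + g * D f) →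
        (∀ f ∈ p, f.totalDegree ≤ C * t → D f ∈ p) → ∀ f ∈ p, D f ∈ p := by
  obtain ⟨r, hr1, hr⟩ := choose_two (Fintype.card σ)
  refine ⟨r + Fintype.card σ, by omega, fun L _ _ p t ht hp D hD hlow f₀ hf₀ => ?_⟩
  by_contra hne
  obtain ⟨z, hz, hN⟩ := exists_norm {p} (dimP p) (by simpa using hp.isPrime) X
    (fun i => (totalDegree_X i).le) (fun q _ j => grow_self j)
  have hz' := (hN p (Finset.mem_singleton_self p)).1
  have hfin := pts_finite hp.isPrime hz'
  have ex : ∀ ξ : σ → Om L (dimP p), ∃ η : σ → Om L (dimP p), ξ ∈ Pts p z →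
      (∀ i, ∑ j, aeval ξ (pderiv j (z i)) * η j = 0) ∧
      ∀ f ∈ p, ∑ j, aeval ξ (pderiv j f) * η j = aeval ξ (D f) := fun ξ => by
    by_cases h : ξ ∈ Pts p z
    · obtain ⟨η, h1, h2⟩ := exists_tan h.2 D hD
      exact ⟨η, fun _ => ⟨h1, fun f hf => h2 f (h.1.ge hf)⟩⟩
    · exact ⟨0, fun h' => absurd h' h⟩
  choose η hη using ex
  have ev : ∀ (ξ : σ → Om L (dimP p)) (f : MvPolynomial σ L),
      eval ξ (map (algebraMap L (Om L (dimP p))) f) = aeval ξ f := fun ξ f => by
    rw [eval_map, aeval_def]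
  have key : ∀ ξ ∈ Pts p z, ∀ f ∈ p, f.totalDegree ≤ r * t + Fintype.card σ * t →
      map (algebraMap L (Om L (dimP p))) f ∈ fatI ξ ![η ξ] 1 := fun ξ hξ f hf hd => by
    refine tan_mem_fatI _ _ _ ((ev ξ f).trans (mem_kerAt.1 (hξ.1.ge hf))) fun l => ?_
    simp only [pderiv_map, ev, Matrix.cons_val_fin_one]
    rw [(hη ξ hξ).2 f hf]
    exact mem_kerAt.1 (hξ.1.ge (hlow f hf (by rwa [add_mul])))
  have h1 := lb_pts (G := low p t) ht (fun g hg => hg.2) hz hfin.toFinset
    (fun ξ => fatI ξ ![η ξ] 1) (fun ξ _ => ⟨_, pow_le_fatI _ _ _⟩) (fun ξ hξ => ?_)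
    (fun ξ hξ => by rw [(hfin.mem_toFinset.1 hξ).1]; exact hp) p (r * t)
    (fun ξ hξ => key ξ (hfin.mem_toFinset.1 hξ))
  · have h2 := Hf_le ht hp hz' (r * t + Fintype.card σ * t)
    have h3 := hr t (dimP p) ht (dimP_le hp.isPrime)
    have h4 : (Pts p z).ncard * 2 ≤ ∑ ξ ∈ hfin.toFinset, Module.finrank (Om L (dimP p))
        (MvPolynomial σ (Om L (dimP p)) ⧸ fatI ξ ![η ξ] 1) := by
      rw [Set.ncard_eq_toFinset_card _ hfin]
      refine Finset.card_nsmul_le_sum _ _ 2 fun ξ hξ => finrank_fatI (c := 1) ξ ?_ 1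
      have hξ := hfin.mem_toFinset.1 hξ
      refine linearIndependent_unique_iff.2 fun h0 => hne ?_
      have h5 := (hη ξ hξ).2 f₀ hf₀
      rw [show η ξ = 0 from h0] at h5
      rw [← hξ.1, mem_kerAt, ← h5]
      simp
    have h5 := (Set.ncard_pos hfin).2 (pts_nonempty hp.isPrime hz')
    have h6 := ((Nat.mul_le_mul_right _ h4).trans h1).trans h2
    rw [mul_assoc] at h6
    exact absurd (Nat.le_of_mul_le_mul_left h6 h5) h3.not_ge
  · have hξ := hfin.mem_toFinset.1 hξ
    rintro _ (⟨g, hg, rfl⟩ | ⟨i, rfl⟩)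
    · exact key ξ hξ g hg.1 (hg.2.trans ((Nat.le_mul_of_pos_left t hr1).trans (Nat.le_add_right _ _)))
    · refine tan_mem_fatI _ _ _ (by simp only [map_sub, ev, eval_C, hξ.2 i, sub_self]) fun l => ?_
      simp only [map_sub, pderiv_C, sub_zero, pderiv_map, ev, Matrix.cons_val_fin_one]
      exact (hη ξ hξ).1 i

end Crest.Agent.R65.CA
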