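import Crest.Agent.R65.CAGrow

/-! Row 65, commutative algebra module: the conjugate generic points (helper lemmas). -/

set_option autoImplicit false

namespace Crest.Agent.R65.CA

open MvPolynomial

variable {σ : Type} {L : Type} [Field L] {m : ℕ} {p : Ideal (MvPolynomial σ L)}
  {z : Fin m → MvPolynomial σ L}

/-- the structure map `L[X] → A / p` -/
noncomputable def u1_th (p : Ideal (MvPolynomial σ L)) (z : Fin m → MvPolynomial σ L) :
    MvPolynomial (Fin m) L →ₐ[L] (MvPolynomial σ L ⧸ p) :=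
  aeval fun i => Ideal.Quotient.mk p (z i)

theorem u1_int (hp : p.IsPrime) (hz : Norm p z) (j : σ) :
    (u1_th p z).toRingHom.IsIntegralElem (Ideal.Quotient.mk p (X j)) := by
  obtain ⟨P, hP, hP0⟩ := (hz.grow j).isIntegral hp
  set E := hz.indep.aevalEquiv with hE
  refine ⟨P.map (E.symm : _ →+* _), hP.map _, ?_⟩
  rw [Polynomial.eval₂_map]
  convert hP0 using 2
  refine RingHom.ext fun x => ?_
  obtain ⟨y, rfl⟩ := E.surjective x
  simp only [RingHom.comp_apply, RingHom.coe_coe, AlgEquiv.symm_apply_apply]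
  exact (hz.indep.algebraMap_aevalEquiv y).symm

theorem u1_alg_inj (L : Type) [Field L] (m : ℕ) :
    Function.Injective (algebraMap (MvPolynomial (Fin m) L) (Om L m)) := by
  rw [IsScalarTower.algebraMap_eq (MvPolynomial (Fin m) L) (Kf L m) (Om L m)]
  exact (algebraMap (Kf L m) (Om L m)).injective.comp (IsFractionRing.injective _ _)

theorem u1_comp {ξ : σ → Om L m} (hξ : ξ ∈ Pts p z) :
    ∃ ψ : (MvPolynomial σ L ⧸ p) →ₐ[L] Om L m, (∀ f, ψ (Ideal.Quotient.mk p f) = aeval ξ f) ∧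
      ψ.toRingHom.comp (u1_th p z).toRingHom = algebraMap (MvPolynomial (Fin m) L) (Om L m) := by
  refine ⟨Ideal.Quotient.liftₐ p (aeval ξ) fun a ha => ?_, fun f => rfl, ?_⟩
  · rw [← hξ.1] at ha
    exact mem_kerAt.1 ha
  · refine MvPolynomial.ringHom_ext (fun r => ?_) fun i => ?_
    · simp only [AlgHom.toRingHom_eq_coe, RingHom.comp_apply, RingHom.coe_coe]
      rw [← algebraMap_eq, AlgHom.commutes, AlgHom.commutes, ← IsScalarTower.algebraMap_apply]
    · simp only [AlgHom.toRingHom_eq_coe, RingHom.comp_apply, RingHom.coe_coe, u1_th, aeval_X]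
      exact hξ.2 i

theorem u1_finite [Fintype σ] (hp : p.IsPrime) (hz : Norm p z) : (Pts p z).Finite := by
  classical
  choose P hP hP0 using u1_int hp hz
  refine (Set.Finite.pi' (t := fun j => (((P j).map
    (algebraMap (MvPolynomial (Fin m) L) (Om L m))).roots.toFinset : Set (Om L m)))
    fun j => Finset.finite_toSet _).subset fun ξ hξ j => ?_
  obtain ⟨ψ, hψ, hc⟩ := u1_comp hξ
  rw [Finset.mem_coe, Multiset.mem_toFinset, Polynomial.mem_roots ((hP j).map _).ne_zero,
    Polynomial.IsRoot.def, Polynomial.eval_map, ← hc]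
  have h1 : ξ j = ψ.toRingHom (Ideal.Quotient.mk p (X j)) := by
    simp only [AlgHom.toRingHom_eq_coe, RingHom.coe_coe, hψ, aeval_X]
  rw [h1, ← Polynomial.hom_eval₂, hP0 j, map_zero]

theorem u1_nonempty (hp : p.IsPrime) (hz : Norm p z) : (Pts p z).Nonempty := by
  let _ : Algebra (MvPolynomial (Fin m) L) (MvPolynomial σ L ⧸ p) :=
    (u1_th p z).toRingHom.toAlgebra
  have ham : algebraMap (MvPolynomial (Fin m) L) (MvPolynomial σ L ⧸ p) =
    (u1_th p z).toRingHom := rfl
  have hinj : Function.Injective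
      (algebraMap (MvPolynomial (Fin m) L) (MvPolynomial σ L ⧸ p)) := hz.indep
  have : Algebra.IsIntegral (MvPolynomial (Fin m) L) (MvPolynomial σ L ⧸ p) := by
    refine ⟨fun x => ?_⟩
    obtain ⟨f, rfl⟩ := Ideal.Quotient.mk_surjective x
    induction f using MvPolynomial.induction_on with
    | C a =>
      have h1 : Ideal.Quotient.mk p (C a) =
          algebraMap (MvPolynomial (Fin m) L) (MvPolynomial σ L ⧸ p) (C a) := by
        rw [ham]
        simp only [AlgHom.toRingHom_eq_coe, RingHom.coe_coe]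
        rw [← algebraMap_eq, ← algebraMap_eq, AlgHom.commutes]
        rfl
      rw [h1]
      exact isIntegral_algebraMap
    | add f g hf hg => rw [map_add]; exact hf.add hg
    | mul_X f j hf => rw [map_mul]; exact hf.mul (u1_int hp hz j)
  have : FaithfulSMul (MvPolynomial (Fin m) L) (MvPolynomial σ L ⧸ p) :=
    (faithfulSMul_iff_algebraMap_injective _ _).2 hinj
  have : FaithfulSMul (MvPolynomial (Fin m) L) (Om L m) :=
    (faithfulSMul_iff_algebraMap_injective _ _).2 (u1_alg_inj L m)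
  let ψ : (MvPolynomial σ L ⧸ p) →ₐ[MvPolynomial (Fin m) L] Om L m := IsAlgClosed.lift
  have hψ : RingHom.ker ψ.toRingHom = ⊥ := by
    refine Ideal.eq_bot_of_comap_eq_bot (R := MvPolynomial (Fin m) L) ?_
    refine eq_bot_iff.2 fun x hx => ?_
    rw [Ideal.mem_comap, RingHom.mem_ker] at hx
    simp only [AlgHom.toRingHom_eq_coe, RingHom.coe_coe, AlgHom.commutes] at hx
    exact (map_eq_zero_iff _ (u1_alg_inj L m)).1 hx
  have key : ∀ f : MvPolynomial σ L,
      aeval (fun j => ψ (Ideal.Quotient.mk p (X j))) f = ψ (Ideal.Quotient.mk p f) := by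
    intro f
    induction f using MvPolynomial.induction_on with
    | C a =>
      have h1 : Ideal.Quotient.mk p (C a) =
          algebraMap (MvPolynomial (Fin m) L) (MvPolynomial σ L ⧸ p) (C a) := by
        rw [ham]
        simp only [AlgHom.toRingHom_eq_coe, RingHom.coe_coe]
        rw [← algebraMap_eq, ← algebraMap_eq, AlgHom.commutes]
        rfl
      rw [h1, AlgHom.commutes, aeval_C, ← algebraMap_eq, ← IsScalarTower.algebraMap_apply]
    | add f g hf hg => rw [map_add, map_add, map_add, hf, hg]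
    | mul_X f j hf => rw [map_mul, map_mul, map_mul, hf, aeval_X]
  refine ⟨fun j => ψ (Ideal.Quotient.mk p (X j)), ?_, fun i => ?_⟩
  · ext f
    rw [mem_kerAt, key, ← Ideal.Quotient.eq_zero_iff_mem]
    constructor
    · intro h
      have : Ideal.Quotient.mk p f ∈ RingHom.ker ψ.toRingHom := h
      rwa [hψ, Ideal.mem_bot] at this
    · intro h
      rw [h, map_zero]
  · rw [key]
    have h1 : Ideal.Quotient.mk p (z i) =
        algebraMap (MvPolynomial (Fin m) L) (MvPolynomial σ L ⧸ p) (X i) := by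
      rw [ham]
      simp only [AlgHom.toRingHom_eq_coe, RingHom.coe_coe, u1_th, aeval_X]
    rw [h1, AlgHom.commutes]
    rfl

theorem u1_aeval_aut (τ : Om L m ≃ₐ[Kf L m] Om L m) (ξ : σ → Om L m) (f : MvPolynomial σ L) :
    aeval (fun j => τ (ξ j)) f = τ (aeval ξ f) := by
  induction f using MvPolynomial.induction_on with
  | C a =>
    rw [aeval_C, aeval_C, IsScalarTower.algebraMap_apply L (Kf L m) (Om L m), AlgEquiv.commutes]
  | add f g hf hg => rw [map_add, map_add, map_add, hf, hg]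
  | mul_X f j hf => rw [map_mul, map_mul, map_mul, hf, aeval_X, aeval_X]

theorem u1_aut_mem (τ : Om L m ≃ₐ[Kf L m] Om L m) {ξ : σ → Om L m} (hξ : ξ ∈ Pts p z) :
    (fun j => τ (ξ j)) ∈ Pts p z := by
  refine ⟨?_, fun i => ?_⟩
  · rw [← hξ.1]
    ext f
    rw [mem_kerAt, mem_kerAt, u1_aeval_aut, map_eq_zero_iff _ τ.injective]
  · rw [u1_aeval_aut, hξ.2 i, Xo,
      IsScalarTower.algebraMap_apply (MvPolynomial (Fin m) L) (Kf L m) (Om L m), AlgEquiv.commutes]

theorem u1_trace [CharZero L] (Ξ : Finset (σ → Om L m)) (hΞ : (Ξ : Set _) = Pts p z) {e : ℕ}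
    {φ : MvPolynomial σ L} (h : Grow p z e φ) :
    ∃ u : MvPolynomial (Fin m) L, u.totalDegree ≤ e ∧
      algebraMap (MvPolynomial (Fin m) L) (Om L m) u = ∑ ξ ∈ Ξ, aeval ξ φ := by
  have hmem : ∀ ξ, ξ ∈ Ξ ↔ ξ ∈ Pts p z := fun ξ => by rw [← hΞ, Finset.mem_coe]
  have : CharZero (Kf L m) := algebraRat.charZero _
  have hfix : ∀ τ : Om L m ≃ₐ[Kf L m] Om L m,
      τ (∑ ξ ∈ Ξ, aeval ξ φ) = ∑ ξ ∈ Ξ, aeval ξ φ := by
    intro τ
    rw [map_sum]
    refine Finset.sum_nbij' (fun ξ j => τ (ξ j)) (fun ξ j => τ.symm (ξ j)) ?_ ?_ ?_ ?_ ?_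
    · intro ξ hξ
      exact (hmem _).2 (u1_aut_mem τ ((hmem _).1 hξ))
    · intro ξ hξ
      exact (hmem _).2 (u1_aut_mem τ.symm ((hmem _).1 hξ))
    · intro ξ _
      funext j
      simp
    · intro ξ _
      funext j
      simp
    · intro ξ _
      rw [u1_aeval_aut]
  obtain ⟨r, hr⟩ := (InfiniteGalois.mem_range_algebraMap_iff_fixed (k := Kf L m)
    (∑ ξ ∈ Ξ, aeval ξ φ : Om L m)).2 hfix
  obtain ⟨u, hu, hur⟩ := exists_poly_of_growth r e fun O hO γ hγ hX => by
    rw [hr]
    refine Valuation.map_sum_le _ fun ξ hξ => ?_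
    have hξ' := (hmem _).1 hξ
    exact h (Om L m) ξ hξ'.1 O hO γ hγ fun i => by rw [hξ'.2 i]; exact hX i
  refine ⟨u, hu, ?_⟩
  rw [IsScalarTower.algebraMap_apply (MvPolynomial (Fin m) L) (Kf L m) (Om L m), hur, hr]

end Crest.Agent.R65.CA
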