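import Crest.Agent.R65.CAIso
import Crest.Agent.R65.CANN
import Crest.Agent.R65.CAUBAux1

/-! Row 65, commutative algebra module: the upper bound by traces. -/

set_option autoImplicit false

namespace Crest.Agent.R65.CA

open MvPolynomial

variable {σ : Type} [Fintype σ] {L : Type} [Field L] {m : ℕ} {p : Ideal (MvPolynomial σ L)}
  {z : Fin m → MvPolynomial σ L}

/-- every coordinate is a root of a fixed monic polynomial (`Grow.isIntegral`) -/
theorem pts_finite (hp : p.IsPrime) (hz : Norm p z) : (Pts p z).Finite :=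
  u1_finite hp hz

/-- `A / p` is an integral extension of `L[z] ≃ L[X]`; `IsAlgClosed.lift`, injective -/
theorem pts_nonempty (hp : p.IsPrime) (hz : Norm p z) : (Pts p z).Nonempty :=
  u1_nonempty hp hz

/-- The trace is a polynomial: the automorphisms of `Om` over `Kf` permute `Pts`
(`InfiniteGalois.mem_range_algebraMap_iff_fixed`), then `exists_poly_of_growth`. -/
theorem trace_poly [CharZero L] (Ξ : Finset (σ → Om L m)) (hΞ : (Ξ : Set _) = Pts p z) {e : ℕ}
    {φ : MvPolynomial σ L} (h : Grow p z e φ) :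
    ∃ u : MvPolynomial (Fin m) L, u.totalDegree ≤ e ∧
      algebraMap (MvPolynomial (Fin m) L) (Om L m) u = ∑ ξ ∈ Ξ, aeval ξ φ :=
  u1_trace Ξ hΞ h

theorem ub_aux {A V V' : Type} [AddCommGroup A] [Module L A] [AddCommGroup V] [Module L V]
    [AddCommGroup V'] [Module L V'] (W : Submodule L A) (f : A →ₗ[L] V) (g : A →ₗ[L] V')
    (U : Submodule L V) [FiniteDimensional L U] (hU : ∀ a ∈ W, f a ∈ U)
    (h : ∀ a ∈ W, f a = 0 → g a = 0) : Module.finrank L (W.map g) ≤ Module.finrank L U := by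
  have h1 : LinearMap.range (f.domRestrict W) ≤ U := by
    rintro _ ⟨a, rfl⟩
    exact hU a a.2
  have h3 : LinearMap.ker (f.domRestrict W) ≤ LinearMap.ker (g.domRestrict W) :=
    fun a ha => h a a.2 ha
  have := Submodule.finiteDimensional_of_le h1
  have e := (f.domRestrict W).quotKerEquivRange
  have := e.symm.finiteDimensional
  have h4 := LinearMap.finrank_range_le ((LinearMap.ker (f.domRestrict W)).liftQ _ h3)
  rw [Submodule.range_liftQ, LinearMap.range_domRestrict, e.finrank_eq] at h4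
  exact h4.trans (Submodule.finrank_mono h1)

omit [Fintype σ] in
theorem ub_sep {Ω : Type} [Field Ω] (Ξ : Finset (σ → Ω)) (ξ₀ : σ → Ω) :
    ∃ F : MvPolynomial σ Ω, eval ξ₀ F ≠ 0 ∧ ∀ ξ ∈ Ξ, ξ ≠ ξ₀ → eval ξ F = 0 := by
  classical
  induction Ξ using Finset.induction_on with
  | empty => exact ⟨1, by simp, by simp⟩
  | insert a s _ ih =>
    obtain ⟨F, h1, h2⟩ := ih
    by_cases ha : a = ξ₀
    · refine ⟨F, h1, fun ξ hξ hne => ?_⟩
      rcases Finset.mem_insert.1 hξ with rfl | hξ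
      · exact absurd ha hne
      · exact h2 ξ hξ hne
    · obtain ⟨j, hj⟩ := Function.ne_iff.1 ha
      refine ⟨F * (X j - C (a j)), by simp [h1, sub_eq_zero, hj.symm], fun ξ hξ hne => ?_⟩
      rcases Finset.mem_insert.1 hξ with rfl | hξ
      · simp
      · simp [h2 ξ hξ hne]

omit [Fintype σ] in
theorem ub_deg_map {Ω : Type} [Field Ω] (φ : L →+* Ω) (f : MvPolynomial σ L) :
    (map φ f).totalDegree ≤ f.totalDegree :=
  Finset.sup_mono (support_map_subset φ f)

/-- Upper bound.  By `il` (with `iso_pt`, `crt`) the evaluation vectors on `Pts` of the monomials of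
degree `≤ n t` span `Om ^ Pts`; choose `δ` of them `b_i` which span.  `φ ↦ (∑_ξ φ(ξ) b_i(ξ))_i` is
`L`-linear with kernel `p` and maps `W` into `(L[X]_{≤ e + n t}) ^ δ`. -/
theorem ub [CharZero L] {t : ℕ} (ht : 1 ≤ t) (hp : Adm p t) (hz : Norm p z)
    (W : Submodule L (MvPolynomial σ L)) {e : ℕ} (hW : ∀ φ ∈ W, Grow p z e φ) :
    Module.finrank L (W.map (Ideal.Quotient.mkₐ L p).toLinearMap) ≤
      (Pts p z).ncard * (e + Fintype.card σ * t + m).choose m := by
  classical
  have hfin := pts_finite hp.isPrime hz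
  obtain ⟨ξ₀, hξ₀⟩ := pts_nonempty hp.isPrime hz
  rw [Set.ncard_eq_toFinset_card _ hfin]
  set Ξ := hfin.toFinset with hΞ
  have mem : ∀ ξ, ξ ∈ Ξ ↔ ξ ∈ Pts p z := fun ξ => hfin.mem_toFinset
  set N := Fintype.card σ * t with hN
  set A : Set (Ξ → Om L m) :=
    {w | ∃ f : MvPolynomial σ L, f.totalDegree ≤ N ∧ w = fun ξ : Ξ => aeval ξ.1 f} with hA
  obtain ⟨w, w1, w2, -⟩ := Submodule.exists_fun_fin_finrank_span_eq (Om L m) A
  choose b b1 b2 using w1
  have hr : Module.finrank (Om L m) (Submodule.span (Om L m) A) ≤ Ξ.card := by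
    simpa using Submodule.finrank_le (Submodule.span (Om L m) A)
  generalize Module.finrank (Om L m) (Submodule.span (Om L m) A) = r at *
  obtain ⟨c1, -, c3⟩ := crt Ξ (fun ξ => mI ξ) fun ξ _ => ⟨1, by simp⟩
  have ev : ∀ (ξ : σ → Om L m) (f : MvPolynomial σ L),
      eval ξ (map (algebraMap L (Om L m)) f) = aeval ξ f := fun ξ f => by
    rw [eval_map, aeval_def]
  have interp := il (⨅ ξ ∈ Ξ, mI ξ) (eqs (low p t) z) t (by
      rintro g (⟨f, hf, rfl⟩ | ⟨i, rfl⟩)
      · refine ⟨?_, (ub_deg_map _ f).trans hf.2⟩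
        simp only [Ideal.mem_iInf, mem_mI, ev]
        intro ξ hξ
        exact mem_kerAt.1 (((mem ξ).1 hξ).1.ge hf.1)
      · refine ⟨?_, (totalDegree_sub _ _).trans (max_le
          ((ub_deg_map _ _).trans ((hz.deg i).trans ht)) (by simp))⟩
        simp only [Ideal.mem_iInf, mem_mI, map_sub, ev, eval_C]
        intro ξ hξ
        rw [((mem ξ).1 hξ).2 i, sub_self])
    (fun ξ hξ => by
      have h := (mem ξ).1 (c3 ξ hξ)
      exact iso_pt h.2 (h.1 ▸ hp))
  obtain ⟨F, F1, F2⟩ := ub_sep Ξ ξ₀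
  obtain ⟨h, h1, h2⟩ := interp F
  have h3 : ∀ ξ ∈ Ξ, eval ξ h = eval ξ F := fun ξ hξ => by
    simp only [Ideal.mem_iInf, mem_mI, map_sub] at h2
    exact (sub_eq_zero.1 (h2 ξ hξ)).symm
  have h4 : (fun ξ : Ξ => eval ξ.1 h) ∈ Submodule.span (Om L m) A := by
    have e : (fun ξ : Ξ => eval ξ.1 h) = ∑ α ∈ h.support,
        coeff α h • fun ξ : Ξ => aeval ξ.1 (monomial α (1 : L)) := by
      funext ξ
      rw [eval_eq, Finset.sum_apply]
      refine Finset.sum_congr rfl fun α _ => ?_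
      simp [aeval_monomial, Finsupp.prod]
    rw [e]
    refine Submodule.sum_mem _ fun α hα => Submodule.smul_mem _ _ (Submodule.subset_span
      ⟨_, ?_, rfl⟩)
    exact (totalDegree_monomial_le _ _).trans ((le_totalDegree hα).trans h1)
  let T : MvPolynomial σ L →ₗ[L] (Fin r → Om L m) := LinearMap.pi fun i =>
    ∑ ξ ∈ Ξ, (aeval ξ : MvPolynomial σ L →ₐ[L] Om L m).toLinearMap ∘ₗ LinearMap.mulRight L (b i)
  have hT : ∀ φ i, T φ i = ∑ ξ ∈ Ξ, aeval ξ (φ * b i) := fun φ i => by
    simp [T, LinearMap.sum_apply]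
  let J : (Fin r → restrictTotalDegree (Fin m) L (e + N)) →ₗ[L] (Fin r → Om L m) :=
    LinearMap.pi fun i =>
      (IsScalarTower.toAlgHom L (MvPolynomial (Fin m) L) (Om L m)).toLinearMap ∘ₗ
        (restrictTotalDegree (Fin m) L (e + N)).subtype ∘ₗ LinearMap.proj i
  refine (ub_aux W T _ (LinearMap.range J) ?_ ?_).trans ((LinearMap.finrank_range_le J).trans ?_)
  · intro φ hφ
    have := fun i => trace_poly Ξ hfin.coe_toFinset
      ((hW φ hφ).mul (grow_of_degree hz.grow (b1 i)))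
    choose u u1 u2 using this
    refine ⟨fun i => ⟨u i, (mem_restrictTotalDegree _ _ _).2 (u1 i)⟩, funext fun i => ?_⟩
    rw [hT, ← u2]
    rfl
  · intro φ _ h0
    have k1 : Submodule.span (Om L m) A ≤
        LinearMap.ker (Fintype.linearCombination (Om L m) fun ξ : Ξ => aeval ξ.1 φ) := by
      rw [← w2, Submodule.span_le]
      rintro _ ⟨i, rfl⟩
      have := congrFun h0 i
      rw [hT, ← Finset.sum_coe_sort] at this
      rw [SetLike.mem_coe, LinearMap.mem_ker, Fintype.linearCombination_apply, b2 i]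
      simpa only [map_mul, smul_eq_mul, mul_comm, Pi.zero_apply] using this
    have k2 := k1 h4
    rw [LinearMap.mem_ker, Fintype.linearCombination_apply,
      Finset.sum_eq_single ⟨ξ₀, (mem ξ₀).2 hξ₀⟩ (fun ξ _ hne => by
        rw [h3 _ ξ.2, F2 _ ξ.2 fun h => hne (Subtype.ext h), zero_smul]) (by simp),
      h3 _ ((mem ξ₀).2 hξ₀), smul_eq_mul, mul_eq_zero] at k2
    exact Ideal.Quotient.eq_zero_iff_mem.2 (hξ₀.1.le (mem_kerAt.2 (k2.resolve_left F1)))
  · rw [Module.finrank_pi_fintype, Finset.sum_const, Finset.card_univ, Fintype.card_fin,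
      finrank_restrict, Fintype.card_fin, smul_eq_mul]
    exact Nat.mul_le_mul_right _ hr

theorem Hf_le [CharZero L] {t : ℕ} (ht : 1 ≤ t) (hp : Adm p t) (hz : Norm p z) (e : ℕ) :
    Hf p e ≤ (Pts p z).ncard * (e + Fintype.card σ * t + m).choose m :=
  ub ht hp hz _ fun _ hφ => grow_of_degree hz.grow ((mem_restrictTotalDegree _ _ _).1 hφ)

end Crest.Agent.R65.CA
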