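import Crest.Agent.R65.D3Defs

/-! Polynomials restricted to affine lines and planes. -/

set_option autoImplicit false

open Finset Matrix
open scoped Classical

namespace Crest.Agent.R65.D3

/-- restriction to an affine line (`MvPolynomial.aeval (fun i => C (a i) + C (v i) * X) f`, or sum
over the support) -/
theorem aff_poly {σ K : Type} [Fintype σ] [CommRing K] (f : MvPolynomial σ K) (a v : σ → K) :
    ∃ p : Polynomial K, p.natDegree ≤ f.totalDegree ∧
      ∀ c : K, p.eval c = MvPolynomial.eval (a + c • v) f := by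
  refine ⟨MvPolynomial.aeval (fun i => Polynomial.C (a i) + Polynomial.C (v i) * Polynomial.X) f,
    ?_, fun c => ?_⟩
  · have := MvPolynomial.aeval_natDegree_le (n := 1) f le_rfl
      (fun i => Polynomial.C (a i) + Polynomial.C (v i) * Polynomial.X) (fun i => by
        rw [add_comm]
        exact Polynomial.natDegree_linear_le)
    simpa using this
  · induction f using MvPolynomial.induction_on with
    | C r => simp
    | add p q hp hq => simp only [map_add, Polynomial.eval_add, hp, hq]
    | mul_X p i hp =>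
      simp only [map_mul, Polynomial.eval_mul, hp]
      simp [mul_comm c (v i)]

theorem aff_roots {σ K : Type} [Fintype σ] [Field K] (f : MvPolynomial σ K) (a v : σ → K)
    (h : ∃ c : K, MvPolynomial.eval (a + c • v) f ≠ 0) (T : Finset K)
    (hT : ∀ c ∈ T, MvPolynomial.eval (a + c • v) f = 0) : T.card ≤ f.totalDegree := by
  obtain ⟨p, h1, h2⟩ := aff_poly f a v
  obtain ⟨c, hc⟩ := h
  have hp : p ≠ 0 := fun h0 => hc (by rw [← h2, h0, Polynomial.eval_zero])
  refine (Polynomial.card_le_degree_of_subset_roots fun c hc => ?_).trans h1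
  rw [Polynomial.mem_roots hp, Polynomial.IsRoot, h2]
  exact hT c hc

/-- vanishing on a large grid of a plane -/
theorem grid_zero {σ K : Type} [Fintype σ] [Field K] (f : MvPolynomial σ K) (A B C : σ → K)
    (T₁ T₂ : Finset K) (h₁ : f.totalDegree < T₁.card) (h₂ : f.totalDegree < T₂.card)
    (h : ∀ u ∈ T₁, ∀ v ∈ T₂, MvPolynomial.eval (A + u • B + v • C) f = 0) (u v : K) :
    MvPolynomial.eval (A + u • B + v • C) f = 0 := by
  have h3 : ∀ u ∈ T₁, MvPolynomial.eval (A + u • B + v • C) f = 0 := fun u hu => by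
    by_contra hc
    exact (aff_roots f (A + u • B) C ⟨v, hc⟩ T₂ (h u hu)).not_gt h₂
  by_contra hc
  refine (aff_roots f (A + v • C) B ⟨u, ?_⟩ T₁ fun c hc => ?_).not_gt h₁
  · rwa [add_right_comm]
  · rw [add_right_comm]
    exact h3 c hc

/-- More than `deg f` graph lines `v = c + m u` of a plane in the zero set.  Outside the finite set
of `u` where two lines meet, `v ↦ f (A + u B + v C)` has too many roots; then for fixed `v` the
polynomial in `u` has infinitely many roots. -/
theorem lines_zero {σ K : Type} [Fintype σ] [Field K] [Infinite K] (f : MvPolynomial σ K)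
    (A B C : σ → K) (T : Finset (K × K)) (hT : f.totalDegree < T.card)
    (h : ∀ cm ∈ T, ∀ u : K, MvPolynomial.eval (A + u • B + (cm.1 + cm.2 * u) • C) f = 0)
    (u v : K) : MvPolynomial.eval (A + u • B + v • C) f = 0 := by
  obtain ⟨S, hS⟩ : ∃ S : Finset K, S = (T ×ˢ T).image
      fun z => (z.2.1 - z.1.1) / (z.1.2 - z.2.2) := ⟨_, rfl⟩
  have h1 : ∀ u, u ∉ S → MvPolynomial.eval (A + u • B + v • C) f = 0 := fun u hu => by
    by_contra hc
    have h2 := aff_roots f (A + u • B) C ⟨v, hc⟩ (T.image fun cm => cm.1 + cm.2 * u) fun c hc => by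
      obtain ⟨cm, hcm, rfl⟩ := Finset.mem_image.1 hc
      exact h cm hcm u
    rw [Finset.card_image_of_injOn] at h2
    · exact h2.not_gt hT
    intro x hx y hy hxy
    dsimp only at hxy
    by_cases hm : x.2 = y.2
    · rw [hm] at hxy
      exact Prod.ext (add_right_cancel hxy) hm
    · refine (hu ?_).elim
      rw [hS]
      refine Finset.mem_image.2 ⟨(x, y), Finset.mem_product.2 ⟨hx, hy⟩, ?_⟩
      rw [div_eq_iff (sub_ne_zero.2 hm)]
      linear_combination -hxy
  obtain ⟨U, hU, hU'⟩ := (S.finite_toSet.infinite_compl).exists_subset_card_eq (f.totalDegree + 1)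
  by_contra hc
  have := aff_roots f (A + v • C) B ⟨u, by rwa [add_right_comm]⟩ U fun c hc => by
    rw [add_right_comm]
    exact h1 c (hU hc)
  omega

/-- points of a real line at which `f` vanishes -/
theorem cnt_zero_le (Q : Finset V3) (f : MvPolynomial (Fin 3) ℝ) {l : Set V3} (hl : IsLine l)
    (h : ∃ x ∈ l, MvPolynomial.eval x f ≠ 0) :
    (Q.filter fun x => x ∈ l ∧ MvPolynomial.eval x f = 0).card ≤ f.totalDegree := by
  obtain ⟨a, v, hv, rfl⟩ := hl
  obtain ⟨x, ⟨c, rfl⟩, hx⟩ := h
  have hinj : Function.Injective fun c : ℝ => a + c • v := fun c c' h =>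
    smul_left_injective ℝ hv (add_left_cancel h)
  refine le_trans ?_ (aff_roots f a v ⟨c, hx⟩ ((Q.filter fun x => x ∈ ln a v ∧
    MvPolynomial.eval x f = 0).preimage _ hinj.injOn) fun c hc =>
      (Finset.mem_filter.1 (Finset.mem_preimage.1 hc)).2.2)
  refine Finset.card_le_card_of_surjOn (fun c : ℝ => a + c • v) fun x hx => ?_
  obtain ⟨c, rfl⟩ := (Finset.mem_filter.1 hx).2.1
  exact ⟨c, Finset.mem_preimage.2 hx, rfl⟩

end Crest.Agent.R65.D3
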