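import Crest.Agent.R65.D3Geo

/-! The dual planes `Σ_g` and the sections `F_x`. -/

set_option autoImplicit false

open Finset Matrix
open scoped Classical

namespace Crest.Agent.R65.D3

variable {K : Type} [Field K] [Algebra ℝ K]

theorem Gen.coord {s0 : Fin 3 → K} (hs : Gen s0) (c a0 a1 a2 : ℝ)
    (h : algebraMap ℝ K c + algebraMap ℝ K a0 * s0 0 + algebraMap ℝ K a1 * s0 1 +
      algebraMap ℝ K a2 * s0 2 = 0) : a0 = 0 ∧ a1 = 0 ∧ a2 = 0 := by
  have h1 := (hs c ![a0, a1, a2] (by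
    rw [← h]
    simp only [up, dotProduct, Fin.sum_univ_three, cons_val_zero, cons_val_one, Matrix.cons_val]
    ring)).2
  exact ⟨congrFun h1 0, congrFun h1 1, congrFun h1 2⟩

theorem Gen.ne {s0 : Fin 3 → K} (hs : Gen s0) (s : V3) (i : Fin 3) : (up K s - s0) i ≠ 0 := by
  intro h
  fin_cases i
  · have := hs.coord (s 0) (-1) 0 0 (by
      have h' : algebraMap ℝ K (s 0) - s0 0 = 0 := h
      simp only [map_neg, map_one, map_zero]
      linear_combination h')
    norm_num at this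
  · have := hs.coord (s 1) 0 (-1) 0 (by
      have h' : algebraMap ℝ K (s 1) - s0 1 = 0 := h
      simp only [map_neg, map_one, map_zero]
      linear_combination h')
    norm_num at this
  · have := hs.coord (s 2) 0 0 (-1) (by
      have h' : algebraMap ℝ K (s 2) - s0 2 = 0 := h
      simp only [map_neg, map_one, map_zero]
      linear_combination h')
    norm_num at this

theorem sig_aff (s0 : Fin 3 → K) (g : Pt) : ∃ A B C : Fin 5 → K, ∀ u β : K,
    Sig s0 g u β = A + u • B + β • C := by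
  refine ⟨Sig s0 g 0 0, Sig s0 g 1 0 - Sig s0 g 0 0, Sig s0 g 0 1 - Sig s0 g 0 0, fun u β => ?_⟩
  ext i
  fin_cases i <;> simp [Sig, w3] <;> ring

theorem sec_aff (s0 : Fin 3 → K) (x : Pt) : ∃ A B C : Fin 5 → K, ∀ u v : K,
    secF s0 x u v = A + u • B + v • C := by
  refine ⟨secF s0 x 0 0, secF s0 x 1 0 - secF s0 x 0 0, secF s0 x 0 1 - secF s0 x 0 0,
    fun u v => ?_⟩
  ext i
  fin_cases i <;> simp [secF] <;> ring

/-- intercept and slope of the line `w ⊥ s_g - s0` in `F_x` -/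
noncomputable def lw (s0 : Fin 3 → K) (g : Pt) : K × K :=
  (-(up K g.1 - s0) 0 / (up K g.1 - s0) 2, -(up K g.1 - s0) 1 / (up K g.1 - s0) 2)

theorem w3_eq (s0 : Fin 3 → K) (g : Pt) (u : K) : w3 s0 g u = (lw s0 g).1 + (lw s0 g).2 * u := by
  simp only [w3, lw]
  ring

/-- `(s_g - s0) × (s_h - s_g) = 0` forces `s_h = s_g` by `Gen` -/
theorem lw_inj {s0 : Fin 3 → K} (hs : Gen s0) {g h : Pt} (e : lw s0 g = lw s0 h) : g.1 = h.1 := by
  have n1 := hs.ne g.1 2
  have n2 := hs.ne h.1 2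
  have e1 := congrArg Prod.fst e
  have e2 := congrArg Prod.snd e
  simp only [lw] at e1 e2
  rw [div_eq_div_iff n1 n2] at e1 e2
  simp only [up, Pi.sub_apply] at e1 e2
  have a := hs.coord (g.1 0 * h.1 2 - h.1 0 * g.1 2) (g.1 2 - h.1 2) 0 (h.1 0 - g.1 0) (by
    simp only [map_sub, map_mul, map_zero]
    linear_combination (-1 : K) * e1)
  have b := hs.coord (g.1 1 * h.1 2 - h.1 1 * g.1 2) 0 (g.1 2 - h.1 2) (h.1 1 - g.1 1) (by
    simp only [map_sub, map_mul, map_zero]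
    linear_combination (-1 : K) * e2)
  ext i
  fin_cases i
  · exact (sub_eq_zero.1 a.2.2).symm
  · exact (sub_eq_zero.1 b.2.2).symm
  · exact sub_eq_zero.1 a.1

/-- intercept and slope of the line `β = b · w` in `Σ_g` -/
noncomputable def lb (s0 : Fin 3 → K) (g x : Pt) : K × K :=
  (up K (bc x) 0 + up K (bc x) 2 * (lw s0 g).1, up K (bc x) 1 + up K (bc x) 2 * (lw s0 g).2)

theorem lb_inj {s0 : Fin 3 → K} (hs : Gen s0) {g x y : Pt} (e : lb s0 g x = lb s0 g y) :
    bc x = bc y := by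
  have n1 := hs.ne g.1 2
  have e1 := congrArg Prod.fst e
  have e2 := congrArg Prod.snd e
  simp only [lb, lw] at e1 e2
  generalize bc x = b at *
  generalize bc y = b' at *
  have e1' : (up K b 0 - up K b' 0) * (up K g.1 - s0) 2 =
      (up K b 2 - up K b' 2) * (up K g.1 - s0) 0 := by
    field_simp at e1
    linear_combination e1
  have e2' : (up K b 1 - up K b' 1) * (up K g.1 - s0) 2 =
      (up K b 2 - up K b' 2) * (up K g.1 - s0) 1 := by
    field_simp at e2
    linear_combination e2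
  simp only [up, Pi.sub_apply] at e1' e2'
  have a := hs.coord ((b 0 - b' 0) * g.1 2 - (b 2 - b' 2) * g.1 0) (b 2 - b' 2) 0
    (b' 0 - b 0) (by
    simp only [map_sub, map_mul, map_zero]
    linear_combination e1')
  have c := hs.coord ((b 1 - b' 1) * g.1 2 - (b 2 - b' 2) * g.1 1) 0 (b 2 - b' 2)
    (b' 1 - b 1) (by
    simp only [map_sub, map_mul, map_zero]
    linear_combination e2')
  ext i
  fin_cases i
  · exact (sub_eq_zero.1 a.2.2).symm
  · exact (sub_eq_zero.1 c.2.2).symm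
  · exact sub_eq_zero.1 a.1

/-- `z = s × b + t` with `s = s_g - s0`, and `(s × b) × w = -(b · w) s` for `w ⊥ s` -/
theorem sec_eq_sig {s0 : Fin 3 → K} (hs : Gen s0) {g x : Pt} (h : On g x) (u : K) :
    secF s0 x u (w3 s0 g u) = Sig s0 g u ((lb s0 g x).1 + (lb s0 g x).2 * u) := by
  have n1 := hs.ne g.1 2
  have hw : (up K g.1 - s0) 0 + (up K g.1 - s0) 1 * u + (up K g.1 - s0) 2 * w3 s0 g u = 0 := by
    simp only [w3]
    field_simp
    ring
  have hβ : (lb s0 g x).1 + (lb s0 g x).2 * u =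
      up K (x.1 + x.2) 0 + up K (x.1 + x.2) 1 * u + up K (x.1 + x.2) 2 * w3 s0 g u := by
    rw [w3_eq]
    simp only [lb, bc]
    ring
  rw [hβ]
  unfold On at h
  unfold secF Sig
  rw [h]
  generalize x.1 + x.2 = b
  generalize w3 s0 g u = w at *
  simp only [up, Pi.sub_apply] at hw
  ext i
  fin_cases i
  · rfl
  · rfl
  · simp [up, cross_apply, vecHead, vecTail]
    linear_combination algebraMap ℝ K (b 1) * hw
  · simp [up, cross_apply, vecHead, vecTail]
    linear_combination algebraMap ℝ K (b 2) * hw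
  · rfl

/-- the parameter of the point `Σ_g ∩ Σ_h` -/
noncomputable def uu (s0 : Fin 3 → K) (g h : Pt) : K :=
  ((up K g.1 - s0) ⨯₃ up K (h.1 - g.1)) 1 / ((up K g.1 - s0) ⨯₃ up K (h.1 - g.1)) 0

theorem uu_den {s0 : Fin 3 → K} (hs : Gen s0) {g h : Pt} (hne : h.1 ∉ ln g.1 ![1, 0, 0]) :
    ((up K g.1 - s0) ⨯₃ up K (h.1 - g.1)) 0 ≠ 0 := by
  intro e
  simp only [cross_apply, cons_val_zero] at e
  simp only [up, Pi.sub_apply, map_sub] at e
  have a := hs.coord (g.1 1 * (h.1 2 - g.1 2) - g.1 2 * (h.1 1 - g.1 1)) 0 (g.1 2 - h.1 2)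
    (h.1 1 - g.1 1) (by
    simp only [map_sub, map_mul, map_zero]
    linear_combination e)
  refine hne ⟨h.1 0 - g.1 0, ?_⟩
  ext i
  fin_cases i
  · simp
  · simpa using sub_eq_zero.1 a.2.2
  · simpa using (sub_eq_zero.1 a.2.1).symm

/-- `W = s × σ` is orthogonal to `s` and `s + σ`, and `W 0 ≠ 0` by `Gen` unless `σ ∥ e₀` -/
theorem w3_uu {s0 : Fin 3 → K} (hs : Gen s0) {g h : Pt} (hne : h.1 ∉ ln g.1 ![1, 0, 0]) :
    w3 s0 g (uu s0 g h) = w3 s0 h (uu s0 g h) := by
  have n0 := uu_den hs hne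
  have n1 := hs.ne g.1 2
  have n2 := hs.ne h.1 2
  simp only [w3, uu]
  rw [div_eq_div_iff n1 n2]
  simp only [cross_apply, cons_val_zero, cons_val_one] at n0 ⊢
  simp only [up, Pi.sub_apply, map_sub] at n0 ⊢
  field_simp
  ring

/-- equal parameters: `s · (σ × σ') = 0`, so `σ × σ' = 0` by `Gen` -/
theorem uu_inj {s0 : Fin 3 → K} (hs : Gen s0) {g h h' : Pt} (hne : h.1 ∉ ln g.1 ![1, 0, 0])
    (hne' : h'.1 ∉ ln g.1 ![1, 0, 0]) (e : uu s0 g h = uu s0 g h') :
    h'.1 ∈ ln g.1 (h.1 - g.1) := by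
  have n0 := uu_den hs hne
  have n0' := uu_den hs hne'
  have n1 := hs.ne g.1 2
  simp only [uu] at e
  rw [div_eq_div_iff n0 n0'] at e
  have hσ : (h.1 - g.1) 1 ≠ 0 ∨ (h.1 - g.1) 2 ≠ 0 := by
    by_contra hc
    push Not at hc
    apply n0
    simp only [cross_apply, cons_val_zero, up, hc.1, hc.2, map_zero, mul_zero, sub_zero]
  have hh : h'.1 = g.1 + (h'.1 - g.1) := by abel
  rw [hh]
  generalize h.1 - g.1 = a at *
  generalize h'.1 - g.1 = b at *
  have key : (up K g.1 - s0) 0 * (up K a 1 * up K b 2 - up K a 2 * up K b 1) +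
      (up K g.1 - s0) 1 * (up K a 2 * up K b 0 - up K a 0 * up K b 2) +
      (up K g.1 - s0) 2 * (up K a 0 * up K b 1 - up K a 1 * up K b 0) = 0 := by
    apply mul_left_cancel₀ n1
    simp only [cross_apply, cons_val_zero, cons_val_one] at e
    linear_combination (-1 : K) * e
  simp only [up, Pi.sub_apply] at key
  have c := hs.coord (-(g.1 0 * (a 1 * b 2 - a 2 * b 1) + g.1 1 * (a 2 * b 0 - a 0 * b 2) +
    g.1 2 * (a 0 * b 1 - a 1 * b 0))) (a 1 * b 2 - a 2 * b 1) (a 2 * b 0 - a 0 * b 2)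
    (a 0 * b 1 - a 1 * b 0) (by
    simp only [map_sub, map_mul, map_neg, map_add]
    linear_combination (-1 : K) * key)
  obtain ⟨c0, c1, c2⟩ := c
  rcases hσ with h1 | h1
  · refine ⟨b 1 / a 1, ?_⟩
    congr 1
    ext i
    fin_cases i
    · show b 0 = b 1 / a 1 * a 0
      field_simp
      linear_combination (-1 : ℝ) * c2
    · show b 1 = b 1 / a 1 * a 1
      field_simp
    · show b 2 = b 1 / a 1 * a 2
      field_simp
      linear_combination c0
  · refine ⟨b 2 / a 2, ?_⟩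
    congr 1
    ext i
    fin_cases i
    · show b 0 = b 2 / a 2 * a 0
      field_simp
      linear_combination c1
    · show b 1 = b 2 / a 2 * a 1
      field_simp
      linear_combination (-1 : ℝ) * c0
    · show b 2 = b 2 / a 2 * a 2
      field_simp

theorem sig_eq_sig {s0 : Fin 3 → K} (hs : Gen s0) {g h x : Pt} (hg : On g x) (hh : On h x)
    (hne : h.1 ∉ ln g.1 ![1, 0, 0]) :
    Sig s0 g (uu s0 g h) ((lb s0 g x).1 + (lb s0 g x).2 * uu s0 g h) =
      Sig s0 h (uu s0 g h) ((lb s0 g x).1 + (lb s0 g x).2 * uu s0 g h) := by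
  have e1 := sec_eq_sig hs hg (uu s0 g h)
  have e2 := sec_eq_sig hs hh (uu s0 g h)
  rw [w3_uu hs hne, e2] at e1
  have e3 : (lb s0 h x).1 + (lb s0 h x).2 * uu s0 g h =
      (lb s0 g x).1 + (lb s0 g x).2 * uu s0 g h := congrFun e1 4
  rw [← e1, e3]

end Crest.Agent.R65.D3
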