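import Crest.Agent.R65.D3Geo

/-! Beck-bad and line-bad incidences. -/

set_option autoImplicit false

open Finset Matrix
open scoped Classical

namespace Crest.Agent.R65.D3

/-- `S = (thr H Z x).image Prod.fst` has the same cardinality `d` as `thr H Z x`
(`On.eq_of_fst`), every line has at most `σ` points of `S` (`Fam.pen`); each bad `g` gives more
than `d / 8` pairs `(g.1, h.1)` counted by `BeckFor`. -/
theorem bad2_count {P₁ P₂ : Finset V3} {Y H : Finset Pt} {Z : Pt → Finset Pt} {r : ℕ} {σ : ℝ}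
    (hF : Fam P₁ P₂ Y H Z r σ) {C : ℝ} (hC : 0 ≤ C) (hB : BeckFor C) (J : ℕ) (hJ : 2 ≤ J)
    (hσ : 0 ≤ σ) (x : Pt) :
    (((thr H Z x).filter fun g => Bad2 H Z J g x).card : ℝ) ≤
      8 * C * ((thr H Z x).card / J + σ) := by
  set T := thr H Z x with hT
  set S := T.image Prod.fst with hS
  have hon : ∀ g ∈ T, On g x := fun g hg =>
    hF.on g (mem_filter.mp hg).1 x (mem_filter.mp hg).2
  have hl : ∀ l, IsLine l → (cnt S l : ℝ) ≤ σ := by
    intro l hl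
    refine le_trans ?_ (hF.pen x l hl)
    have : cnt S l ≤ (H.filter fun g => x ∈ Z g ∧ g.1 ∈ l).card := by
      unfold cnt
      rw [hS, filter_image, hT, thr, filter_filter]
      exact card_image_le
    exact_mod_cast this
  have h1 := hB S J σ hJ hσ hl
  have h2 : ∑ g ∈ T.filter (fun g => Bad2 H Z J g x),
      (T.filter fun h => h.1 ≠ g.1 ∧ J ≤ cnt S (ln g.1 (h.1 - g.1))).card ≤
      (S.offDiag.filter fun ab => J ≤ cnt S (ln ab.1 (ab.2 - ab.1))).card := by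
    refine (Finset.sum_le_sum_of_subset (filter_subset _ _)).trans ?_
    rw [← Finset.card_sigma]
    refine card_le_card_of_injOn (fun e => (e.1.1, e.2.1)) (fun e he => ?_) fun e he e' he' hee => ?_
    · obtain ⟨h1, h2⟩ := mem_sigma.mp (mem_coe.mp he)
      obtain ⟨h2, h3, h4⟩ := mem_filter.mp h2
      exact mem_coe.mpr (mem_filter.mpr ⟨mem_offDiag.mpr
        ⟨mem_image.mpr ⟨e.1, h1, rfl⟩, mem_image.mpr ⟨e.2, h2, rfl⟩, h3.symm⟩, h4⟩)
    · obtain ⟨h1, h2⟩ := mem_sigma.mp (mem_coe.mp he)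
      obtain ⟨h1', h2'⟩ := mem_sigma.mp (mem_coe.mp he')
      obtain ⟨e1, e2⟩ := Prod.mk.inj hee
      have f1 : e.1 = e'.1 := (hon _ h1).eq_of_fst (hon _ h1') e1
      have f2 : e.2 = e'.2 :=
        (hon _ (mem_filter.mp h2).1).eq_of_fst (hon _ (mem_filter.mp h2').1) e2
      exact Sigma.ext f1 (heq_of_eq f2)
  have h3 : ((T.filter fun g => Bad2 H Z J g x).card : ℝ) * T.card ≤
      ∑ g ∈ T.filter (fun g => Bad2 H Z J g x),
        8 * ((T.filter fun h => h.1 ≠ g.1 ∧ J ≤ cnt S (ln g.1 (h.1 - g.1))).card : ℝ) := by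
    rw [← nsmul_eq_mul]
    exact Finset.card_nsmul_le_sum _ _ _ fun g hg => le_of_lt (mem_filter.mp hg).2
  rw [← Finset.mul_sum] at h3
  have h2' : ∑ g ∈ T.filter (fun g => Bad2 H Z J g x),
      ((T.filter fun h => h.1 ≠ g.1 ∧ J ≤ cnt S (ln g.1 (h.1 - g.1))).card : ℝ) ≤
      (S.offDiag.filter fun ab => J ≤ cnt S (ln ab.1 (ab.2 - ab.1))).card := by
    exact_mod_cast h2
  have h4 : (S.card : ℝ) ≤ T.card := by exact_mod_cast card_image_le
  have h5 : C * ((S.card : ℝ) ^ 2 / J + S.card * σ) ≤ C * ((T.card : ℝ) ^ 2 / J + T.card * σ) := by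
    gcongr
  rcases T.eq_empty_or_nonempty with h0 | hne
  · rw [h0, filter_empty, card_empty, Nat.cast_zero]
    positivity
  have hd : (0 : ℝ) < T.card := by exact_mod_cast hne.card_pos
  refine le_of_mul_le_mul_right ?_ hd
  have e : 8 * C * ((T.card : ℝ) / J + σ) * T.card = 8 * (C * ((T.card : ℝ) ^ 2 / J + T.card * σ)) := by
    ring
  rw [e]
  linarith

/-- Choose a witness `Ls x` for each bad `x`, let `L` be their union; `L3For` bounds
`∑_{l ∈ L} cnt = ∑_{b ∈ Q} #{l ∈ L | b ∈ l} ≥ #bad · L₁` (`bc` is injective on `Z g`). -/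
theorem bad4_count {Z : Pt → Finset Pt} {g : Pt} (hon : ∀ x ∈ Z g, On g x) {r : ℕ}
    (hr : (Z g).card ≤ r) {C : ℝ} (hC : 0 ≤ C) (hL : L3For C) (k w : ℕ) (hk : 2 ≤ k) (L₁ : ℝ)
    (hL₁ : 0 ≤ L₁) :
    (((Z g).filter fun x => Bad4 Z k w L₁ g x).card : ℝ) * L₁ ≤
      C * ((r : ℝ) ^ 2 / (k : ℝ) ^ 3 + r * w / (k : ℝ) ^ 2 + r * k) := by
  set Bd := (Z g).filter fun x => Bad4 Z k w L₁ g x with hBd
  set Q := (Z g).image bc with hQ
  have hex : ∀ x ∈ Bd, ∃ Ls : Finset (Set V3), L₁ < Ls.card ∧ ∀ l ∈ Ls, IsLine l ∧ bc x ∈ l ∧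
      k ≤ cnt Q l ∧ ∀ A, IsPlane A → l ⊆ A → cnt Q A < w := fun x hx => (mem_filter.mp hx).2
  choose! Ls hLs1 hLs2 using hex
  have h1 := hL Q k w (Bd.biUnion Ls) hk fun l hl => by
    obtain ⟨x, hx, hl⟩ := mem_biUnion.mp hl
    exact ⟨(hLs2 x hx l hl).1, (hLs2 x hx l hl).2.2⟩
  have h2 : ∀ l ∈ Bd.biUnion Ls, (Bd.filter fun x => bc x ∈ l).card ≤ cnt Q l := by
    intro l _
    refine card_le_card_of_injOn bc (fun x hx => ?_) fun x hx y hy e => ?_
    · obtain ⟨h1, h2⟩ := mem_filter.mp (mem_coe.mp hx)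
      exact mem_coe.mpr (mem_filter.mpr ⟨mem_image_of_mem _ (mem_filter.mp h1).1, h2⟩)
    · exact (hon x (mem_filter.mp (mem_filter.mp (mem_coe.mp hx)).1).1).eq_of_bc
        (hon y (mem_filter.mp (mem_filter.mp (mem_coe.mp hy)).1).1) e
  have h3 : ∑ x ∈ Bd, (Ls x).card ≤ ∑ l ∈ Bd.biUnion Ls, cnt Q l := by
    refine le_trans ?_ (Finset.sum_le_sum h2)
    simp only [card_filter]
    rw [Finset.sum_comm]
    refine Finset.sum_le_sum fun x hx => ?_
    rw [← card_filter]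
    exact card_le_card fun l hl =>
      mem_filter.mpr ⟨mem_biUnion.mpr ⟨x, hx, hl⟩, (hLs2 x hx l hl).2.1⟩
  have h3' : ∑ x ∈ Bd, ((Ls x).card : ℝ) ≤ ∑ l ∈ Bd.biUnion Ls, (cnt Q l : ℝ) := by
    exact_mod_cast h3
  have h4 : (Bd.card : ℝ) * L₁ ≤ ∑ x ∈ Bd, ((Ls x).card : ℝ) := by
    rw [← nsmul_eq_mul]
    exact Finset.card_nsmul_le_sum _ _ _ fun x hx => (hLs1 x hx).le
  have h5 : (Q.card : ℝ) ≤ r := by exact_mod_cast card_image_le.trans hr
  refine h4.trans (h3'.trans (h1.trans ?_))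
  gcongr

end Crest.Agent.R65.D3
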