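import Crest.Agent.R65.D3Few

/-! Planar-bad incidences. -/

set_option autoImplicit false

open Finset Matrix
open scoped Classical

namespace Crest.Agent.R65.D3

/-- normal of the image plane in `p`-space -/
def nrm (s ν : V3) : V3 := ν + s ⨯₃ ν + (s ⬝ᵥ ν) • s

theorem nrm_dot (s ν Δ : V3) : nrm s ν ⬝ᵥ (Δ + s ⨯₃ Δ) = (1 + s ⬝ᵥ s) * (ν ⬝ᵥ Δ) := by
  simp only [nrm, dotProduct, Fin.sum_univ_three, cross_apply, Pi.add_apply, Pi.smul_apply,
    smul_eq_mul, Matrix.cons_val]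
  ring

theorem bad3_nrm_self (s ν : V3) : nrm s ν ⬝ᵥ ν = ν ⬝ᵥ ν + (ν ⬝ᵥ s) ^ 2 := by
  simp only [nrm, dotProduct, Fin.sum_univ_three, cross_apply, Pi.add_apply, Pi.smul_apply,
    smul_eq_mul, Matrix.cons_val]
  ring

theorem bad3_nrm_pos (s : V3) {ν : V3} (hν : ν ≠ 0) : 0 < nrm s ν ⬝ᵥ ν := by
  have h : 0 < ν ⬝ᵥ ν := lt_of_le_of_ne (Finset.sum_nonneg fun i _ => mul_self_nonneg _)
    fun h => hν (dotProduct_self_eq_zero.1 h.symm)
  rw [bad3_nrm_self]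
  positivity

/-- `nrm s ν · ν = |ν|² + (s · ν)²`; proportional normals are equal, and then
`(s - s') × ν + c (s - s') = 0` with `(s - s') · ν = 0` forces `s = s'`. -/
theorem nrm_inj {s s' ν p : V3} (hν : ν ≠ 0) (hs : ν ⬝ᵥ s = ν ⬝ᵥ s')
    (h : pl (nrm s ν) (nrm s ν ⬝ᵥ p) = pl (nrm s' ν) (nrm s' ν ⬝ᵥ p)) : s = s' := by
  have k := bad3_nrm_pos s hν
  have k' : nrm s' ν ⬝ᵥ ν = nrm s ν ⬝ᵥ ν := by rw [bad3_nrm_self, bad3_nrm_self, hs]
  have e : nrm s' ν = nrm s ν := by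
    refine dotProduct_eq _ _ fun v => ?_
    have h1 : p + (v - (nrm s ν ⬝ᵥ v / (nrm s ν ⬝ᵥ ν)) • ν) ∈ pl (nrm s ν) (nrm s ν ⬝ᵥ p) := by
      simp only [pl, Set.mem_ofPred_eq, dotProduct_add, dotProduct_sub, dotProduct_smul, smul_eq_mul]
      rw [div_mul_cancel₀ _ k.ne', sub_self, add_zero]
    rw [h] at h1
    simp only [pl, Set.mem_ofPred_eq, dotProduct_add, dotProduct_sub, dotProduct_smul, smul_eq_mul,
      k'] at h1
    rw [div_mul_cancel₀ _ k.ne'] at h1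
    linarith
  have e1 : (s - s') ⨯₃ ν = -((s ⬝ᵥ ν) • (s - s')) := by
    unfold nrm at e
    rw [dotProduct_comm s' ν, ← hs, dotProduct_comm ν s] at e
    rw [map_sub, LinearMap.sub_apply, smul_sub]
    linear_combination (exp := 1) -e
  have e2 : ((s - s') ⨯₃ ν) ⬝ᵥ ((s - s') ⨯₃ ν) = 0 := by
    nth_rewrite 1 [e1]
    rw [neg_dotProduct, smul_dotProduct, dot_self_cross, smul_zero, neg_zero]
  have e3 : ν ⬝ᵥ (s - s') = 0 := by rw [dotProduct_sub, hs, sub_self]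
  rw [cross_dot_cross, e3, mul_zero, sub_zero] at e2
  rcases mul_eq_zero.1 e2 with h1 | h1
  · exact sub_eq_zero.1 (dotProduct_self_eq_zero.1 h1)
  · exact absurd (dotProduct_self_eq_zero.1 h1) hν

/-- For a fixed plane `A = pl ν c` of `s`-space, `g ↦ pl (nrm g.1 ν) (nrm g.1 ν ⬝ᵥ x.1)` is
injective on the flats through `x` with `g.1 ∈ A` and gives `w`-rich planes of `P₁` through `x.1`
(`On.two_fst`, `nrm_dot`, `On.eq_of_fst_pt`); use `planes_through`. -/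
theorem bad3_fibre {P₁ P₂ : Finset V3} {Y H : Finset Pt} {Z : Pt → Finset Pt} {r : ℕ} {σ : ℝ}
    (hF : Fam P₁ P₂ Y H Z r σ) {D : ℕ} (hP : ND P₁ D) (w : ℕ) (hw : 4 * (2 * D + 1) ≤ w) (x : Pt)
    {A : Set V3} (hA : IsPlane A) :
    (((thr H Z x).filter fun g => g.1 ∈ A ∧
      w ≤ cnt ((Z g).image bc) {b | g.1 + (b - bc x) ∈ A}).card : ℝ) * (w : ℝ) ^ 2 ≤
      2 * (P₁.card : ℝ) ^ 2 := by
  obtain ⟨ν, c, hν, rfl⟩ := hA
  have key := planes_through hP x.1 w hw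
    (((thr H Z x).filter fun g => g.1 ∈ pl ν c ∧
      w ≤ cnt ((Z g).image bc) {b | g.1 + (b - bc x) ∈ pl ν c}).image
        fun g => pl (nrm g.1 ν) (nrm g.1 ν ⬝ᵥ x.1)) fun B hB => ?_
  · rwa [card_image_of_injOn] at key
    intro g hg h hh e
    simp only [thr, coe_filter, mem_filter, Set.mem_ofPred_eq] at hg hh
    exact (hF.on g hg.1.1 x hg.1.2).eq_of_fst (hF.on h hh.1.1 x hh.1.2)
      (nrm_inj hν (Eq.trans hg.2.1 (Eq.symm hh.2.1)) e)
  · obtain ⟨g, hg, rfl⟩ := mem_image.1 hB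
    simp only [thr, mem_filter] at hg
    obtain ⟨⟨g1, g2⟩, g3, g4⟩ := hg
    refine ⟨⟨_, _, fun h0 => ?_, rfl⟩, rfl, g4.trans ?_⟩
    · have := bad3_nrm_pos g.1 hν
      rw [h0, zero_dotProduct] at this
      exact lt_irrefl _ this
    unfold cnt
    rw [filter_image]
    refine card_image_le.trans (card_le_card_of_injOn Prod.fst (fun y hy => ?_) fun y hy z hz e => ?_)
    · simp only [coe_filter, Set.mem_ofPred_eq, pl] at hy g3 ⊢
      refine ⟨(mem_product.1 (hF.sub (hF.zsub g g1 hy.1))).1, ?_⟩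
      have h1 := nrm_dot g.1 ν (bc y - bc x)
      have h2 := hy.2
      rw [dotProduct_add, g3, add_eq_left] at h2
      rw [← (hF.on g g1 x g2).two_fst (hF.on g g1 y hy.1), h2, mul_zero, dotProduct_smul,
        dotProduct_sub, smul_eq_mul] at h1
      linarith
    · simp only [coe_filter, Set.mem_ofPred_eq] at hy hz
      exact (hF.on g g1 y hy.1).eq_of_fst_pt (hF.on g g1 z hz.1) e

/-- Choose a witness plane for each bad `g`; there are at most `16 s'` of them (`few_planes` for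
`S = (thr H Z x).image Prod.fst`, `w := d / (8 s')`, `b := σ`), each fibre is bounded by
`bad3_fibre`. -/
theorem bad3_count {P₁ P₂ : Finset V3} {Y H : Finset Pt} {Z : Pt → Finset Pt} {r : ℕ} {σ : ℝ}
    (hF : Fam P₁ P₂ Y H Z r σ) {D n : ℕ} (hP : ND P₁ D) (hn : P₁.card ≤ n) (w : ℕ)
    (hw : 4 * (2 * D + 1) ≤ w) (s' : ℝ) (hs : 0 < s') (hσ : 0 ≤ σ) (x : Pt)
    (hd : 128 * s' ^ 2 * σ ≤ (thr H Z x).card) :
    (((thr H Z x).filter fun g => Bad3 H Z w s' g x).card : ℝ) * (w : ℝ) ^ 2 ≤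
      32 * s' * (n : ℝ) ^ 2 := by
  rcases ((thr H Z x).filter fun g => Bad3 H Z w s' g x).eq_empty_or_nonempty with h | ⟨g₀, hg₀⟩
  · rw [h, card_empty, Nat.cast_zero, zero_mul]
    positivity
  have d0 : (0 : ℝ) < (thr H Z x).card := Nat.cast_pos.2 (card_pos.2 ⟨g₀, (mem_filter.1 hg₀).1⟩)
  have ex : ∀ g, ∃ A : Set V3, Bad3 H Z w s' g x → IsPlane A ∧ g.1 ∈ A ∧
      ((thr H Z x).card : ℝ) ≤ 8 * s' * cnt ((thr H Z x).image Prod.fst) A ∧
      w ≤ cnt ((Z g).image bc) {b | g.1 + (b - bc x) ∈ A} := fun g => by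
    by_cases h : Bad3 H Z w s' g x
    · obtain ⟨A, hA⟩ := h
      exact ⟨A, fun _ => hA⟩
    · exact ⟨∅, fun h' => absurd h' h⟩
  choose W hW using ex
  obtain ⟨F, hFd⟩ : ∃ F, F = ((thr H Z x).filter fun g => Bad3 H Z w s' g x).image W := ⟨_, rfl⟩
  have mF : ∀ A ∈ F, IsPlane A ∧
      ((thr H Z x).card : ℝ) / (8 * s') ≤ cnt ((thr H Z x).image Prod.fst) A := fun A hA => by
    rw [hFd] at hA
    obtain ⟨g, hg, rfl⟩ := mem_image.1 hA
    obtain ⟨a, -, b, -⟩ := hW g (mem_filter.1 hg).2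
    exact ⟨a, (div_le_iff₀' (by positivity)).2 b⟩
  have cS : (((thr H Z x).image Prod.fst).card : ℝ) ≤ (thr H Z x).card := Nat.cast_le.2 card_image_le
  have key := few_planes _ F _ σ (by positivity) hσ mF (fun l hl => le_trans ?_ (hF.pen x l hl)) ?_
  · have c1 : (F.card : ℝ) ≤ 16 * s' := by
      rw [← mul_div_assoc, div_le_iff₀ (by positivity)] at key
      refine le_of_mul_le_mul_right (key.trans ?_) d0
      nlinarith
    have c2 : ((thr H Z x).filter fun g => Bad3 H Z w s' g x).card ≤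
        ∑ A ∈ F, ((thr H Z x).filter fun g => g.1 ∈ A ∧
          w ≤ cnt ((Z g).image bc) {b | g.1 + (b - bc x) ∈ A}).card := by
      refine le_trans (card_le_card fun g hg => ?_) card_biUnion_le
      obtain ⟨-, a, -, b⟩ := hW g (mem_filter.1 hg).2
      exact mem_biUnion.2 ⟨W g, hFd ▸ mem_image_of_mem W hg, mem_filter.2 ⟨(mem_filter.1 hg).1, a, b⟩⟩
    have c3 : (P₁.card : ℝ) ^ 2 ≤ (n : ℝ) ^ 2 := by exact_mod_cast Nat.pow_le_pow_left hn 2
    refine (mul_le_mul_of_nonneg_right (Nat.cast_le.2 c2) (sq_nonneg _)).trans ?_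
    rw [Nat.cast_sum, sum_mul]
    refine (sum_le_card_nsmul _ _ (2 * (n : ℝ) ^ 2) fun A hA =>
      (bad3_fibre hF hP w hw x (mF A hA).1).trans (by linarith)).trans ?_
    rw [nsmul_eq_mul]
    nlinarith [sq_nonneg (n : ℝ)]
  · unfold cnt thr
    rw [filter_image, filter_filter]
    exact Nat.cast_le.2 card_image_le
  · rw [div_pow, le_div_iff₀ (by positivity)]
    nlinarith [mul_le_mul_of_nonneg_right cS (show 0 ≤ 128 * s' ^ 2 * σ by positivity),
      mul_le_mul_of_nonneg_left hd d0.le]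

end Crest.Agent.R65.D3
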