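import Crest.Agent.R65.D3Geo

/-! Beck type bound from Szemerédi–Trotter. -/

set_option autoImplicit false

open Finset Matrix
open scoped Classical

namespace Crest.Agent.R65.D3

theorem beck_tel (a M : ℕ) (ha : 1 ≤ a) : ∑ k ∈ Ioc a M, 1 / (k : ℝ) ^ 2 ≤ 1 / (a : ℝ) := by
  rcases le_or_gt a M with hM | hM
  · have : ∑ k ∈ Ioc a M, 1 / (k : ℝ) ^ 2 ≤ 1 / (a : ℝ) - 1 / (M : ℝ) := by
      induction M, hM using Nat.le_induction with
      | base => simp
      | succ m hm ih =>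
        rw [Finset.sum_Ioc_succ_top hm]
        have h1 : (1 : ℝ) ≤ m := by exact_mod_cast ha.trans hm
        have : 1 / ((m + 1 : ℕ) : ℝ) ^ 2 ≤ 1 / (m : ℝ) - 1 / ((m + 1 : ℕ) : ℝ) := by
          push_cast
          rw [div_sub_div _ _ (by positivity) (by positivity),
            div_le_div_iff₀ (by positivity) (by positivity)]
          nlinarith
        linarith
    have h2 : 0 ≤ 1 / (M : ℝ) := by positivity
    linarith
  · rw [Finset.Ioc_eq_empty (by omega), Finset.sum_empty]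
    positivity

theorem beck_sq (J M c : ℕ) (h1 : J ≤ c) (h2 : c ≤ M) :
    (c : ℝ) * c = J * c + ∑ j ∈ Ioc J M, if j ≤ c then (c : ℝ) else 0 := by
  have e : (Ioc J M).filter (fun j => j ≤ c) = Ioc J c := by
    ext j
    simp only [mem_filter, mem_Ioc]
    omega
  rw [← Finset.sum_filter, e, Finset.sum_const, nsmul_eq_mul, Nat.card_Ioc, Nat.cast_sub h1]
  ring

/-- Let `L` be the image of the bad pairs under `(a, b) ↦ ln a (b - a)`; the number of bad pairs is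
at most `∑_{l ∈ L} c_l²`, `c_l = cnt S l ∈ [J, σ]`, and
`c² = J c + ∑_{j = J + 1}^{⌊σ⌋} [j ≤ c] c`.  Apply `STFor` to `L` and to each `L.filter (j ≤ c)`:
`∑ c² ≤ C (m² / J + m J) + C (m² ∑_{j > J} 1 / j² + m σ)`, `∑_{j > J} 1 / j² ≤ 1 / J`, and
`J ≤ σ` unless `L` is empty. -/
theorem beck_of_st {C : ℝ} (hC : 1 ≤ C) (h : STFor C) : BeckFor (2 * C) := by
  intro S J σ hJ hσ hl
  have hC0 : 0 ≤ C := by linarith
  have hJ0 : (0 : ℝ) < J := by exact_mod_cast (by omega : 0 < J)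
  have hm : (0 : ℝ) ≤ S.card := Nat.cast_nonneg _
  set B := S.offDiag.filter fun ab => J ≤ cnt S (ln ab.1 (ab.2 - ab.1)) with hB
  set L := B.image fun ab => ln ab.1 (ab.2 - ab.1) with hL
  have hLp : ∀ l ∈ L, IsLine l ∧ J ≤ cnt S l := by
    intro l hl'
    obtain ⟨ab, hab, rfl⟩ := mem_image.mp hl'
    obtain ⟨h1, h2⟩ := mem_filter.mp hab
    exact ⟨isLine_ln _ (sub_ne_zero.mpr (mem_offDiag.mp h1).2.2.symm), h2⟩
  have h1 : B ⊆ L.biUnion fun l => (S.filter (· ∈ l)) ×ˢ (S.filter (· ∈ l)) := by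
    intro ab hab
    obtain ⟨h1, h2, -⟩ := mem_offDiag.mp (mem_filter.mp hab).1
    exact mem_biUnion.mpr ⟨_, mem_image_of_mem _ hab, mem_product.mpr
      ⟨mem_filter.mpr ⟨h1, self_mem_ln _ _⟩, mem_filter.mpr ⟨h2, mem_ln_sub _ _⟩⟩⟩
  have h2 : (B.card : ℝ) ≤ ∑ l ∈ L, (cnt S l : ℝ) * cnt S l := by
    have := (card_le_card h1).trans card_biUnion_le
    simp only [card_product] at this
    exact_mod_cast this
  refine h2.trans ?_
  rcases L.eq_empty_or_nonempty with h0 | ⟨l₀, hl₀⟩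
  · rw [h0, Finset.sum_empty]
    positivity
  have hJσ : (J : ℝ) ≤ σ := le_trans (by exact_mod_cast (hLp l₀ hl₀).2) (hl l₀ (hLp l₀ hl₀).1)
  set M := ⌊σ⌋₊ with hM
  have hMσ : (M : ℝ) ≤ σ := Nat.floor_le hσ
  rw [Finset.sum_congr rfl fun l hl' =>
    beck_sq J M (cnt S l) (hLp l hl').2 (Nat.le_floor (hl l (hLp l hl').1)),
    Finset.sum_add_distrib, ← Finset.mul_sum, Finset.sum_comm]
  have h3 : (J : ℝ) * ∑ l ∈ L, (cnt S l : ℝ) ≤ C * ((S.card : ℝ) ^ 2 / J + S.card * σ) := by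
    refine (mul_le_mul_of_nonneg_left (h S J L hJ hLp) hJ0.le).trans ?_
    have e : (J : ℝ) * (C * ((S.card : ℝ) ^ 2 / (J : ℝ) ^ 2 + S.card)) =
        C * ((S.card : ℝ) ^ 2 / J + S.card * J) := by
      field_simp
    rw [e]
    gcongr
  have h4 : ∑ j ∈ Ioc J M, ∑ l ∈ L, (if j ≤ cnt S l then (cnt S l : ℝ) else 0) ≤
      ∑ j ∈ Ioc J M, (C * (S.card : ℝ) ^ 2 * (1 / (j : ℝ) ^ 2) + C * S.card) := by
    refine Finset.sum_le_sum fun j hj => ?_
    rw [← Finset.sum_filter]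
    refine (h S j _ (by have := (mem_Ioc.mp hj).1; omega) fun l hl' =>
      ⟨(hLp l (mem_filter.mp hl').1).1, (mem_filter.mp hl').2⟩).trans (le_of_eq ?_)
    ring
  rw [Finset.sum_add_distrib, ← Finset.mul_sum, Finset.sum_const, nsmul_eq_mul] at h4
  have h5 : C * (S.card : ℝ) ^ 2 * ∑ j ∈ Ioc J M, 1 / (j : ℝ) ^ 2 ≤ C * ((S.card : ℝ) ^ 2 / J) := by
    rw [← mul_div_assoc, ← mul_one_div (C * _)]
    exact mul_le_mul_of_nonneg_left (beck_tel J M (by omega)) (by positivity)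
  have h6 : ((Ioc J M).card : ℝ) * (C * S.card) ≤ σ * (C * S.card) := by
    refine mul_le_mul_of_nonneg_right (le_trans ?_ hMσ) (by positivity)
    rw [Nat.card_Ioc]
    exact_mod_cast Nat.sub_le M J
  nlinarith

end Crest.Agent.R65.D3
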