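import Crest.Agent.R65.D3Col

/-! The number of rich flats. -/

set_option autoImplicit false

open Finset Matrix
open scoped Classical

namespace Crest.Agent.R65.D3

/-- Take `δ` from `PenFamStmt`, `C₀` for `θ = 1 / 100`, `m = ⌈2 / δ⌉₊ + 2` (`δ m ≥ 2`), `M = 15 m`,
`q₀ = max (q₀ of NPStmt m) (max 2 C₀)`, `PenFamStmt` with `M := 2 μ`.  First
`2 q¹⁴ ≤ D ^ δ`: `(2 q¹⁴) ^ M ≤ 2 ^ M A¹⁴ D²⁸ ≤ D³⁰ ≤ (D ^ δ) ^ M` for `D ≥ 2 ^ M A¹⁴ + 1`.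
Suppose `900 n⁴ < |G| R² D q`; then `|G| R² ≥ μ² D⁵ / q ≥ D ^ (5 - δ)`.  Put `σ = D ^ (2 - δ) / R`,
`G' = G`, use `fam_of_hvy`; `r = R / 9 ≥ R / 10` (as `R ≥ 80`), `r ≤ R ≤ n` (`card_mt_le`, `G ≠ ∅`),
`σ r ≤ D ^ (2 - δ)`, so `(σ r) ^ m ≤ D ^ ((2 - δ) m) ≤ D ^ (2 m - 2)` and `σ r q¹⁴ ≤ D²`; `NPStmt`
gives `|H| r² D q < n⁴`. -/
theorem cls_of (hP : PenFamStmt) (hN : NPStmt) : ClsStmt := by
  obtain ⟨δ, hδ, hP⟩ := hP
  obtain ⟨C₀, hP⟩ := hP (1 / 100) (by norm_num)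
  set m := ⌈2 / δ⌉₊ + 2 with hm
  have hδm : 2 ≤ δ * m := by
    have h1 : 2 / δ ≤ (m : ℝ) := (Nat.le_ceil _).trans (by rw [hm]; push_cast; linarith)
    rwa [div_le_iff₀ hδ, mul_comm] at h1
  obtain ⟨q₀, hq₀, hN⟩ := hN m (by omega)
  refine ⟨15 * m, max q₀ (max 2 C₀), by omega, hq₀.trans (le_max_left _ _), fun μ A hμ => ?_⟩
  obtain ⟨D₁, hP⟩ := hP (2 * μ)
  obtain ⟨D₂, hN⟩ := hN μ hμ
  refine ⟨max D₁ (max D₂ (⌈(2 : ℝ) ^ (15 * m) * A ^ 14⌉₊ + 1)), ?_⟩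
  intro D hD n P₁ P₂ h₁ h₂ hn₁ hn₂ hlo hhi R q hq hqM hR hR3 G hG
  have hD₁ : D₁ ≤ D := (le_max_left _ _).trans hD
  have hD₂ : D₂ ≤ D := ((le_max_left _ _).trans (le_max_right _ _)).trans hD
  have hD₃ : ⌈(2 : ℝ) ^ (15 * m) * A ^ 14⌉₊ + 1 ≤ D :=
    ((le_max_right _ _).trans (le_max_right _ _)).trans hD
  have hD1 : (1 : ℝ) ≤ D := by exact_mod_cast (by omega : 1 ≤ D)
  have hD0 : (0 : ℝ) < D := by linarith
  have hDA : (2 : ℝ) ^ (15 * m) * A ^ 14 ≤ D :=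
    (Nat.le_ceil _).trans (Nat.cast_le.2 (Nat.le_of_succ_le hD₃))
  have hq2 : (2 : ℝ) ≤ q := ((le_max_left _ _).trans (le_max_right _ _)).trans hq
  have hqC : C₀ ≤ q := ((le_max_right _ _).trans (le_max_right _ _)).trans hq
  have hq1 : (1 : ℝ) ≤ q := by linarith
  have hx0 : (0 : ℝ) < (D : ℝ) ^ δ := Real.rpow_pos_of_pos hD0 _
  have hkey : 2 * q ^ 14 ≤ (D : ℝ) ^ δ := by
    refine le_of_pow_le_pow_left₀ (n := 15 * m) (by omega) hx0.le ?_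
    have e1 : ((D : ℝ) ^ δ) ^ (15 * m) = (D : ℝ) ^ (δ * ((15 * m : ℕ) : ℝ)) := by
      rw [Real.rpow_mul hD0.le, Real.rpow_natCast]
    have e2 : (D : ℝ) ^ 29 ≤ (D : ℝ) ^ (δ * ((15 * m : ℕ) : ℝ)) := by
      rw [← Real.rpow_natCast]
      refine Real.rpow_le_rpow_of_exponent_le hD1 ?_
      push_cast
      linarith
    have e3 : (q ^ (15 * m)) ^ 14 ≤ (A * (D : ℝ) ^ 2) ^ 14 :=
      pow_le_pow_left₀ (by positivity) hqM 14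
    calc (2 * q ^ 14) ^ (15 * m) = 2 ^ (15 * m) * (q ^ (15 * m)) ^ 14 := by ring
      _ ≤ 2 ^ (15 * m) * (A * (D : ℝ) ^ 2) ^ 14 := by gcongr
      _ = (2 ^ (15 * m) * A ^ 14) * (D : ℝ) ^ 28 := by ring
      _ ≤ D * (D : ℝ) ^ 28 := by gcongr
      _ = (D : ℝ) ^ 29 := by ring
      _ ≤ _ := by rw [e1]; exact e2
  have hq14 : q ≤ q ^ 14 := le_self_pow₀ hq1 (by norm_num)
  have hq20 : q ≤ q ^ 20 := le_self_pow₀ hq1 (by norm_num)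
  have hq20' : (2 : ℝ) ^ 20 ≤ q ^ 20 := pow_le_pow_left₀ (by norm_num) hq2 20
  have hqD : q ^ 20 ≤ q ^ 20 * D := le_mul_of_one_le_right (by positivity) hD1
  have hR80 : 80 ≤ R := by
    have : (80 : ℝ) ≤ R := by linarith
    exact_mod_cast this
  have hR0 : (0 : ℝ) < R := by exact_mod_cast (by omega : 0 < R)
  have hr : (R : ℝ) ≤ 10 * ((R / 9 : ℕ) : ℝ) := by exact_mod_cast (by omega : R ≤ 10 * (R / 9))
  have hr' : ((R / 9 : ℕ) : ℝ) ≤ R := by exact_mod_cast Nat.div_le_self R 9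
  by_contra hcon
  push Not at hcon
  have hn4 : (D : ℝ) ^ 6 ≤ (n : ℝ) ^ 4 := by
    have h3 : (D : ℝ) ^ 3 ≤ (n : ℝ) ^ 2 := (le_mul_of_one_le_left (by positivity) hμ).trans hlo
    calc (D : ℝ) ^ 6 = ((D : ℝ) ^ 3) ^ 2 := by ring
      _ ≤ ((n : ℝ) ^ 2) ^ 2 := by gcongr
      _ = _ := by ring
  have e2 : (D : ℝ) ^ (2 - δ) * (D : ℝ) ^ δ = (D : ℝ) ^ 2 := by
    rw [← Real.rpow_add hD0, sub_add_cancel, Real.rpow_two]
  have e5 : (D : ℝ) ^ (5 - δ) * (D : ℝ) ^ δ = (D : ℝ) ^ 5 := by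
    rw [← Real.rpow_add hD0, sub_add_cancel]
    exact_mod_cast Real.rpow_natCast (D : ℝ) 5
  have hy0 : (0 : ℝ) < (D : ℝ) ^ (2 - δ) := Real.rpow_pos_of_pos hD0 _
  have hbig : (D : ℝ) ^ (5 - δ) ≤ G.card * (R : ℝ) ^ 2 := by
    refine le_of_mul_le_mul_right ?_ hx0
    rw [e5]
    refine le_of_mul_le_mul_right ?_ hD0
    have h3 : (G.card : ℝ) * (R : ℝ) ^ 2 * D * q ≤ G.card * (R : ℝ) ^ 2 * D * (D : ℝ) ^ δ :=
      mul_le_mul_of_nonneg_left (by nlinarith) (by positivity)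
    have h4 : (0 : ℝ) ≤ (n : ℝ) ^ 4 := by positivity
    calc (D : ℝ) ^ 5 * D = (D : ℝ) ^ 6 := by ring
      _ ≤ G.card * (R : ℝ) ^ 2 * D * (D : ℝ) ^ δ := by linarith
      _ = _ := by ring
  set σ := (D : ℝ) ^ (2 - δ) / R with hσ
  have hσ0 : 0 ≤ σ := by positivity
  have hσR : σ * R = (D : ℝ) ^ (2 - δ) := div_mul_cancel₀ _ hR0.ne'
  have hsq : ∀ P : Finset V3, P.card ≤ n → (P.card : ℝ) ^ 2 ≤ 2 * μ * (D : ℝ) ^ 3 := fun P h =>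
    le_trans (pow_le_pow_left₀ (Nat.cast_nonneg _) (by exact_mod_cast h) 2) hhi
  have hs := hP D hD₁ P₁ P₂ h₁ h₂ (hsq P₁ hn₁) (hsq P₂ hn₂) G G R σ
    (fun h hh => by exact_mod_cast hG h hh)
    (by nlinarith [mul_le_mul_of_nonneg_right (hqC.trans hq20) hD0.le]) hσR.ge hbig
  obtain ⟨H, Z, hH, hF, hZ⟩ := fam_of_hvy P₁ P₂ G R σ hσ0 hG hs
  obtain ⟨g, hg⟩ : G.Nonempty := by
    rw [nonempty_iff_ne_empty]
    rintro rfl
    have h4 : (0 : ℝ) ≤ (n : ℝ) ^ 4 := by positivity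
    simp only [card_empty, Nat.cast_zero, zero_mul] at hcon
    linarith
  have hRn : R ≤ n := (hG g hg).trans ((card_mt_le P₁ P₂ g).trans hn₁)
  have hσr : σ * ((R / 9 : ℕ) : ℝ) ≤ (D : ℝ) ^ (2 - δ) :=
    (mul_le_mul_of_nonneg_left hr' hσ0).trans hσR.le
  have hfin := hN D hD₂ n P₁ P₂ h₁ h₂ hn₁ hn₂ hlo hhi (R / 9) q σ ((le_max_left _ _).trans hq)
    (by linarith) ((Nat.div_le_self R 9).trans hRn)
    (by
      have h3 : (R : ℝ) ^ 3 * q ^ 5 ≤ (10 * ((R / 9 : ℕ) : ℝ)) ^ 3 * q ^ 5 := by gcongr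
      nlinarith)
    hσ0
    (by
      rw [← e2]
      exact mul_le_mul hσr (by nlinarith [pow_nonneg (zero_le_one.trans hq1) 14]) (by positivity)
        hy0.le)
    (by
      refine (pow_le_pow_left₀ (by positivity) hσr m).trans ?_
      refine le_trans ?_ (le_mul_of_one_le_left (by positivity) (one_le_pow₀ (by norm_num)))
      rw [← Real.rpow_natCast, ← Real.rpow_mul hD0.le, ← Real.rpow_natCast]
      refine Real.rpow_le_rpow_of_exponent_le hD1 ?_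
      rw [Nat.cast_sub (by omega)]
      push_cast
      linarith)
    _ H Z hF hZ
  have hH' : (G.card : ℝ) ≤ 9 * H.card := by exact_mod_cast hH
  have h9 : (G.card : ℝ) * (R : ℝ) ^ 2 * D * q ≤
      (9 * H.card) * (10 * ((R / 9 : ℕ) : ℝ)) ^ 2 * D * q := by gcongr
  nlinarith

end Crest.Agent.R65.D3
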