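import Crest.Agent.R65.D3Defs

/-! Row 65, `d = 3`: parameter pack and intermediate statements. -/

set_option autoImplicit false

open Finset Matrix
open scoped Classical

namespace Crest.Agent.R65.D3

/-- the numerical hypotheses of one step -/
structure StepHyp (CB CL : ℝ) (D n r k w e J : ℕ) (σ τ N s' L₁ : ℝ) : Prop where
  k2 : 2 ≤ k
  J2 : 2 ≤ J
  hJ : 1024 * CB ≤ J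
  hσ0 : 0 ≤ σ
  hσ : 1024 * CB * σ ≤ τ
  hσ' : 128 * s' ^ 2 * σ ≤ τ
  hw : 4 * (2 * D + 1) ≤ w
  hw2 : 2 * r * (2 * D + 1) ≤ w ^ 2
  hs0 : 0 < s'
  hs : 2 * (r : ℝ) ≤ s' * w
  hpl : 32 * s' * (n : ℝ) ^ 2 ≤ τ * (w : ℝ) ^ 2
  hL1 : 64 * CL * ((r : ℝ) / (k : ℝ) ^ 3 + (w : ℝ) / (k : ℝ) ^ 2 + k) ≤ L₁
  hL0 : 0 < L₁
  hL : 8 * (5 * (e : ℝ) + 1 + L₁) * J ≤ τ
  hE : 40 * e ≤ r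
  hN : 0 < N
  hdim : 2560000 * k * N < ((e : ℝ) + 1) * (r : ℝ) ^ 2

theorem StepHyp.mono {CB CL : ℝ} {D n r k w e J : ℕ} {σ τ τ' N s' L₁ : ℝ}
    (h : StepHyp CB CL D n r k w e J σ τ N s' L₁) (hτ : τ ≤ τ') :
    StepHyp CB CL D n r k w e J σ τ' N s' L₁ :=
  { h with
    hσ := h.hσ.trans hτ
    hσ' := h.hσ'.trans hτ
    hpl := h.hpl.trans (mul_le_mul_of_nonneg_right hτ (by positivity))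
    hL := h.hL.trans hτ }

/-- families without large pencils are small -/
def NPStmt : Prop :=
  ∀ m : ℕ, 2 ≤ m → ∃ q₀ : ℝ, 1 ≤ q₀ ∧ ∀ μ : ℝ, 1 ≤ μ → ∃ D₀ : ℕ, ∀ D : ℕ, D₀ ≤ D →
    ∀ (n : ℕ) (P₁ P₂ : Finset V3), ND P₁ D → ND P₂ D → P₁.card ≤ n → P₂.card ≤ n →
    μ * (D : ℝ) ^ 3 ≤ (n : ℝ) ^ 2 → (n : ℝ) ^ 2 ≤ 2 * μ * (D : ℝ) ^ 3 →
    ∀ (r : ℕ) (q σ : ℝ), q₀ ≤ q → q ^ 20 * D ≤ r → r ≤ n →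
    μ ^ 2 * (D : ℝ) ^ 3 ≤ (r : ℝ) ^ 3 * q ^ 5 → 0 ≤ σ → σ * r * q ^ 14 ≤ (D : ℝ) ^ 2 →
    (σ * r) ^ m ≤ 2 ^ m * (D : ℝ) ^ (2 * m - 2) →
    ∀ (Y H : Finset Pt) (Z : Pt → Finset Pt), Fam P₁ P₂ Y H Z r σ → (∀ g ∈ H, (Z g).card = r) →
      (H.card : ℝ) * (r : ℝ) ^ 2 * D * q < (n : ℝ) ^ 4

/-- number of `R`-rich flats -/
def ClsStmt : Prop :=
  ∃ (M : ℕ) (q₀ : ℝ), 20 ≤ M ∧ 1 ≤ q₀ ∧ ∀ μ A : ℝ, 1 ≤ μ → ∃ D₀ : ℕ, ∀ D : ℕ, D₀ ≤ D →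
    ∀ (n : ℕ) (P₁ P₂ : Finset V3), ND P₁ D → ND P₂ D → P₁.card ≤ n → P₂.card ≤ n →
    μ * (D : ℝ) ^ 3 ≤ (n : ℝ) ^ 2 → (n : ℝ) ^ 2 ≤ 2 * μ * (D : ℝ) ^ 3 →
    ∀ (R : ℕ) (q : ℝ), q₀ ≤ q → q ^ M ≤ A * (D : ℝ) ^ 2 → 10 * q ^ 20 * D ≤ R →
    1000 * μ ^ 2 * (D : ℝ) ^ 3 ≤ (R : ℝ) ^ 3 * q ^ 5 →
    ∀ G : Finset Pt, (∀ g ∈ G, R ≤ (mt P₁ P₂ g).card) →
      (G.card : ℝ) * (R : ℝ) ^ 2 * D * q ≤ 900 * (n : ℝ) ^ 4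

/-- a partial isometry (clique of the equal-distance graph) -/
def Clq (T : Finset Pt) : Prop :=
  ∀ a ∈ T, ∀ b ∈ T, (a.1 - b.1) ⬝ᵥ (a.1 - b.1) = (a.2 - b.2) ⬝ᵥ (a.2 - b.2)

/-- Final form: few edges lie in large cliques. -/
def RIClStmt : Prop :=
  ∀ η κ : ℝ, 0 < η → 0 < κ → ∃ μ₀ : ℝ, ∀ μ : ℝ, μ₀ ≤ μ → ∃ D₀ : ℕ, ∀ D : ℕ, D₀ ≤ D →
    ∀ (n : ℕ) (P₁ P₂ : Finset V3), ND P₁ D → ND P₂ D → P₁.card ≤ n → P₂.card ≤ n →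
    μ * (D : ℝ) ^ 3 ≤ (n : ℝ) ^ 2 → (n : ℝ) ^ 2 ≤ 2 * μ * (D : ℝ) ^ 3 →
    ((((P₁ ×ˢ P₂) ×ˢ (P₁ ×ˢ P₂)).filter fun xy => ∃ T : Finset Pt, T ⊆ P₁ ×ˢ P₂ ∧ xy.1 ∈ T ∧
      xy.2 ∈ T ∧ Clq T ∧ κ * μ ^ ((2 : ℝ) / 3) * D ≤ T.card).card : ℝ) ≤ η * (n : ℝ) ^ 4 / D

end Crest.Agent.R65.D3
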