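import Crest.Agent.R65.D3Geo
import Crest.Agent.R65.D3Defs2
import Crest.Agent.R65.Pen.FamDef

/-! From the pencil lemma to families without pencils. -/

set_option autoImplicit false

open Finset Matrix
open scoped Classical

namespace Crest.Agent.R65.D3

/-- `H = {g ∈ G | 10 |hvy g| ≤ R}` (Markov), `Z g ⊆ mt g \ hvy g` of size `R / 9`
(`Finset.exists_subset_card_eq`, `choose`).  `Fam.pen`: if some `g ∈ H` has `x ∈ Z g`, `g.1 ∈ l`, then
`x ∉ hvy g` gives `#{h ∈ G | On h x ∧ h.1 ∈ l} < σ`. -/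
theorem fam_of_hvy (P₁ P₂ : Finset V3) (G : Finset Pt) (R : ℕ) (σ : ℝ) (hσ : 0 ≤ σ)
    (hG : ∀ g ∈ G, R ≤ (mt P₁ P₂ g).card)
    (hs : ∑ g ∈ G, ((hvy P₁ P₂ G σ g).card : ℝ) ≤ 1 / 100 * G.card * R) :
    ∃ (H : Finset Pt) (Z : Pt → Finset Pt), G.card ≤ 9 * H.card ∧
      Fam P₁ P₂ (P₁ ×ˢ P₂) H Z (R / 9) σ ∧ ∀ g ∈ H, (Z g).card = R / 9 := by
  have hZ : ∀ g : Pt, ∃ Z : Finset Pt, g ∈ G.filter (fun g => 10 * (hvy P₁ P₂ G σ g).card ≤ R) →
      Z ⊆ mt P₁ P₂ g \ hvy P₁ P₂ G σ g ∧ Z.card = R / 9 := fun g => by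
    by_cases hg : g ∈ G.filter (fun g => 10 * (hvy P₁ P₂ G σ g).card ≤ R)
    · obtain ⟨h1, h2⟩ := mem_filter.1 hg
      have h3 := hG g h1
      have h4 := card_le_card_sdiff_add_card (s := mt P₁ P₂ g) (t := hvy P₁ P₂ G σ g)
      obtain ⟨Z, hZ⟩ := exists_subset_card_eq (s := mt P₁ P₂ g \ hvy P₁ P₂ G σ g) (n := R / 9)
        (by omega)
      exact ⟨Z, fun _ => hZ⟩
    · exact ⟨∅, fun h => absurd h hg⟩
  choose Z hZ using hZ
  have hm : ∀ g ∈ G.filter (fun g => 10 * (hvy P₁ P₂ G σ g).card ≤ R), ∀ x ∈ Z g,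
      x ∈ P₁ ×ˢ P₂ ∧ On g x := fun g hg x hx => mem_filter.1 (mem_sdiff.1 ((hZ g hg).1 hx)).1
  refine ⟨_, Z, ?_, ⟨Subset.rfl, fun g hg x hx => (hm g hg x hx).1, fun g hg x hx => (hm g hg x hx).2,
    fun g hg => ?_, fun g hg => (hZ g hg).2.le, fun x l hl => ?_⟩, fun g hg => (hZ g hg).2⟩
  · have h1 := card_filter_add_card_filter_not (s := G) fun g => 10 * (hvy P₁ P₂ G σ g).card ≤ R
    have h2 := card_nsmul_le_sum (G.filter fun g => ¬ 10 * (hvy P₁ P₂ G σ g).card ≤ R)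
      (fun g => 10 * (hvy P₁ P₂ G σ g).card) (R + 1) fun g hg => not_le.1 (mem_filter.1 hg).2
    have h3 := h2.trans (sum_le_sum_of_subset (filter_subset _ _))
    rw [← mul_sum, smul_eq_mul] at h3
    have h4 : 100 * ∑ g ∈ G, (hvy P₁ P₂ G σ g).card ≤ G.card * R := by
      have : (100 : ℝ) * ∑ g ∈ G, ((hvy P₁ P₂ G σ g).card : ℝ) ≤ G.card * R := by linarith
      exact_mod_cast this
    have h5 : 10 * (G.filter fun g => ¬ 10 * (hvy P₁ P₂ G σ g).card ≤ R).card ≤ G.card := by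
      refine Nat.le_of_mul_le_mul_right (c := R + 1) ?_ (Nat.succ_pos R)
      rw [mul_assoc, mul_add_one G.card]
      omega
    omega
  · rw [(hZ g hg).2]
    omega
  · rcases ((G.filter fun g => 10 * (hvy P₁ P₂ G σ g).card ≤ R).filter
      fun g => x ∈ Z g ∧ g.1 ∈ l).eq_empty_or_nonempty with h | ⟨g, hg⟩
    · rwa [h, card_empty, Nat.cast_zero]
    · obtain ⟨h1, h2, h3⟩ := mem_filter.1 hg
      obtain ⟨h4, h5⟩ := mem_sdiff.1 ((hZ g h1).1 h2)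
      refine (Nat.cast_le.2 (card_le_card fun h hh => ?_)).trans
        (not_le.1 fun h6 => h5 (mem_filter.2 ⟨h4, l, hl, h3, h6⟩)).le
      obtain ⟨h6, h7, h8⟩ := mem_filter.1 hh
      exact mem_filter.2 ⟨(mem_filter.1 h6).1, (hm h h6 x h7).2, h8⟩

end Crest.Agent.R65.D3
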