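import Crest.Agent.R65.D3Alg
import Crest.Agent.R65.D3Aff

/-! A curve in `Σ_g` misses many points `Σ_g ∩ Σ_h`. -/

set_option autoImplicit false

open Finset Matrix
open scoped Classical

namespace Crest.Agent.R65.D3

variable {K : Type} [Field K] [Algebra ℝ K]

/-- One good point `x` whose line is not in the curve.  The zeros `u` of
`u ↦ f (Sig g u (lb.1 + lb.2 u))` among the values `uu g h` form a set of at most `E` elements
(`sig_aff`, `aff_roots`); choose one `h` for each zero and let `Ls` consist of the lines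
`ln g.1 (h.1 - g.1)` and of `ln g.1 ![1,0,0]`; `uu_inj`, `sig_eq_sig`. -/
theorem cut_point {s0 : Fin 3 → K} (hs : Gen s0) {H : Finset Pt} {Z : Pt → Finset Pt}
    (hon : ∀ g ∈ H, ∀ x ∈ Z g, On g x) {E k : ℕ} {τ : ℝ} {g x : Pt} (hg : g ∈ H) (hx : x ∈ Z g)
    (hG : GoodInc H Z (E + 1) k τ g x) (f : MvPolynomial (Fin 5) K) (hf : f.totalDegree ≤ E)
    (hne : ∃ u : K, MvPolynomial.eval (Sig s0 g u ((lb s0 g x).1 + (lb s0 g x).2 * u)) f ≠ 0) :
    τ ≤ 2 * (((thr H Z x).filter fun h => h.1 ≠ g.1 ∧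
      cnt ((Z g).image bc) (ln (bc x) (h.1 - g.1)) < k ∧
      ∃ u β : K, Sig s0 g u β = Sig s0 h u β ∧
        MvPolynomial.eval (Sig s0 g u β) f ≠ 0).card : ℝ) := by
  obtain ⟨A, B, C, hS⟩ := sig_aff s0 g
  have hφ : ∀ u : K, Sig s0 g u ((lb s0 g x).1 + (lb s0 g x).2 * u) =
      (A + (lb s0 g x).1 • C) + u • (B + (lb s0 g x).2 • C) := by
    intro u
    rw [hS, add_smul, smul_add, smul_smul, mul_comm u]
    abel
  obtain ⟨Bad, hBad⟩ : ∃ Bad : Finset Pt, Bad = (thr H Z x).filter fun h =>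
      h.1 ∉ ln g.1 ![1, 0, 0] ∧ MvPolynomial.eval
        (Sig s0 g (uu s0 g h) ((lb s0 g x).1 + (lb s0 g x).2 * uu s0 g h)) f = 0 := ⟨_, rfl⟩
  have hT : (Bad.image (uu s0 g)).card ≤ E := by
    refine le_trans (aff_roots f (A + (lb s0 g x).1 • C) (B + (lb s0 g x).2 • C) ?_ _ ?_) hf
    · simpa only [hφ] using hne
    · intro c hc
      obtain ⟨h, hh, rfl⟩ := Finset.mem_image.1 hc
      rw [← hφ]
      rw [hBad] at hh
      exact (Finset.mem_filter.1 hh).2.2
  have hch : ∀ t ∈ Bad.image (uu s0 g), ∃ h : Pt, h.1 ∉ ln g.1 ![1, 0, 0] ∧ uu s0 g h = t := by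
    intro t ht
    obtain ⟨h, hh, rfl⟩ := Finset.mem_image.1 ht
    rw [hBad] at hh
    exact ⟨h, (Finset.mem_filter.1 hh).2.1, rfl⟩
  choose! c hc1 hc2 using hch
  have he : (![1, 0, 0] : V3) ≠ 0 := fun h => by simpa using congrFun h 0
  have h1 := hG (insert (ln g.1 ![1, 0, 0])
    ((Bad.image (uu s0 g)).image fun t => ln g.1 ((c t).1 - g.1))) (by
      intro l hl
      rcases Finset.mem_insert.1 hl with rfl | hl
      · exact ⟨isLine_ln _ he, self_mem_ln _ _⟩
      · obtain ⟨t, ht, rfl⟩ := Finset.mem_image.1 hl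
        refine ⟨isLine_ln _ (sub_ne_zero.2 fun h0 => hc1 t ht ?_), self_mem_ln _ _⟩
        rw [h0]
        exact self_mem_ln _ _)
    ((Finset.card_insert_le _ _).trans (Nat.succ_le_succ (Finset.card_image_le.trans hT)))
  refine h1.trans (mul_le_mul_of_nonneg_left (Nat.cast_le.2 (Finset.card_le_card fun h hh => ?_))
    zero_le_two)
  obtain ⟨a1, a2, a3, a4⟩ := Finset.mem_filter.1 hh
  have a5 : h.1 ∉ ln g.1 ![1, 0, 0] := a3 _ (Finset.mem_insert_self _ _)
  have a6 := Finset.mem_filter.1 a1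
  refine Finset.mem_filter.2 ⟨a1, a2, a4, uu s0 g h, _,
    sig_eq_sig hs (hon g hg x hx) (hon h a6.1 x a6.2) a5, fun h0 => ?_⟩
  have a7 : uu s0 g h ∈ Bad.image (uu s0 g) :=
    Finset.mem_image_of_mem _ (by rw [hBad]; exact Finset.mem_filter.2 ⟨a1, a5, h0⟩)
  exact a3 _ (Finset.mem_insert_of_mem (Finset.mem_image_of_mem _ a7))
    (uu_inj hs (hc1 _ a7) a5 (hc2 _ a7))

/-- At most `E` points `x ∈ Z g` have their line inside the curve (`lines_zero`, `lb_inj`,
`On.eq_of_bc`; `K` is infinite since it has characteristic zero), so at least `r / 8` good points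
remain; double count the pairs `(x, h)` of `cut_point`: a fixed `h` occurs for at most `k` points
(`On.axis`). -/
theorem cut {s0 : Fin 3 → K} (hs : Gen s0) {H : Finset Pt} {Z : Pt → Finset Pt}
    (hon : ∀ g ∈ H, ∀ x ∈ Z g, On g x) {E k r : ℕ} {τ : ℝ} (hτ : 0 ≤ τ) {g : Pt} (hg : g ∈ H)
    (hG : r ≤ 4 * ((Z g).filter fun x => GoodInc H Z (E + 1) k τ g x).card) (hE : 8 * E ≤ r)
    (f : MvPolynomial (Fin 5) K) (hf : f.totalDegree ≤ E)
    (hne : ∃ u β : K, MvPolynomial.eval (Sig s0 g u β) f ≠ 0) :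
    (r : ℝ) * τ ≤ 16 * k * ((H.filter fun h => ∃ u β : K, Sig s0 g u β = Sig s0 h u β ∧
        MvPolynomial.eval (Sig s0 g u β) f ≠ 0).card : ℝ) := by
  have : Infinite K := Infinite.of_injective (algebraMap ℝ K) (algebraMap ℝ K).injective
  obtain ⟨A, B, C, hS⟩ := sig_aff s0 g
  obtain ⟨φ, hφ⟩ : ∃ φ : Pt → Prop, ∀ x, φ x ↔
      ∃ u : K, MvPolynomial.eval (Sig s0 g u ((lb s0 g x).1 + (lb s0 g x).2 * u)) f ≠ 0 :=
    ⟨_, fun _ => Iff.rfl⟩
  have h0 : ((Z g).filter fun x => ¬ φ x).card ≤ E := by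
    by_contra hcon
    obtain ⟨u, β, hu⟩ := hne
    refine hu ?_
    rw [hS]
    refine lines_zero f A B C (((Z g).filter fun x => ¬ φ x).image (lb s0 g)) ?_ ?_ u β
    · rw [Finset.card_image_of_injOn]
      · omega
      · intro x hx y hy e
        exact (hon g hg x (Finset.mem_filter.1 hx).1).eq_of_bc
          (hon g hg y (Finset.mem_filter.1 hy).1) (lb_inj hs e)
    · intro cm hcm v
      obtain ⟨x, hx, rfl⟩ := Finset.mem_image.1 hcm
      rw [← hS]
      by_contra h1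
      exact (Finset.mem_filter.1 hx).2 ((hφ x).2 ⟨v, h1⟩)
  obtain ⟨X, hX⟩ : ∃ X : Finset Pt,
      X = ((Z g).filter fun x => GoodInc H Z (E + 1) k τ g x).filter φ := ⟨_, rfl⟩
  have h1 : r ≤ 8 * X.card := by
    have a1 := Finset.card_filter_add_card_filter_not
      (s := (Z g).filter fun x => GoodInc H Z (E + 1) k τ g x) φ
    have a2 : (((Z g).filter fun x => GoodInc H Z (E + 1) k τ g x).filter fun x => ¬ φ x).card ≤
        ((Z g).filter fun x => ¬ φ x).card :=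
      Finset.card_le_card (Finset.filter_subset_filter _ (Finset.filter_subset _ _))
    rw [← hX] at a1
    omega
  have hXm : ∀ x ∈ X, x ∈ Z g ∧ GoodInc H Z (E + 1) k τ g x ∧ φ x := by
    intro x hx
    rw [hX, Finset.mem_filter, Finset.mem_filter] at hx
    exact ⟨hx.1.1, hx.1.2, hx.2⟩
  obtain ⟨W, hW⟩ : ∃ W : Finset Pt, W = H.filter fun h => ∃ u β : K, Sig s0 g u β = Sig s0 h u β ∧
      MvPolynomial.eval (Sig s0 g u β) f ≠ 0 := ⟨_, rfl⟩
  rw [← hW]
  have h2 : X.card • (τ / 2) ≤ W.card • (k : ℝ) := by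
    refine Finset.card_nsmul_le_card_nsmul (fun x h => x ∈ Z h ∧ h.1 ≠ g.1 ∧
      cnt ((Z g).image bc) (ln (bc x) (h.1 - g.1)) < k) (fun x hx => ?_) (fun h hh => ?_)
    · obtain ⟨a1, a2, a3⟩ := hXm x hx
      have a4 := cut_point hs hon hg a1 a2 f hf ((hφ x).1 a3)
      rw [div_le_iff₀' two_pos]
      refine a4.trans (mul_le_mul_of_nonneg_left
        (Nat.cast_le.2 (Finset.card_le_card fun h hh => ?_)) zero_le_two)
      obtain ⟨b1, b2, b3, b4⟩ := Finset.mem_filter.1 hh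
      have b5 := Finset.mem_filter.1 b1
      rw [Finset.mem_bipartiteAbove, hW]
      exact ⟨Finset.mem_filter.2 ⟨b5.1, b4⟩, b5.2, b2, b3⟩
    · have hH : h ∈ H := by
        rw [hW] at hh
        exact (Finset.mem_filter.1 hh).1
      rw [Nat.cast_le]
      rcases Finset.eq_empty_or_nonempty (X.bipartiteBelow (fun x h => x ∈ Z h ∧ h.1 ≠ g.1 ∧
        cnt ((Z g).image bc) (ln (bc x) (h.1 - g.1)) < k) h) with he | ⟨x₀, hx₀⟩
      · rw [he]
        exact Nat.zero_le _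
      · obtain ⟨b1, b2, b3, b4⟩ := (Finset.mem_bipartiteBelow _).1 hx₀
        refine le_trans (Finset.card_le_card_of_injOn bc (fun y hy => ?_) fun y hy z hz e => ?_)
          b4.le
        · obtain ⟨c1, c2, -, -⟩ := (Finset.mem_bipartiteBelow _).1 hy
          exact Finset.mem_coe.2 (Finset.mem_filter.2 ⟨Finset.mem_image_of_mem _ (hXm y c1).1,
            On.axis (hon g hg x₀ (hXm x₀ b1).1) (hon h hH x₀ b2) (hon g hg y (hXm y c1).1)
              (hon h hH y c2) b3⟩)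
        · exact (hon g hg y (hXm y ((Finset.mem_bipartiteBelow _).1 hy).1).1).eq_of_bc
            (hon g hg z (hXm z ((Finset.mem_bipartiteBelow _).1 hz).1).1) e
  rw [nsmul_eq_mul, nsmul_eq_mul] at h2
  have h3 : (r : ℝ) ≤ 8 * X.card := by exact_mod_cast h1
  nlinarith [mul_le_mul_of_nonneg_right h3 hτ]

/-- More than `E` flats through `x` on whose dual planes `f` vanishes: `sec_aff`, `lines_zero` with
the pairs `lw s0 g` (`lw_inj`, `On.eq_of_fst`, `w3_eq`, `sec_eq_sig`). -/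
theorem fx_zero {s0 : Fin 3 → K} (hs : Gen s0) {x : Pt} (T : Finset Pt) (hon : ∀ g ∈ T, On g x)
    (f : MvPolynomial (Fin 5) K) (hT : f.totalDegree < T.card)
    (hz : ∀ g ∈ T, ∀ u β : K, MvPolynomial.eval (Sig s0 g u β) f = 0) (w2 w3' : K) :
    MvPolynomial.eval (secF s0 x w2 w3') f = 0 := by
  have : Infinite K := Infinite.of_injective (algebraMap ℝ K) (algebraMap ℝ K).injective
  obtain ⟨A, B, C, hS⟩ := sec_aff s0 x
  rw [hS]
  refine lines_zero f A B C (T.image (lw s0)) ?_ ?_ w2 w3'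
  · rwa [Finset.card_image_of_injOn]
    intro g hg h hh e
    exact (hon g hg).eq_of_fst (hon h hh) (lw_inj hs e)
  · intro cm hcm u
    obtain ⟨g, hg, rfl⟩ := Finset.mem_image.1 hcm
    rw [← hS, ← w3_eq, sec_eq_sig hs (hon g hg)]
    exact hz g hg _ _

end Crest.Agent.R65.D3
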