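import Mathlib

/-! Row 65, dimension three: definitions and interface statements (rich isometries). -/

set_option autoImplicit false

open Finset Matrix
open scoped Classical

namespace Crest.Agent.R65.D3

abbrev V3 := Fin 3 → ℝ

/-- a pair `(p, p')` of points, or a flat `(s, t)` -/
abbrev Pt := V3 × V3

/-- at most `D` distinct (squared) distances -/
def ND (P : Finset V3) (D : ℕ) : Prop :=
  ∃ T : Finset ℝ, T.card ≤ D ∧ ∀ p ∈ P, ∀ q ∈ P, p ≠ q → (p - q) ⬝ᵥ (p - q) ∈ T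

def ln (a v : V3) : Set V3 := {x | ∃ c : ℝ, x = a + c • v}

def IsLine (l : Set V3) : Prop := ∃ a v : V3, v ≠ 0 ∧ l = ln a v

def pl (ν : V3) (c : ℝ) : Set V3 := {x | ν ⬝ᵥ x = c}

def IsPlane (A : Set V3) : Prop := ∃ (ν : V3) (c : ℝ), ν ≠ 0 ∧ A = pl ν c

/-- number of points of `Q` in `A` -/
noncomputable def cnt (Q : Finset V3) (A : Set V3) : ℕ := (Q.filter (· ∈ A)).card

/-- `b = p + p'` -/
def bc (x : Pt) : V3 := x.1 + x.2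

/-- the pair `x = (p, p')` lies on the flat `g = (s, t)` (graph of a direct isometry in Cayley
form): `p - p' = s × (p + p') + t`. -/
def On (g x : Pt) : Prop := x.1 - x.2 = g.1 ⨯₃ (x.1 + x.2) + g.2

/-- matched pairs of the flat `g` -/
noncomputable def mt (P₁ P₂ : Finset V3) (g : Pt) : Finset Pt := (P₁ ×ˢ P₂).filter (On g)

/-- gradient at a point -/
noncomputable def grad (f : MvPolynomial (Fin 3) ℝ) (x : V3) : V3 :=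
  fun j => MvPolynomial.eval x (MvPolynomial.pderiv j f)

/-- sign cell -/
def InCell3 {j : ℕ} (f : Fin j → MvPolynomial (Fin 3) ℝ) (sg : Fin j → Bool) (p : V3) : Prop :=
  ∀ i, if sg i then 0 < MvPolynomial.eval p (f i) else MvPolynomial.eval p (f i) < 0

/-- Szemerédi–Trotter for lines of `ℝ³`, incidence form for `k`-rich lines. -/
def STFor (C : ℝ) : Prop :=
  ∀ (Q : Finset V3) (k : ℕ) (L : Finset (Set V3)), 2 ≤ k → (∀ l ∈ L, IsLine l ∧ k ≤ cnt Q l) →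
    (∑ l ∈ L, (cnt Q l : ℝ)) ≤ C * ((Q.card : ℝ) ^ 2 / (k : ℝ) ^ 2 + Q.card)

def STStmt : Prop := ∃ C : ℝ, 1 ≤ C ∧ STFor C

/-- Colouring lemma (pencils): coaxial matched pairs of the colours of `p, p'` about two lines
through `p` and `p'` are few. -/
def PenStmt : Prop :=
  ∃ δ : ℝ, 0 < δ ∧ ∀ M : ℝ, ∃ D₀ : ℕ, ∀ D : ℕ, D₀ ≤ D → ∀ P₁ P₂ : Finset V3, ND P₁ D → ND P₂ D →
    (P₁.card : ℝ) ^ 2 ≤ M * (D : ℝ) ^ 3 → (P₂.card : ℝ) ^ 2 ≤ M * (D : ℝ) ^ 3 →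
    ∃ c₁ c₂ : V3 → Fin 3, ∀ p ∈ P₁, ∀ p' ∈ P₂, ∀ u u' : V3, u ≠ 0 → u' ⬝ᵥ u' = u ⬝ᵥ u →
      (((P₁ ×ˢ P₂).filter fun y => c₁ y.1 = c₁ p ∧ c₂ y.2 = c₂ p' ∧
        (y.1 - p) ⬝ᵥ u = (y.2 - p') ⬝ᵥ u' ∧
        (y.1 - p) ⬝ᵥ (y.1 - p) = (y.2 - p') ⬝ᵥ (y.2 - p')).card : ℝ) ≤ (D : ℝ) ^ (2 - δ)

/-- rich lines outside rich planes in `ℝ³` -/
def L3For (C : ℝ) : Prop :=
  ∀ (Q : Finset V3) (k w : ℕ) (L : Finset (Set V3)), 2 ≤ k →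
    (∀ l ∈ L, IsLine l ∧ k ≤ cnt Q l ∧ ∀ A, IsPlane A → l ⊆ A → cnt Q A < w) →
    (∑ l ∈ L, (cnt Q l : ℝ)) ≤
      C * ((Q.card : ℝ) ^ 2 / (k : ℝ) ^ 3 + Q.card * w / (k : ℝ) ^ 2 + Q.card * k)

/-- Beck type bound: pairs on `J`-rich lines when no line has more than `σ` points -/
def BeckFor (C : ℝ) : Prop :=
  ∀ (S : Finset V3) (J : ℕ) (σ : ℝ), 2 ≤ J → 0 ≤ σ → (∀ l, IsLine l → (cnt S l : ℝ) ≤ σ) →
    ((S.offDiag.filter fun ab => J ≤ cnt S (ln ab.1 (ab.2 - ab.1))).card : ℝ) ≤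
      C * ((S.card : ℝ) ^ 2 / J + S.card * σ)

section Alg

variable {K : Type} [Field K] [Algebra ℝ K]

/-- a real vector with coordinates in `K` -/
noncomputable def up (K : Type) [Field K] [Algebra ℝ K] (v : V3) : Fin 3 → K :=
  fun i => algebraMap ℝ K (v i)

/-- `1, s0 0, s0 1, s0 2` are linearly independent over `ℝ` -/
def Gen (s0 : Fin 3 → K) : Prop :=
  ∀ (c : ℝ) (v : V3), algebraMap ℝ K c + up K v ⬝ᵥ s0 = 0 → c = 0 ∧ v = 0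

/-- the section `F_x` of `𝔸⁵`: `w = (1, w2, w3)`, `b = p + p'`, `z = p - p' - s0 × b`,
point `(w2, w3, (z × w)₂, (z × w)₃, b · w)`. -/
noncomputable def secF (s0 : Fin 3 → K) (x : Pt) (w2 w3 : K) : Fin 5 → K :=
  ![w2, w3,
    (up K (x.1 - x.2) - s0 ⨯₃ up K (x.1 + x.2)) 2 - (up K (x.1 - x.2) - s0 ⨯₃ up K (x.1 + x.2)) 0 * w3,
    (up K (x.1 - x.2) - s0 ⨯₃ up K (x.1 + x.2)) 0 * w2 - (up K (x.1 - x.2) - s0 ⨯₃ up K (x.1 + x.2)) 1,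
    up K (x.1 + x.2) 0 + up K (x.1 + x.2) 1 * w2 + up K (x.1 + x.2) 2 * w3]

/-- the third coordinate of `w = (1, u, w3)` orthogonal to `s - s0` -/
noncomputable def w3 (s0 : Fin 3 → K) (g : Pt) (u : K) : K :=
  -((up K g.1 - s0) 0 + (up K g.1 - s0) 1 * u) / (up K g.1 - s0) 2

/-- the dual plane `Σ_g`: `w ⊥ s - s0`, `m = t × w - β (s - s0)`. -/
noncomputable def Sig (s0 : Fin 3 → K) (g : Pt) (u β : K) : Fin 5 → K :=
  ![u, w3 s0 g u,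
    up K g.2 2 - up K g.2 0 * w3 s0 g u - β * (up K g.1 - s0) 1,
    up K g.2 0 * u - up K g.2 1 - β * (up K g.1 - s0) 2,
    β]

/-- a nonzero polynomial on `𝔸⁵` vanishes on few sections `F_x` (consequence of the key lemma) -/
def VanFor (s0 : Fin 3 → K) (C : ℝ) : Prop :=
  ∀ (D n E : ℕ) (P₁ P₂ : Finset V3), ND P₁ D → ND P₂ D → P₁.card ≤ n → P₂.card ≤ n → 1 ≤ E →
    ∀ f : MvPolynomial (Fin 5) K, f ≠ 0 → f.totalDegree ≤ E →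
    (((P₁ ×ˢ P₂).filter fun x => ∀ w2 w3 : K, MvPolynomial.eval (secF s0 x w2 w3) f = 0).card : ℝ)
      ≤ C * E * (((E : ℝ) + D) ^ 2 + n)

end Alg

def VanStmt : Prop :=
  ∃ (K : Type) (_ : Field K) (_ : Algebra ℝ K) (s0 : Fin 3 → K) (C : ℝ),
    1 ≤ C ∧ Gen s0 ∧ VanFor s0 C

/-- Rich isometries carry few edges (graph form, two sets). -/
def RIStmt : Prop :=
  ∀ η κ : ℝ, 0 < η → 0 < κ → ∃ μ₀ : ℝ, ∀ μ : ℝ, μ₀ ≤ μ → ∃ D₀ : ℕ, ∀ D : ℕ, D₀ ≤ D →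
    ∀ (n : ℕ) (P₁ P₂ : Finset V3), ND P₁ D → ND P₂ D → P₁.card ≤ n → P₂.card ≤ n →
    μ * (D : ℝ) ^ 3 ≤ (n : ℝ) ^ 2 → (n : ℝ) ^ 2 ≤ 2 * μ * (D : ℝ) ^ 3 →
    ∀ G : Finset Pt, (∀ g ∈ G, κ * μ ^ ((2 : ℝ) / 3) * D ≤ (mt P₁ P₂ g).card) →
      ∑ g ∈ G, ((mt P₁ P₂ g).card : ℝ) ^ 2 ≤ η * (n : ℝ) ^ 4 / D

/-- A family of flats `H` with chosen point sets `Z g ⊆ Y ⊆ P₁ × P₂` of size between `r / 2` and
`r`, and no pencil with more than `σ` members. -/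
structure Fam (P₁ P₂ : Finset V3) (Y H : Finset Pt) (Z : Pt → Finset Pt) (r : ℕ) (σ : ℝ) :
    Prop where
  sub : Y ⊆ P₁ ×ˢ P₂
  zsub : ∀ g ∈ H, Z g ⊆ Y
  on : ∀ g ∈ H, ∀ x ∈ Z g, On g x
  lo : ∀ g ∈ H, r ≤ 2 * (Z g).card
  hi : ∀ g ∈ H, (Z g).card ≤ r
  pen : ∀ (x : Pt) (l : Set V3), IsLine l → ((H.filter fun g => x ∈ Z g ∧ g.1 ∈ l).card : ℝ) ≤ σ

/-- the flats of the family through `x` -/
noncomputable def thr (H : Finset Pt) (Z : Pt → Finset Pt) (x : Pt) : Finset Pt :=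
  H.filter fun h => x ∈ Z h

/-- good incidence: after removing any `L` pencils through `g` there remain `τ / 2` flats `h`
through `x` whose axis with `g` has fewer than `k` points. -/
def GoodInc (H : Finset Pt) (Z : Pt → Finset Pt) (L k : ℕ) (τ : ℝ) (g x : Pt) : Prop :=
  ∀ Ls : Finset (Set V3), (∀ l ∈ Ls, IsLine l ∧ g.1 ∈ l) → Ls.card ≤ L →
    τ ≤ 2 * (((thr H Z x).filter fun h => h.1 ≠ g.1 ∧ (∀ l ∈ Ls, h.1 ∉ l) ∧
      cnt ((Z g).image bc) (ln (bc x) (h.1 - g.1)) < k).card : ℝ)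

/-- Beck-bad incidence -/
def Bad2 (H : Finset Pt) (Z : Pt → Finset Pt) (J : ℕ) (g x : Pt) : Prop :=
  ((thr H Z x).card : ℝ) < 8 * (((thr H Z x).filter fun h => h.1 ≠ g.1 ∧
    J ≤ cnt ((thr H Z x).image Prod.fst) (ln g.1 (h.1 - g.1))).card : ℝ)

/-- planar-bad incidence: a plane `A` of `s`-space through `s_g` with many flats through `x`
whose parallel through `b_x` is `w`-rich for `g`. -/
def Bad3 (H : Finset Pt) (Z : Pt → Finset Pt) (w : ℕ) (s' : ℝ) (g x : Pt) : Prop :=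
  ∃ A : Set V3, IsPlane A ∧ g.1 ∈ A ∧
    ((thr H Z x).card : ℝ) ≤ 8 * s' * cnt ((thr H Z x).image Prod.fst) A ∧
    w ≤ cnt ((Z g).image bc) {b | g.1 + (b - bc x) ∈ A}

/-- line-bad incidence: more than `L₁` rich lines through `b_x` outside rich planes. -/
def Bad4 (Z : Pt → Finset Pt) (k w : ℕ) (L₁ : ℝ) (g x : Pt) : Prop :=
  ∃ Ls : Finset (Set V3), L₁ < Ls.card ∧ ∀ l ∈ Ls, IsLine l ∧ bc x ∈ l ∧
    k ≤ cnt ((Z g).image bc) l ∧ ∀ A, IsPlane A → l ⊆ A → cnt ((Z g).image bc) A < w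

end Crest.Agent.R65.D3
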