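import Crest.Agent.R65.D3Greedy
import Crest.Agent.R65.D3Alg
import Crest.Agent.R65.D3Aff

/-! The polynomial vanishing on most dual planes. -/

set_option autoImplicit false

open Finset Matrix
open scoped Classical

namespace Crest.Agent.R65.D3

variable {K : Type} [Field K] [Algebra ℝ K]

/-- the box polynomial with coefficient vector `c` -/
noncomputable def box (e : ℕ) : ((Fin 5 → Fin (e + 1)) → K) →ₗ[K] MvPolynomial (Fin 5) K :=
  ∑ a : Fin 5 → Fin (e + 1),
    (MvPolynomial.monomial (Finsupp.equivFunOnFinite.symm fun i => (a i : ℕ))).comp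
      (LinearMap.proj a)

omit [Algebra ℝ K] in
theorem box_apply (e : ℕ) (c : (Fin 5 → Fin (e + 1)) → K) :
    box e c = ∑ a : Fin 5 → Fin (e + 1),
      MvPolynomial.monomial (Finsupp.equivFunOnFinite.symm fun i => (a i : ℕ)) (c a) := by
  simp [box, LinearMap.sum_apply]

theorem box_inj (e : ℕ) : Function.Injective (box (K := K) e) := by
  rw [injective_iff_map_eq_zero]
  intro c hc
  funext a
  have h := congrArg (MvPolynomial.coeff (Finsupp.equivFunOnFinite.symm fun i => (a i : ℕ))) hc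
  rw [box_apply, MvPolynomial.coeff_sum, sum_eq_single a] at h
  · simpa using h
  · intro b _ hb
    rw [MvPolynomial.coeff_monomial, if_neg]
    intro h'
    apply hb
    funext i
    exact Fin.ext (congrFun (Finsupp.equivFunOnFinite.symm.injective h') i)
  · simp

theorem box_deg (e : ℕ) (c : (Fin 5 → Fin (e + 1)) → K) : (box e c).totalDegree ≤ 5 * e := by
  rw [box_apply]
  refine MvPolynomial.totalDegree_finsetSum_le fun a _ => ?_
  refine (MvPolynomial.totalDegree_monomial_le _ _).trans ?_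
  rw [Finsupp.sum_fintype _ _ (by simp)]
  calc ∑ i : Fin 5, id ((Finsupp.equivFunOnFinite.symm fun i => (a i : ℕ)) i)
      ≤ ∑ _i : Fin 5, e := sum_le_sum fun i _ => by simpa using Nat.lt_succ_iff.mp (a i).2
    _ = 5 * e := by simp

/-- coefficient vectors whose box polynomial vanishes on a family of points -/
noncomputable def boxEv (e : ℕ) {ι : Type} (pt : ι → Fin 5 → K) :
    ((Fin 5 → Fin (e + 1)) → K) →ₗ[K] (ι → K) :=
  LinearMap.pi fun z => (MvPolynomial.aeval (pt z) :
    MvPolynomial (Fin 5) K →ₐ[K] K).toLinearMap.comp (box e)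

omit [Algebra ℝ K] in
theorem mem_ker_boxEv (e : ℕ) {ι : Type} (pt : ι → Fin 5 → K) (c : (Fin 5 → Fin (e + 1)) → K) :
    c ∈ LinearMap.ker (boxEv e pt) ↔ ∀ z, MvPolynomial.eval (pt z) (box e c) = 0 := by
  rw [LinearMap.mem_ker, funext_iff]
  simp [boxEv, MvPolynomial.aeval_eq_eval]

/-- `V = (Fin 5 → Fin (e + 1)) → K` has dimension `(e + 1) ^ 5`; `U g` = coefficient vectors whose
box polynomial vanishes on `Σ_g`; it is the kernel of evaluation on the grid
`{0, …, 5 e}²` (`sig_aff`, `grid_zero`, characteristic zero), so has codimension at most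
`M = (5 e + 1)²`.  If `Sig g u β = Sig h u β` and `f` does not vanish there then
`f ∉ U g ⊔ U h`.  Apply `greedy`. -/
theorem step_poly (s0 : Fin 3 → K) (H A : Finset Pt) (hA : A ⊆ H) (e : ℕ) (lam : ℝ)
    (hlam : 0 < lam) (hcut : ∀ g ∈ A, ∀ f : MvPolynomial (Fin 5) K, f.totalDegree ≤ 5 * e →
      (∃ u β : K, MvPolynomial.eval (Sig s0 g u β) f ≠ 0) →
      lam ≤ (H.filter fun h => ∃ u β : K, Sig s0 g u β = Sig s0 h u β ∧
        MvPolynomial.eval (Sig s0 g u β) f ≠ 0).card)
    (hdim : 4 * (H.card : ℝ) * (5 * (e : ℝ) + 1) ^ 4 < lam * ((e : ℝ) + 1) ^ 5) :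
    ∃ f : MvPolynomial (Fin 5) K, f ≠ 0 ∧ f.totalDegree ≤ 5 * e ∧
      4 * (A.filter fun g => ∃ u β : K, MvPolynomial.eval (Sig s0 g u β) f ≠ 0).card ≤ H.card := by
  have : CharZero K := charZero_of_injective_algebraMap (algebraMap ℝ K).injective
  set U : Pt → Submodule K ((Fin 5 → Fin (e + 1)) → K) := fun g =>
    LinearMap.ker (boxEv e fun z : K × K => Sig s0 g z.1 z.2) with hU
  have hmem : ∀ g c, c ∈ U g ↔ ∀ u β, MvPolynomial.eval (Sig s0 g u β) (box e c) = 0 := by
    intro g c
    rw [hU, mem_ker_boxEv]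
    exact ⟨fun h u β => h (u, β), fun h z => h z.1 z.2⟩
  have hnot : ∀ g c, c ∉ U g ↔ ∃ u β, MvPolynomial.eval (Sig s0 g u β) (box e c) ≠ 0 := by
    intro g c
    rw [hmem]
    simp only [not_forall, ne_eq]
  have hg := greedy H A hA U ((5 * e + 1) ^ 2) ?_ lam hlam ?_ ?_
  · obtain ⟨c, hc0, hc⟩ := hg
    refine ⟨box e c, fun h => hc0 (box_inj e (by rw [h, map_zero])), box_deg e c, ?_⟩
    refine le_trans (le_of_eq ?_) hc
    congr 2
    exact filter_congr fun g _ => (hnot g c).symm
  · intro g _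
    set φ := boxEv e fun z : Fin (5 * e + 1) × Fin (5 * e + 1) =>
      Sig s0 g ((z.1 : ℕ) : K) ((z.2 : ℕ) : K) with hφ
    have h1 : LinearMap.ker φ ≤ U g := by
      intro c hc
      rw [hφ, mem_ker_boxEv] at hc
      rw [hmem]
      obtain ⟨A', B', C', hs⟩ := sig_aff s0 g
      intro u β
      rw [hs]
      have hT : (box e c).totalDegree < ((range (5 * e + 1)).image (Nat.cast : ℕ → K)).card := by
        rw [card_image_of_injective _ Nat.cast_injective, card_range]
        exact Nat.lt_succ_of_le (box_deg e c)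
      refine grid_zero _ A' B' C' _ _ hT hT (fun u hu v hv => ?_) u β
      obtain ⟨i, hi, rfl⟩ := mem_image.mp hu
      obtain ⟨j, hj, rfl⟩ := mem_image.mp hv
      rw [← hs]
      exact hc (⟨i, mem_range.mp hi⟩, ⟨j, mem_range.mp hj⟩)
    have h2 := LinearMap.finrank_range_add_finrank_ker φ
    have h3 := Submodule.finrank_mono h1
    have h4 := Submodule.finrank_le (LinearMap.range φ)
    rw [Module.finrank_fintype_fun_eq_card, Fintype.card_prod, Fintype.card_fin, ← pow_two] at h4
    omega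
  · intro g hg c hc
    refine (hcut g hg (box e c) (box_deg e c) ((hnot g c).mp hc)).trans ?_
    refine Nat.cast_le.mpr (card_le_card fun h hh => ?_)
    rw [mem_filter] at hh ⊢
    obtain ⟨hH, u, β, h1, h2⟩ := hh
    refine ⟨hH, fun h3 => h2 ?_⟩
    obtain ⟨a, ha, b, hb, rfl⟩ := Submodule.mem_sup.mp h3
    rw [map_add, map_add, (hmem g a).mp ha, h1, (hmem h b).mp hb, add_zero]
  · rw [Module.finrank_fintype_fun_eq_card, Fintype.card_fun, Fintype.card_fin, Fintype.card_fin]
    push_cast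
    refine lt_of_eq_of_lt ?_ hdim
    ring

end Crest.Agent.R65.D3
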