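import Crest.Agent.R65.D3Geo

/-! Few large sets with small intersections; rich planes through a point. -/

set_option autoImplicit false

open Finset Matrix
open scoped Classical

namespace Crest.Agent.R65.D3

/-- With `d x` the number of sets containing `x`, `I = ∑ d x = ∑ |A i| ≥ s w`,
`∑ (d x)² ≤ I + s² b`, and Cauchy–Schwarz `I² ≤ |Q| ∑ (d x)²`.  If `s w > 2 |Q|` then
`|Q| I < I² / 2`, so `I² / 2 < |Q| s² b ≤ s² w² / 2 ≤ I² / 2`. -/
theorem few_big {α ι : Type} (Q : Finset α) (F : Finset ι) (A : ι → Finset α) (w b : ℝ)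
    (hw : 0 < w) (hsub : ∀ i ∈ F, A i ⊆ Q) (h1 : ∀ i ∈ F, w ≤ (A i).card)
    (h2 : ∀ i ∈ F, ∀ j ∈ F, i ≠ j → ((A i ∩ A j).card : ℝ) ≤ b) (hb : 0 ≤ b)
    (h3 : 2 * (Q.card : ℝ) * b ≤ w ^ 2) : (F.card : ℝ) * w ≤ 2 * Q.card := by
  obtain ⟨χ, hχ⟩ : ∃ χ : ι → α → ℝ, ∀ i x, χ i x = if x ∈ A i then 1 else 0 := ⟨_, fun _ _ => rfl⟩
  have e2 : ∀ i ∈ F, ∀ j, ∑ x ∈ Q, χ i x * χ j x = ((A i ∩ A j).card : ℝ) := by
    intro i hi j
    have h4 : A i ∩ A j = Q.filter fun x => x ∈ A i ∧ x ∈ A j := by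
      ext x
      simp only [Finset.mem_inter, Finset.mem_filter]
      exact ⟨fun h => ⟨hsub i hi h.1, h⟩, fun h => h.2⟩
    rw [h4, Finset.card_filter, Nat.cast_sum]
    refine Finset.sum_congr rfl fun x _ => ?_
    rw [hχ, hχ]
    by_cases a : x ∈ A i <;> by_cases c : x ∈ A j <;> simp [a, c]
  have e1 : ∀ i ∈ F, ∑ x ∈ Q, χ i x = ((A i).card : ℝ) := by
    intro i hi
    have h4 := e2 i hi i
    rw [Finset.inter_self] at h4
    rw [← h4]
    refine Finset.sum_congr rfl fun x _ => ?_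
    rw [hχ]
    split_ifs <;> simp
  obtain ⟨I, hI⟩ : ∃ I : ℝ, I = ∑ i ∈ F, ((A i).card : ℝ) := ⟨_, rfl⟩
  have hI1 : (F.card : ℝ) * w ≤ I := by
    rw [hI, ← nsmul_eq_mul]
    exact Finset.card_nsmul_le_sum F _ w h1
  have hI2 : ∑ x ∈ Q, ∑ i ∈ F, χ i x = I := by
    rw [Finset.sum_comm, hI]
    exact Finset.sum_congr rfl e1
  have hI3 : ∑ x ∈ Q, (∑ i ∈ F, χ i x) ^ 2 ≤ I + (F.card : ℝ) ^ 2 * b := by
    have h4 : ∑ x ∈ Q, (∑ i ∈ F, χ i x) ^ 2 = ∑ i ∈ F, ∑ j ∈ F, ((A i ∩ A j).card : ℝ) := by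
      simp only [sq, Finset.sum_mul_sum]
      rw [Finset.sum_comm]
      refine Finset.sum_congr rfl fun i hi => ?_
      rw [Finset.sum_comm]
      exact Finset.sum_congr rfl fun j _ => e2 i hi j
    have h5 : ∀ i ∈ F, ∑ j ∈ F, ((A i ∩ A j).card : ℝ) ≤ (A i).card + F.card * b := by
      intro i hi
      rw [← Finset.add_sum_erase F _ hi, Finset.inter_self]
      have h6 := Finset.sum_le_card_nsmul (F.erase i) (fun j => ((A i ∩ A j).card : ℝ)) b
        fun j hj => h2 i hi j (Finset.mem_of_mem_erase hj) (Finset.ne_of_mem_erase hj).symm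
      have h7 : ((F.erase i).card : ℝ) ≤ F.card := Nat.cast_le.2 Finset.card_erase_le
      rw [nsmul_eq_mul] at h6
      nlinarith
    rw [h4]
    refine (Finset.sum_le_sum h5).trans ?_
    rw [Finset.sum_add_distrib, ← hI, Finset.sum_const, nsmul_eq_mul]
    nlinarith
  have hI4 := sq_sum_le_card_mul_sum_sq (s := Q) (f := fun x => ∑ i ∈ F, χ i x)
  rw [hI2] at hI4
  by_contra hcon
  push Not at hcon
  have hQ : (0 : ℝ) ≤ Q.card := Nat.cast_nonneg _
  have hF : (0 : ℝ) ≤ F.card := Nat.cast_nonneg _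
  have hpos : 0 < I := by linarith
  have a1 : I ^ 2 ≤ Q.card * (I + (F.card : ℝ) ^ 2 * b) :=
    hI4.trans (mul_le_mul_of_nonneg_left hI3 hQ)
  have a2 : 2 * (Q.card : ℝ) * I < I ^ 2 := by nlinarith
  have a3 : 2 * (Q.card : ℝ) * b * (F.card : ℝ) ^ 2 ≤ w ^ 2 * (F.card : ℝ) ^ 2 :=
    mul_le_mul_of_nonneg_right h3 (sq_nonneg _)
  have a4 : ((F.card : ℝ) * w) ^ 2 ≤ I ^ 2 := pow_le_pow_left₀ (by positivity) hI1 2
  nlinarith

/-- planes with at least `w` points of `Q` when lines have at most `b` points -/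
theorem few_planes (Q : Finset V3) (F : Finset (Set V3)) (w b : ℝ) (hw : 0 < w) (hb : 0 ≤ b)
    (hF : ∀ A ∈ F, IsPlane A ∧ w ≤ cnt Q A) (hl : ∀ l, IsLine l → (cnt Q l : ℝ) ≤ b)
    (h3 : 2 * (Q.card : ℝ) * b ≤ w ^ 2) : (F.card : ℝ) * w ≤ 2 * Q.card := by
  refine few_big Q F (fun A => Q.filter (· ∈ A)) w b hw (fun A _ => Finset.filter_subset _ _)
    (fun A hA => (hF A hA).2) (fun A hA B hB hAB => ?_) hb h3
  obtain ⟨l, h1, h2⟩ := planes_inter (hF A hA).1 (hF B hB).1 hAB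
  refine le_trans (Nat.cast_le.2 (Finset.card_le_card fun x hx => ?_)) (hl l h1)
  simp only [Finset.mem_inter, Finset.mem_filter] at hx ⊢
  exact ⟨hx.1.1, h2 ⟨hx.1.2, hx.2.2⟩⟩

/-- Each plane through `p` contains at least `(w - 1) (w - (2 D + 1)) ≥ w² / 2` ordered pairs
`(q, q')` with `q ≠ p`, `q' ∉ ln p (q - p)`; such a pair lies in only one plane through `p`
(`planes_inter`, `IsLine.eq_ln`). -/
theorem planes_through {P : Finset V3} {D : ℕ} (hP : ND P D) (p : V3) (w : ℕ)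
    (hw : 4 * (2 * D + 1) ≤ w) (F : Finset (Set V3))
    (hF : ∀ A ∈ F, IsPlane A ∧ p ∈ A ∧ w ≤ cnt P A) :
    (F.card : ℝ) * (w : ℝ) ^ 2 ≤ 2 * (P.card : ℝ) ^ 2 := by
  obtain ⟨T, hT⟩ : ∃ T : Set V3 → Finset (V3 × V3), ∀ A, T A =
      (((P.filter (· ∈ A)).erase p) ×ˢ (P.filter (· ∈ A))).filter
        fun z => z.2 ∉ ln p (z.1 - p) := ⟨_, fun _ => rfl⟩
  have hmem : ∀ A z, z ∈ T A → z.1 ≠ p ∧ z.1 ∈ P ∧ z.1 ∈ A ∧ z.2 ∈ P ∧ z.2 ∈ A ∧
      z.2 ∉ ln p (z.1 - p) := by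
    intro A z hz
    simp only [hT, Finset.mem_filter, Finset.mem_product, Finset.mem_erase] at hz
    exact ⟨hz.1.1.1, hz.1.1.2.1, hz.1.1.2.2, hz.1.2.1, hz.1.2.2, hz.2⟩
  have hlow : ∀ A ∈ F, (w : ℝ) ^ 2 / 2 ≤ (T A).card := by
    intro A hA
    have hc : w ≤ (P.filter (· ∈ A)).card := (hF A hA).2.2
    have h1 : ∀ q ∈ (P.filter (· ∈ A)).erase p, w - (2 * D + 1) ≤
        ((P.filter (· ∈ A)).filter fun q' => q' ∉ ln p (q - p)).card := by
      intro q hq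
      have h2 := cnt_line_le hP (isLine_ln p (sub_ne_zero.2 (Finset.ne_of_mem_erase hq)))
      have h3 := Finset.card_filter_add_card_filter_not (s := P.filter (· ∈ A))
        (fun q' => q' ∈ ln p (q - p))
      have h4 : ((P.filter (· ∈ A)).filter fun q' => q' ∈ ln p (q - p)).card ≤
          cnt P (ln p (q - p)) :=
        Finset.card_le_card (Finset.filter_subset_filter _ (Finset.filter_subset _ _))
      omega
    have h5 : (T A).card = ∑ q ∈ (P.filter (· ∈ A)).erase p,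
        ((P.filter (· ∈ A)).filter fun q' => q' ∉ ln p (q - p)).card := by
      rw [hT, Finset.card_filter, Finset.sum_product]
      exact Finset.sum_congr rfl fun q _ => (Finset.card_filter _ _).symm
    have h6 := Finset.card_nsmul_le_sum _ _ _ h1
    rw [← h5, smul_eq_mul] at h6
    have h7 : w - 1 ≤ ((P.filter (· ∈ A)).erase p).card :=
      le_trans (Nat.sub_le_sub_right hc 1) Finset.pred_card_le_card_erase
    have h8 : (w - 1) * (w - (2 * D + 1)) ≤ (T A).card :=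
      le_trans (Nat.mul_le_mul_right _ h7) h6
    have h9 : (((w - 1) * (w - (2 * D + 1)) : ℕ) : ℝ) = ((w : ℝ) - 1) * (w - (2 * D + 1)) := by
      rw [Nat.cast_mul, Nat.cast_sub (by omega), Nat.cast_sub (by omega)]
      push_cast
      ring
    have h10 : ((w : ℝ) - 1) * (w - (2 * D + 1)) ≤ (T A).card := by
      rw [← h9]
      exact_mod_cast h8
    have hw' : 4 * (2 * (D : ℝ) + 1) ≤ w := by exact_mod_cast hw
    have hD : (0 : ℝ) ≤ D := Nat.cast_nonneg _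
    have b1 : 3 / 4 * (w : ℝ) ≤ w - 1 := by linarith
    have b2 : 3 / 4 * (w : ℝ) ≤ w - (2 * D + 1) := by linarith
    have b3 := mul_le_mul b1 b2 (by linarith) (by linarith)
    nlinarith
  have hdisj : (F : Set (Set V3)).PairwiseDisjoint T := by
    intro A hA B hB hAB
    refine Finset.disjoint_left.2 fun z h1 h2 => ?_
    obtain ⟨a1, -, a2, -, a3, a4⟩ := hmem A z h1
    obtain ⟨-, -, b2, -, b3, -⟩ := hmem B z h2
    obtain ⟨l, hl, hsub⟩ := planes_inter (hF A hA).1 (hF B hB).1 hAB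
    have h3 := hl.eq_ln (hsub ⟨(hF A hA).2.1, (hF B hB).2.1⟩) (hsub ⟨a2, b2⟩) a1
    exact a4 (h3 ▸ hsub ⟨a3, b3⟩)
  have h1 : (F.biUnion T).card ≤ (P ×ˢ P).card := by
    refine Finset.card_le_card fun z hz => ?_
    obtain ⟨A, -, h⟩ := Finset.mem_biUnion.1 hz
    obtain ⟨-, a1, -, a2, -, -⟩ := hmem A z h
    exact Finset.mem_product.2 ⟨a1, a2⟩
  rw [Finset.card_biUnion hdisj, Finset.card_product] at h1
  have h2 : ∑ A ∈ F, ((T A).card : ℝ) ≤ P.card * P.card := by exact_mod_cast h1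
  have h3 := Finset.card_nsmul_le_sum F _ _ hlow
  rw [nsmul_eq_mul] at h3
  nlinarith

end Crest.Agent.R65.D3
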