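import Crest.Agent.R65.D3Geo
import Crest.Agent.R65.D3Defs2

/-! Cliques lie in graph flats after a sign change. -/

set_option autoImplicit false

open Finset Matrix
open scoped Classical

namespace Crest.Agent.R65.D3

theorem isoA_dot {Q : Matrix (Fin 3) (Fin 3) ℝ} (hQ : Qᵀ * Q = 1) (x y : V3) :
    (Q *ᵥ x) ⬝ᵥ (Q *ᵥ y) = x ⬝ᵥ y := by
  rw [← Matrix.vecMul_transpose Q x, ← Matrix.dotProduct_mulVec, Matrix.mulVec_mulVec, hQ,
    Matrix.one_mulVec]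

/-- reflection in the hyperplane orthogonal to `n` -/
theorem isoA_refl {n : V3} (hn : n ≠ 0) : ∃ R : Matrix (Fin 3) (Fin 3) ℝ, Rᵀ * R = 1 ∧
    ∀ w : V3, R *ᵥ w = w - (2 / (n ⬝ᵥ n) * (n ⬝ᵥ w)) • n := by
  have hd : n ⬝ᵥ n ≠ 0 := fun e => hn (dotProduct_self_eq_zero.1 e)
  obtain ⟨c, hc⟩ : ∃ c : ℝ, c = 2 / (n ⬝ᵥ n) := ⟨_, rfl⟩
  have hc2 : c * (n ⬝ᵥ n) = 2 := by rw [hc]; field_simp
  rw [← hc]
  have hR : ∀ w : V3, (1 - c • Matrix.vecMulVec n n) *ᵥ w = w - (c * (n ⬝ᵥ w)) • n := by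
    intro w
    funext i
    simp only [Matrix.sub_mulVec, Matrix.one_mulVec, Matrix.smul_mulVec, Pi.sub_apply,
      Pi.smul_apply, smul_eq_mul]
    simp only [Matrix.mulVec, dotProduct, Matrix.vecMulVec_apply, Fin.sum_univ_three]
    ring
  refine ⟨1 - c • Matrix.vecMulVec n n, ?_, hR⟩
  have hT : (1 - c • Matrix.vecMulVec n n)ᵀ = 1 - c • Matrix.vecMulVec n n := by
    rw [Matrix.transpose_sub, Matrix.transpose_one, Matrix.transpose_smul,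
      Matrix.transpose_vecMulVec]
  rw [hT]
  refine Matrix.toLin'.injective (LinearMap.ext fun w => ?_)
  rw [Matrix.toLin'_apply, Matrix.toLin'_apply, ← Matrix.mulVec_mulVec, hR, hR, Matrix.one_mulVec,
    dotProduct_sub, dotProduct_smul, smul_eq_mul, sub_sub, ← add_smul]
  have : c * n ⬝ᵥ w + c * (n ⬝ᵥ w - c * n ⬝ᵥ w * n ⬝ᵥ n) = 0 := by
    linear_combination (-(c * n ⬝ᵥ w)) * hc2
  rw [this, zero_smul, sub_zero]

/-- two families with the same Gram matrix differ by an orthogonal matrix -/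
theorem isoA_gram (S : Finset Pt) (hS : ∀ x ∈ S, ∀ y ∈ S, x.1 ⬝ᵥ y.1 = x.2 ⬝ᵥ y.2) :
    ∃ Q : Matrix (Fin 3) (Fin 3) ℝ, Qᵀ * Q = 1 ∧ ∀ x ∈ S, x.2 = Q *ᵥ x.1 := by
  induction S using Finset.induction_on with
  | empty => exact ⟨1, by simp, by simp⟩
  | insert c S hc ih =>
    obtain ⟨Q, hQ, hq⟩ := ih fun x hx y hy =>
      hS x (mem_insert_of_mem hx) y (mem_insert_of_mem hy)
    by_cases h : Q *ᵥ c.1 - c.2 = 0
    · refine ⟨Q, hQ, fun x hx => ?_⟩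
      rcases mem_insert.1 hx with rfl | hx
      · exact (sub_eq_zero.1 h).symm
      · exact hq x hx
    obtain ⟨R, hR, hr⟩ := isoA_refl h
    refine ⟨R * Q, ?_, fun x hx => ?_⟩
    · rw [Matrix.transpose_mul, Matrix.mul_assoc, ← Matrix.mul_assoc Rᵀ, hR, Matrix.one_mul, hQ]
    · rw [← Matrix.mulVec_mulVec, hr]
      rcases mem_insert.1 hx with rfl | hx
      · have hd : (Q *ᵥ x.1 - x.2) ⬝ᵥ (Q *ᵥ x.1 - x.2) ≠ 0 :=
          fun e => h (dotProduct_self_eq_zero.1 e)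
        have h1 : (Q *ᵥ x.1) ⬝ᵥ (Q *ᵥ x.1) = x.2 ⬝ᵥ x.2 := by
          rw [isoA_dot hQ, hS x hx x hx]
        have h2 : (Q *ᵥ x.1 - x.2) ⬝ᵥ (Q *ᵥ x.1 - x.2) =
            2 * ((Q *ᵥ x.1 - x.2) ⬝ᵥ (Q *ᵥ x.1)) := by
          simp only [sub_dotProduct, dotProduct_sub]
          rw [dotProduct_comm (Q *ᵥ x.1) x.2]
          linarith
        have h3 : 2 / ((Q *ᵥ x.1 - x.2) ⬝ᵥ (Q *ᵥ x.1 - x.2)) *
            ((Q *ᵥ x.1 - x.2) ⬝ᵥ (Q *ᵥ x.1)) = 1 := by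
          rw [div_mul_eq_mul_div, ← h2, div_self hd]
        rw [h3, one_smul, sub_sub_cancel]
      · have h1 : (Q *ᵥ c.1 - c.2) ⬝ᵥ (Q *ᵥ x.1) = 0 := by
          rw [sub_dotProduct, isoA_dot hQ, ← hq x hx,
            hS c (mem_insert_self _ _) x (mem_insert_of_mem hx), sub_self]
        rw [h1, mul_zero, zero_smul, sub_zero]
        exact hq x hx

/-- A partial isometry extends.  Fix `a ∈ T`; by polarisation the differences `v_b = b.1 - a.1`,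
`v'_b = b.2 - a.2` have the same Gram matrix; define the linear isometry on the span (in
`EuclideanSpace ℝ (Fin 3)`), e.g. as follows: the span `W` of the pairs `(v_b, v'_b)` satisfies
`‖w.1‖ = ‖w.2‖`, so `fst` is injective on `W`; then `LinearIsometry.extend`. -/
theorem clq_extend (T : Finset Pt) (hT : Clq T) : ∃ Q : Matrix (Fin 3) (Fin 3) ℝ,
    Qᵀ * Q = 1 ∧ ∀ a ∈ T, ∀ b ∈ T, a.2 - b.2 = Q *ᵥ (a.1 - b.1) := by
  rcases T.eq_empty_or_nonempty with rfl | ⟨o, ho⟩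
  · exact ⟨1, by simp, by simp⟩
  obtain ⟨Q, hQ, hq⟩ := isoA_gram (T.image fun a => (a.1 - o.1, a.2 - o.2)) (by
    intro x hx y hy
    obtain ⟨a, ha, rfl⟩ := mem_image.1 hx
    obtain ⟨b, hb, rfl⟩ := mem_image.1 hy
    have h1 := hT a ha o ho
    have h2 := hT b hb o ho
    have h3 := hT a ha b hb
    simp only [dotProduct, Fin.sum_univ_three, Pi.sub_apply] at h1 h2 h3 ⊢
    linarith)
  refine ⟨Q, hQ, fun a ha b hb => ?_⟩
  have h1 : a.2 - o.2 = Q *ᵥ (a.1 - o.1) := hq _ (mem_image_of_mem _ ha)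
  have h2 : b.2 - o.2 = Q *ᵥ (b.1 - o.1) := hq _ (mem_image_of_mem _ hb)
  have e1 : a.2 - b.2 = (a.2 - o.2) - (b.2 - o.2) := by abel
  have e2 : a.1 - b.1 = (a.1 - o.1) - (b.1 - o.1) := by abel
  rw [e1, e2, Matrix.mulVec_sub Q (a.1 - o.1), h1, h2]

/-- `∑_ε det (1 + diagonal ε * Q) = 8` over the eight sign vectors (expand `det_fin_three`) -/
theorem exists_sign (Q : Matrix (Fin 3) (Fin 3) ℝ) : ∃ ε : Fin 3 → Bool,
    (1 + Matrix.diagonal (fun i => if ε i then (1 : ℝ) else -1) * Q).det ≠ 0 := by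
  have key : ∀ e : Fin 3 → ℝ, (1 + Matrix.diagonal e * Q).det =
      (1 + e 0 * Q 0 0) * (1 + e 1 * Q 1 1) * (1 + e 2 * Q 2 2)
        - (1 + e 0 * Q 0 0) * (e 1 * Q 1 2) * (e 2 * Q 2 1)
        - (e 0 * Q 0 1) * (e 1 * Q 1 0) * (1 + e 2 * Q 2 2)
        + (e 0 * Q 0 1) * (e 1 * Q 1 2) * (e 2 * Q 2 0)
        + (e 0 * Q 0 2) * (e 1 * Q 1 0) * (e 2 * Q 2 1)
        - (e 0 * Q 0 2) * (1 + e 1 * Q 1 1) * (e 2 * Q 2 0) := by
    intro e
    rw [Matrix.det_fin_three]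
    simp [Matrix.add_apply, Matrix.diagonal_mul]
  by_contra hc
  push Not at hc
  have h1 := hc ![true, true, true]
  have h2 := hc ![true, true, false]
  have h3 := hc ![true, false, true]
  have h4 := hc ![true, false, false]
  have h5 := hc ![false, true, true]
  have h6 := hc ![false, true, false]
  have h7 := hc ![false, false, true]
  have h8 := hc ![false, false, false]
  rw [key] at h1 h2 h3 h4 h5 h6 h7 h8
  simp only [Matrix.cons_val_zero, Matrix.cons_val_one, Matrix.cons_val_two, Matrix.head_cons,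
    Matrix.tail_cons, if_true, Bool.false_eq_true, if_false] at h1 h2 h3 h4 h5 h6 h7 h8
  linarith

/-- Cayley: `A = (1 - U) (1 + U)⁻¹` is skew for orthogonal `U` with `det (1 + U) ≠ 0`
(`(1 + U)ᵀ (1 - U) + (1 - U)ᵀ (1 + U) = 0`); `s = ![A 2 1, A 0 2, A 1 0]`. -/
theorem cayley (U : Matrix (Fin 3) (Fin 3) ℝ) (hU : Uᵀ * U = 1) (hd : (1 + U).det ≠ 0) :
    ∃ s : V3, ∀ v : V3, v - U *ᵥ v = s ⨯₃ (v + U *ᵥ v) := by
  have hu : IsUnit (1 + U).det := isUnit_iff_ne_zero.2 hd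
  have h1 : (1 + U)⁻¹ * (1 + U) = 1 := Matrix.nonsing_inv_mul _ hu
  have h2 : (1 + U) * (1 + U)⁻¹ = 1 := Matrix.mul_nonsing_inv _ hu
  have h3 : ((1 + U)⁻¹)ᵀ * (1 + U)ᵀ = 1 := by rw [← Matrix.transpose_mul, h2, Matrix.transpose_one]
  have h4 : (1 + U)ᵀ * (1 - U) + (1 - U)ᵀ * (1 + U) = 0 := by
    simp only [Matrix.transpose_add, Matrix.transpose_sub, Matrix.transpose_one, Matrix.add_mul,
      Matrix.sub_mul, Matrix.mul_add, Matrix.mul_sub, Matrix.one_mul, Matrix.mul_one, hU]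
    abel
  set A := (1 - U) * (1 + U)⁻¹ with hA
  have h5 : A + Aᵀ = 0 := by
    have e : A + Aᵀ = ((1 + U)⁻¹)ᵀ * ((1 + U)ᵀ * (1 - U) + (1 - U)ᵀ * (1 + U)) * (1 + U)⁻¹ := by
      rw [Matrix.mul_add, Matrix.add_mul, ← Matrix.mul_assoc, h3, Matrix.one_mul,
        Matrix.mul_assoc, Matrix.mul_assoc, h2, Matrix.mul_one, hA, Matrix.transpose_mul]
    rw [e, h4, Matrix.mul_zero, Matrix.zero_mul]
  have h6 : ∀ i j, A i j + A j i = 0 := fun i j => by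
    simpa using congrFun (congrFun h5 i) j
  refine ⟨![A 2 1, A 0 2, A 1 0], fun v => ?_⟩
  have h7 : v - U *ᵥ v = A *ᵥ (v + U *ᵥ v) := by
    have e1 : v + U *ᵥ v = (1 + U) *ᵥ v := by rw [Matrix.add_mulVec, Matrix.one_mulVec]
    rw [e1, Matrix.mulVec_mulVec, hA, Matrix.mul_assoc, h1, Matrix.mul_one, Matrix.sub_mulVec,
      Matrix.one_mulVec]
  rw [h7]
  generalize v + U *ᵥ v = w
  have a0 : A 0 0 = 0 := by linarith [h6 0 0]
  have a1 : A 1 1 = 0 := by linarith [h6 1 1]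
  have a2 : A 2 2 = 0 := by linarith [h6 2 2]
  have b0 : A 0 1 = -A 1 0 := by linarith [h6 0 1]
  have b1 : A 1 2 = -A 2 1 := by linarith [h6 1 2]
  have b2 : A 2 0 = -A 0 2 := by linarith [h6 2 0]
  funext i
  fin_cases i <;>
    simp [Matrix.mulVec, dotProduct, Fin.sum_univ_three, cross_apply, a0, a1, a2, b0, b1, b2] <;>
    ring

/-- coordinatewise sign change -/
def sgn (ε : Fin 3 → Bool) (v : V3) : V3 := fun i => if ε i then v i else -v i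

theorem iso_sgn_eq (ε : Fin 3 → Bool) (v : V3) :
    sgn ε v = Matrix.diagonal (fun i => if ε i then (1 : ℝ) else -1) *ᵥ v := by
  funext i
  rw [Matrix.mulVec_diagonal, sgn]
  split_ifs <;> simp

theorem iso_sgn_sub (ε : Fin 3 → Bool) (v w : V3) : sgn ε v - sgn ε w = sgn ε (v - w) := by
  rw [iso_sgn_eq, iso_sgn_eq, iso_sgn_eq, Matrix.mulVec_sub]

theorem iso_sgn_sgn (ε : Fin 3 → Bool) (v : V3) : sgn ε (sgn ε v) = v := by
  funext i
  simp only [sgn]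
  split_ifs <;> simp

theorem iso_sgn_inj (ε : Fin 3 → Bool) : Function.Injective (sgn ε) :=
  Function.LeftInverse.injective (iso_sgn_sgn ε)

theorem iso_sgn_dot (ε : Fin 3 → Bool) (v : V3) : sgn ε v ⬝ᵥ sgn ε v = v ⬝ᵥ v := by
  refine Finset.sum_congr rfl fun i _ => ?_
  simp only [sgn]
  split_ifs <;> simp

theorem iso_nd {P : Finset V3} {D : ℕ} (h : ND P D) (ε : Fin 3 → Bool) :
    ND (P.image (sgn ε)) D := by
  obtain ⟨T, hT, h⟩ := h
  refine ⟨T, hT, fun p hp q hq hpq => ?_⟩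
  obtain ⟨p', hp', rfl⟩ := Finset.mem_image.1 hp
  obtain ⟨q', hq', rfl⟩ := Finset.mem_image.1 hq
  rw [iso_sgn_sub, iso_sgn_dot]
  exact h p' hp' q' hq' fun e => hpq (by rw [e])

theorem clq_on (T : Finset Pt) (hT : Clq T) :
    ∃ (ε : Fin 3 → Bool) (g : Pt), ∀ a ∈ T, On g (a.1, sgn ε a.2) := by
  rcases T.eq_empty_or_nonempty with rfl | ⟨b, hb⟩
  · exact ⟨fun _ => true, 0, by simp⟩
  obtain ⟨Q, hQ, hq⟩ := clq_extend T hT
  obtain ⟨ε, hε⟩ := exists_sign Q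
  set S : Matrix (Fin 3) (Fin 3) ℝ := Matrix.diagonal (fun i => if ε i then (1 : ℝ) else -1) with hS
  have hSS : Sᵀ * S = 1 := by
    rw [hS, Matrix.diagonal_transpose, Matrix.diagonal_mul_diagonal, ← Matrix.diagonal_one]
    congr 1
    funext i
    split_ifs <;> simp
  have hU : (S * Q)ᵀ * (S * Q) = 1 := by
    rw [Matrix.transpose_mul, Matrix.mul_assoc, ← Matrix.mul_assoc Sᵀ, hSS, Matrix.one_mul, hQ]
  obtain ⟨s, hs⟩ := cayley (S * Q) hU hε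
  refine ⟨ε, (s, (b.1 - sgn ε b.2) - s ⨯₃ (b.1 + sgn ε b.2)), fun a ha => ?_⟩
  have h1 : sgn ε a.2 - sgn ε b.2 = (S * Q) *ᵥ (a.1 - b.1) := by
    rw [iso_sgn_sub, iso_sgn_eq, hq a ha b hb, Matrix.mulVec_mulVec]
  have h2 := hs (a.1 - b.1)
  rw [← h1] at h2
  have h3 : a.1 - b.1 + (sgn ε a.2 - sgn ε b.2) = (a.1 + sgn ε a.2) - (b.1 + sgn ε b.2) := by abel
  rw [h3, map_sub] at h2
  show a.1 - sgn ε a.2 = s ⨯₃ (a.1 + sgn ε a.2) + ((b.1 - sgn ε b.2) - s ⨯₃ (b.1 + sgn ε b.2))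
  linear_combination h2

/-- pairs of points on a common rich flat -/
theorem iso_count (P₁ P₂ : Finset V3) (φ : Pt → Pt) (hφ : Function.Injective φ) (ρ B : ℝ)
    (h : ∀ G : Finset Pt, (∀ g ∈ G, ρ ≤ (mt P₁ P₂ g).card) →
      ∑ g ∈ G, ((mt P₁ P₂ g).card : ℝ) ^ 2 ≤ B) (S : Finset (Pt × Pt))
    (hS : ∀ xy ∈ S, ∃ g, φ xy.1 ∈ mt P₁ P₂ g ∧ φ xy.2 ∈ mt P₁ P₂ g ∧ ρ ≤ (mt P₁ P₂ g).card) :
    (S.card : ℝ) ≤ B := by
  choose! γ hγ using hS
  refine le_trans ?_ (h (S.image γ) fun g hg => ?_)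
  · have h1 : S.card ≤ ((S.image γ).biUnion fun g => mt P₁ P₂ g ×ˢ mt P₁ P₂ g).card := by
      refine Finset.card_le_card_of_injOn (fun xy => (φ xy.1, φ xy.2)) (fun xy hxy => ?_) ?_
      · exact Finset.mem_coe.2 (Finset.mem_biUnion.2 ⟨γ xy, Finset.mem_image_of_mem _ hxy,
          Finset.mem_product.2 ⟨(hγ xy hxy).1, (hγ xy hxy).2.1⟩⟩)
      · intro x _ y _ e
        simp only [Prod.mk.injEq] at e
        exact Prod.ext (hφ e.1) (hφ e.2)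
    have h2 := h1.trans Finset.card_biUnion_le
    simp only [Finset.card_product] at h2
    have h3 : (S.card : ℝ) ≤ ((∑ g ∈ S.image γ, (mt P₁ P₂ g).card * (mt P₁ P₂ g).card : ℕ) : ℝ) := by
      exact_mod_cast h2
    refine h3.trans (le_of_eq ?_)
    push_cast
    exact Finset.sum_congr rfl fun g _ => (sq _).symm
  · obtain ⟨xy, hxy, rfl⟩ := Finset.mem_image.1 hg
    exact (hγ xy hxy).2.2

/-- Apply `RIStmt` with `η / 8` to `P₁` and `P₂.image (sgn ε)` for each of the eight `ε` (`sgn ε` is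
an injective isometry).  For each counted pair choose `T, ε, g` (`clq_on`); for fixed `ε` let `G` be
the finite set of chosen `g`; the pairs inject into `⋃_{g ∈ G} mt g ×ˢ mt g`. -/
theorem ricl_of_ri (h : RIStmt) : RIClStmt := by
  intro η κ hη hκ
  obtain ⟨μ₀, h⟩ := h (η / 8) κ (by positivity) hκ
  refine ⟨μ₀, fun μ hμ => ?_⟩
  obtain ⟨D₀, h⟩ := h μ hμ
  refine ⟨D₀, fun D hD n P₁ P₂ h1 h2 c1 c2 n1 n2 => ?_⟩
  set S := ((P₁ ×ˢ P₂) ×ˢ (P₁ ×ˢ P₂)).filter fun xy => ∃ T : Finset Pt, T ⊆ P₁ ×ˢ P₂ ∧ xy.1 ∈ T ∧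
      xy.2 ∈ T ∧ Clq T ∧ κ * μ ^ ((2 : ℝ) / 3) * D ≤ T.card with hS
  let φ : (Fin 3 → Bool) → Pt → Pt := fun ε a => (a.1, sgn ε a.2)
  have hφ : ∀ ε, Function.Injective (φ ε) := fun ε x y e => by
    simp only [φ, Prod.mk.injEq] at e
    exact Prod.ext e.1 (iso_sgn_inj ε e.2)
  let Sε : (Fin 3 → Bool) → Finset (Pt × Pt) := fun ε => S.filter fun xy => ∃ g,
    φ ε xy.1 ∈ mt P₁ (P₂.image (sgn ε)) g ∧ φ ε xy.2 ∈ mt P₁ (P₂.image (sgn ε)) g ∧
      κ * μ ^ ((2 : ℝ) / 3) * D ≤ (mt P₁ (P₂.image (sgn ε)) g).card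
  have hε : ∀ ε, ((Sε ε).card : ℝ) ≤ η / 8 * (n : ℝ) ^ 4 / D := fun ε =>
    iso_count P₁ (P₂.image (sgn ε)) (φ ε) (hφ ε) _ _
      (h D hD n P₁ _ h1 (iso_nd h2 ε) c1 (Finset.card_image_le.trans c2) n1 n2) (Sε ε)
      fun xy hxy => (Finset.mem_filter.1 hxy).2
  have hsub : S ⊆ Finset.univ.biUnion Sε := by
    intro xy hxy
    obtain ⟨T, hT, hx, hy, hc, hr⟩ := (Finset.mem_filter.1 hxy).2
    obtain ⟨ε, g, hg⟩ := clq_on T hc
    have hm : ∀ a ∈ T, φ ε a ∈ mt P₁ (P₂.image (sgn ε)) g := fun a ha => by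
      have := Finset.mem_product.1 (hT ha)
      exact Finset.mem_filter.2 ⟨Finset.mem_product.2 ⟨this.1, Finset.mem_image_of_mem _ this.2⟩,
        hg a ha⟩
    refine Finset.mem_biUnion.2 ⟨ε, Finset.mem_univ _, Finset.mem_filter.2
      ⟨hxy, g, hm _ hx, hm _ hy, hr.trans ?_⟩⟩
    exact_mod_cast Finset.card_le_card_of_injOn (φ ε) (fun a ha => hm a ha) (hφ ε).injOn
  have h3 : (S.card : ℝ) ≤ ∑ ε, ((Sε ε).card : ℝ) := by
    exact_mod_cast (Finset.card_le_card hsub).trans Finset.card_biUnion_le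
  refine h3.trans ((Finset.sum_le_sum fun ε _ => hε ε).trans (le_of_eq ?_))
  simp only [Finset.sum_const, Finset.card_univ, Fintype.card_pi, Fintype.card_bool,
    Finset.prod_const, Fintype.card_fin, nsmul_eq_mul]
  push_cast
  ring

end Crest.Agent.R65.D3
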