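import Crest.Agent.R65.D3Defs2

/-! Numerical verification of the step hypotheses. -/

set_option autoImplicit false

open Finset Matrix
open scoped Classical

namespace Crest.Agent.R65.D3

/-- the basic parameter inequalities (`y = r / D`) -/
structure Bas (μ q σ : ℝ) (D n r : ℕ) : Prop where
  hμ : 1 ≤ μ
  hq : 1 ≤ q
  hD : 2 * μ ≤ D
  lo : μ * (D : ℝ) ^ 3 ≤ (n : ℝ) ^ 2
  hi : (n : ℝ) ^ 2 ≤ 2 * μ * (D : ℝ) ^ 3
  hr : q ^ 20 * D ≤ r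
  hrn : r ≤ n
  hμr : μ ^ 2 * (D : ℝ) ^ 3 ≤ (r : ℝ) ^ 3 * q ^ 5
  hσ0 : 0 ≤ σ
  hσ : σ * r * q ^ 14 ≤ (D : ℝ) ^ 2

noncomputable def kk (q : ℝ) (D r : ℕ) : ℕ := ⌈(r : ℝ) / (D * q ^ 2)⌉₊
noncomputable def ww (q : ℝ) (r : ℕ) : ℕ := ⌈(r : ℝ) / q ^ 6⌉₊
noncomputable def ee (q N : ℝ) (D r : ℕ) : ℕ := ⌊2560000 * (kk q D r : ℝ) * N / (r : ℝ) ^ 2⌋₊ + 1
noncomputable def tt (q : ℝ) (D n r : ℕ) : ℝ := (n : ℝ) ^ 2 / (64 * D * r * q)
noncomputable def LL (CL q : ℝ) (D r : ℕ) : ℝ :=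
  64 * CL * ((r : ℝ) / (kk q D r : ℝ) ^ 3 + (ww q r : ℝ) / (kk q D r : ℝ) ^ 2 + kk q D r)

/-- With `y = r / D ≥ q²⁰`, `a = D / (y q) = D² / (r q)`, `b = μ a / q`:
`tt ≥ μ a / 64 = q b / 64`; `y / q² ≤ kk ≤ 2 y / q²`; `r / q⁶ ≤ ww ≤ 2 r / q⁶`;
`r / kk³ ≤ b`, `ww / kk² ≤ 2 b`; `y² ≤ n² / D² ≤ 2 μ D` gives `kk ≤ 4 b` and `1 ≤ b`;
`ee ≤ 10240001 b`; `σ ≤ a / q¹³`; `μ² ≤ y³ q⁵ ≤ y⁴` gives `μ ≤ y²` and `b ≤ r / q²`. -/
theorem num_bounds {μ q σ N : ℝ} {D n r : ℕ} (h : Bas μ q σ D n r) (hq : 2 ≤ q) (hN : 0 < N)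
    (hNn : N ≤ (n : ℝ) ^ 2) :
    ∃ b : ℝ, 1 ≤ b ∧ q * b ≤ 64 * tt q D n r ∧ 2 ≤ kk q D r ∧
      (r : ℝ) / (kk q D r : ℝ) ^ 3 ≤ b ∧ (ww q r : ℝ) / (kk q D r : ℝ) ^ 2 ≤ 2 * b ∧
      (kk q D r : ℝ) ≤ 4 * b ∧ (ee q N D r : ℝ) ≤ 10240001 * b ∧ σ * q ^ 12 ≤ b ∧
      b * q ^ 2 ≤ r := by
  obtain ⟨hμ, -, hD, lo, hi, hr, hrn, hμr, hσ0, hσ⟩ := h
  have hq1 : 1 ≤ q := by linarith
  have hq0 : 0 < q := by linarith
  have hμ0 : 0 < μ := by linarith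
  have hD2 : (2 : ℝ) ≤ D := by linarith
  have hD0 : (0 : ℝ) < D := by linarith
  have hpw : ∀ i j : ℕ, i ≤ j → q ^ i ≤ q ^ j := fun i j hij => pow_le_pow_right₀ hq1 hij
  obtain ⟨y, hy⟩ : ∃ y : ℝ, (r : ℝ) = y * D := ⟨r / D, by field_simp⟩
  have hy1 : q ^ 20 ≤ y := by
    rw [hy] at hr
    exact le_of_mul_le_mul_right hr hD0
  have hy0 : 0 < y := lt_of_lt_of_le (by positivity) hy1
  have hr0 : (0 : ℝ) < r := by rw [hy]; positivity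
  have hy2 : y ^ 2 ≤ 2 * μ * D := by
    have h1 : (r : ℝ) ≤ n := by exact_mod_cast hrn
    have h2 : (r : ℝ) ^ 2 ≤ (n : ℝ) ^ 2 := by gcongr
    rw [hy] at h2
    refine le_of_mul_le_mul_right ?_ (show (0 : ℝ) < (D : ℝ) ^ 2 by positivity)
    calc y ^ 2 * (D : ℝ) ^ 2 = (y * D) ^ 2 := by ring
      _ ≤ 2 * μ * (D : ℝ) ^ 3 := h2.trans hi
      _ = 2 * μ * D * (D : ℝ) ^ 2 := by ring
  have hμy : μ ≤ y ^ 2 := by
    have h1 : μ ^ 2 ≤ y ^ 3 * q ^ 5 := by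
      refine le_of_mul_le_mul_right ?_ (show (0 : ℝ) < (D : ℝ) ^ 3 by positivity)
      calc μ ^ 2 * (D : ℝ) ^ 3 ≤ (r : ℝ) ^ 3 * q ^ 5 := hμr
        _ = y ^ 3 * q ^ 5 * (D : ℝ) ^ 3 := by rw [hy]; ring
    have h2 : q ^ 5 ≤ y := (hpw 5 20 (by norm_num)).trans hy1
    have h3 : μ ^ 2 ≤ (y ^ 2) ^ 2 := by
      calc μ ^ 2 ≤ y ^ 3 * q ^ 5 := h1
        _ ≤ y ^ 3 * y := by gcongr
        _ = (y ^ 2) ^ 2 := by ring
    exact (pow_le_pow_iff_left₀ hμ0.le (by positivity) two_ne_zero).1 h3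
  -- `z = y / q²`
  obtain ⟨z, hz⟩ : ∃ z : ℝ, y = z * q ^ 2 := ⟨y / q ^ 2, by field_simp⟩
  have hz1 : q ^ 18 ≤ z := by
    refine le_of_mul_le_mul_right ?_ (show (0 : ℝ) < q ^ 2 by positivity)
    calc q ^ 18 * q ^ 2 = q ^ 20 := by ring
      _ ≤ z * q ^ 2 := hz ▸ hy1
  have hz2 : 2 ≤ z := by
    have := hpw 1 18 (by norm_num)
    rw [pow_one] at this
    linarith
  have hz0 : 0 < z := by linarith
  have hkz : (r : ℝ) / (D * q ^ 2) = z := by rw [hy, hz]; field_simp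
  have hk1 : z ≤ kk q D r := by unfold kk; rw [hkz]; exact Nat.le_ceil z
  have hk2 : (kk q D r : ℝ) ≤ 2 * z := by
    unfold kk
    rw [hkz]
    linarith [Nat.ceil_lt_add_one hz0.le]
  have hk0 : (0 : ℝ) < kk q D r := by linarith
  have hw2 : (ww q r : ℝ) ≤ 2 * (r / q ^ 6) := by
    have h1 : 1 ≤ (r : ℝ) / q ^ 6 := by
      rw [le_div_iff₀ (by positivity), one_mul]
      have := hpw 6 20 (by norm_num)
      nlinarith [pow_pos hq0 20]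
    unfold ww
    linarith [Nat.ceil_lt_add_one (show 0 ≤ (r : ℝ) / q ^ 6 by positivity)]
  obtain ⟨b, hb⟩ : ∃ b : ℝ, b = μ * D / (y * q ^ 2) := ⟨_, rfl⟩
  have hzb : z ≤ 2 * b := by
    rw [hb, mul_div_assoc', le_div_iff₀ (by positivity)]
    calc z * (y * q ^ 2) = y ^ 2 := by rw [sq y]; nth_rewrite 2 [hz]; ring
      _ ≤ 2 * (μ * D) := by linarith
  have hb1 : 1 ≤ b := by linarith
  have hb2 : D / (y * q ^ 2) ≤ b := by
    rw [hb]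
    gcongr
    nlinarith
  refine ⟨b, hb1, ?_, ?_, ?_, ?_, by linarith, ?_, ?_, ?_⟩
  · calc q * b = μ * (D : ℝ) ^ 3 / (D * r * q) := by rw [hb, hy]; field_simp
      _ ≤ (n : ℝ) ^ 2 / (D * r * q) := by gcongr
      _ = 64 * tt q D n r := by unfold tt; field_simp
  · have : (2 : ℝ) ≤ kk q D r := by linarith
    exact_mod_cast this
  · refine le_trans ?_ hb2
    calc (r : ℝ) / (kk q D r : ℝ) ^ 3 ≤ r / z ^ 3 := by gcongr
      _ = D / (y * q ^ 2) * (q ^ 6 / z) := by rw [hy, hz]; field_simp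
      _ ≤ D / (y * q ^ 2) * 1 := by
          gcongr
          rw [div_le_one hz0]
          exact (hpw 6 18 (by norm_num)).trans hz1
      _ = D / (y * q ^ 2) := mul_one _
  · calc (ww q r : ℝ) / (kk q D r : ℝ) ^ 2 ≤ 2 * (r / q ^ 6) / z ^ 2 := by gcongr
      _ = 2 * (D / (y * q ^ 2)) := by rw [hy, hz]; field_simp
      _ ≤ 2 * b := by linarith
  · have h1 : (ee q N D r : ℝ) ≤ 2560000 * (kk q D r : ℝ) * N / (r : ℝ) ^ 2 + 1 := by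
      unfold ee
      push_cast
      linarith [Nat.floor_le
        (show 0 ≤ 2560000 * (kk q D r : ℝ) * N / (r : ℝ) ^ 2 by positivity)]
    have h2 : 2560000 * (kk q D r : ℝ) * N / (r : ℝ) ^ 2 ≤ 10240000 * b := by
      calc 2560000 * (kk q D r : ℝ) * N / (r : ℝ) ^ 2
          ≤ 2560000 * (2 * z) * (2 * μ * (D : ℝ) ^ 3) / (r : ℝ) ^ 2 := by
            gcongr
            exact hNn.trans hi
        _ = 10240000 * b := by rw [hb, hy, hz]; field_simp; norm_num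
    linarith
  · refine le_trans ?_ hb2
    rw [le_div_iff₀ (by positivity)]
    refine le_of_mul_le_mul_right ?_ hD0
    calc σ * q ^ 12 * (y * q ^ 2) * D = σ * r * q ^ 14 := by rw [hy]; ring
      _ ≤ (D : ℝ) ^ 2 := hσ
      _ = D * D := sq _
  · calc b * q ^ 2 = μ * D / y := by rw [hb]; field_simp
      _ ≤ y ^ 2 * D / y := by gcongr
      _ = r := by rw [hy]; field_simp

theorem ww_lo {q : ℝ} (hq : 0 < q) (r : ℕ) : (r : ℝ) ≤ q ^ 6 * ww q r := by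
  have h := Nat.le_ceil ((r : ℝ) / q ^ 6)
  rw [div_le_iff₀ (by positivity)] at h
  unfold ww
  linarith

/-- From `num_bounds`; `hw`, `hw2`, `hs`, `hpl` directly from `r / q⁶ ≤ ww` and `r ≥ q²⁰ D`
(`hpl`: `64 q⁶ n² ≤ n² / (64 D r q) · r² / q¹²` iff `4096 q¹⁹ D ≤ r`). -/
theorem num_step {CB CL μ q σ N : ℝ} {D n r : ℕ} (hCB : 1 ≤ CB) (hCL : 1 ≤ CL)
    (h : Bas μ q σ D n r) (hq : 10 ^ 14 * CB * CL ≤ q) (hN : 0 < N) (hNn : N ≤ (n : ℝ) ^ 2) :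
    StepHyp CB CL D n r (kk q D r) (ww q r) (ee q N D r) ⌈1024 * CB⌉₊ σ (tt q D n r) N
      (2 * q ^ 6) (LL CL q D r) ∧ 5 * (ee q N D r : ℝ) ≤ tt q D n r := by
  have hCC : 1 ≤ CB * CL := one_le_mul_of_one_le_of_one_le hCB hCL
  have hqB : 10 ^ 14 * CB ≤ q := by nlinarith
  have hq14 : (10 : ℝ) ^ 14 ≤ q := by nlinarith
  have hq2 : 2 ≤ q := by linarith
  have hq1 : 1 ≤ q := by linarith
  have hq0 : 0 < q := by linarith
  obtain ⟨b, hb1, hbt, hk2, hb3, hb4, hb5, hb6, hb7, hb8⟩ := num_bounds h hq2 hN hNn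
  obtain ⟨hμ, -, hD, lo, hi, hr, hrn, hμr, hσ0, hσ⟩ := h
  have hb0 : 0 < b := by linarith
  have hD2 : (2 : ℝ) ≤ D := by linarith
  have hD0 : (0 : ℝ) < D := by linarith
  have hpw : ∀ i j : ℕ, i ≤ j → q ^ i ≤ q ^ j := fun i j hij => pow_le_pow_right₀ hq1 hij
  have hq' : ∀ j : ℕ, 1 ≤ j → q ≤ q ^ j := fun j hj => by simpa using hpw 1 j hj
  have hr0 : (0 : ℝ) < r := lt_of_lt_of_le (by positivity) hr
  have hw := ww_lo hq0 r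
  have hw1 : q ^ 14 * D ≤ ww q r := by
    refine le_of_mul_le_mul_left ?_ (show (0 : ℝ) < q ^ 6 by positivity)
    calc q ^ 6 * (q ^ 14 * D) = q ^ 20 * D := by ring
      _ ≤ q ^ 6 * ww q r := hr.trans hw
  have hw0 : (0 : ℝ) ≤ ww q r := Nat.cast_nonneg _
  have hwsq : r * (q ^ 8 * D) ≤ (ww q r : ℝ) ^ 2 := by
    refine le_of_mul_le_mul_left ?_ (show (0 : ℝ) < q ^ 6 by positivity)
    calc q ^ 6 * (r * (q ^ 8 * D)) = r * (q ^ 14 * D) := by ring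
      _ ≤ (q ^ 6 * ww q r) * ww q r := by gcongr
      _ = q ^ 6 * (ww q r : ℝ) ^ 2 := by ring
  have hqb : 10 ^ 14 * (CB * CL * b) ≤ 64 * tt q D n r := by
    calc 10 ^ 14 * (CB * CL * b) = 10 ^ 14 * CB * CL * b := by ring
      _ ≤ q * b := by gcongr
      _ ≤ _ := hbt
  have hbb : b ≤ CB * CL * b := by nlinarith
  have hBb : CB * b ≤ CB * CL * b := by
    have : 0 ≤ CB * b := by positivity
    nlinarith
  have hσb : σ ≤ b := by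
    have : 1 ≤ q ^ 12 := one_le_pow₀ hq1
    nlinarith
  have hk0 : (0 : ℝ) < kk q D r := by
    have : (2 : ℝ) ≤ kk q D r := by exact_mod_cast hk2
    linarith
  have hJ1 : 1024 * CB ≤ (⌈1024 * CB⌉₊ : ℕ) := Nat.le_ceil _
  have hJ2 : ((⌈1024 * CB⌉₊ : ℕ) : ℝ) ≤ 1025 * CB := by
    linarith [Nat.ceil_lt_add_one (show 0 ≤ 1024 * CB by positivity)]
  have hL : LL CL q D r ≤ 448 * (CL * b) := by
    unfold LL
    calc 64 * CL * ((r : ℝ) / (kk q D r : ℝ) ^ 3 + (ww q r : ℝ) / (kk q D r : ℝ) ^ 2 + kk q D r)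
        ≤ 64 * CL * (b + 2 * b + 4 * b) := by gcongr
      _ = 448 * (CL * b) := by ring
  have hL0 : 0 < LL CL q D r := by unfold LL; positivity
  refine ⟨⟨hk2, ?_, hJ1, hσ0, ?_, ?_, ?_, ?_, by positivity, by linarith, ?_, le_rfl, hL0, ?_, ?_,
    hN, ?_⟩, by linarith⟩
  · have : (2 : ℝ) ≤ (⌈1024 * CB⌉₊ : ℕ) := by linarith
    exact_mod_cast this
  · have : CB * σ ≤ CB * b := by gcongr
    linarith
  · have : 128 * (2 * q ^ 6) ^ 2 * σ = 512 * (σ * q ^ 12) := by ring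
    rw [this]
    linarith
  · have h1 : q * D ≤ q ^ 14 * D := by gcongr; exact hq' 14 (by norm_num)
    have h2 : 12 * (D : ℝ) ≤ q * D := by gcongr; linarith
    have h3 : 4 * (2 * (D : ℝ) + 1) ≤ ww q r := by linarith
    exact_mod_cast h3
  · have h1 : q * D ≤ q ^ 8 * D := by gcongr; exact hq' 8 (by norm_num)
    have h2 : 6 * (D : ℝ) ≤ q * D := by gcongr; linarith
    have h3 : (r : ℝ) * (2 * (2 * D + 1)) ≤ r * (q ^ 8 * D) :=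
      mul_le_mul_of_nonneg_left (by linarith) hr0.le
    have h4 : 2 * (r : ℝ) * (2 * D + 1) ≤ (ww q r : ℝ) ^ 2 := by linarith
    exact_mod_cast h4
  · calc 32 * (2 * q ^ 6) * (n : ℝ) ^ 2 = tt q D n r * (r * (4096 * q ^ 7 * D)) := by
          unfold tt; field_simp; ring
      _ ≤ tt q D n r * (r * (q * q ^ 7 * D)) := by
          have : 0 ≤ tt q D n r := by unfold tt; positivity
          gcongr
          linarith
      _ = tt q D n r * (r * (q ^ 8 * D)) := by ring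
      _ ≤ tt q D n r * (ww q r : ℝ) ^ 2 := by
          have : 0 ≤ tt q D n r := by unfold tt; positivity
          gcongr
  · have h1 : b ≤ CL * b := by nlinarith
    have h2 : 5 * (ee q N D r : ℝ) + 1 + LL CL q D r ≤ 51200454 * (CL * b) := by linarith
    calc 8 * (5 * (ee q N D r : ℝ) + 1 + LL CL q D r) * (⌈1024 * CB⌉₊ : ℕ)
        ≤ 8 * (51200454 * (CL * b)) * (1025 * CB) := by gcongr
      _ = 8 * 51200454 * 1025 * (CB * CL * b) := by ring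
      _ ≤ tt q D n r := by linarith
  · have h1 : b * q ≤ b * q ^ 2 := by gcongr; exact hq' 2 (by norm_num)
    have h2 : b * 10 ^ 14 ≤ b * q := by gcongr
    have h3 : 40 * (ee q N D r : ℝ) ≤ r := by linarith
    exact_mod_cast h3
  · have h1 := Nat.lt_floor_add_one (2560000 * (kk q D r : ℝ) * N / (r : ℝ) ^ 2)
    rw [div_lt_iff₀ (by positivity)] at h1
    refine h1.trans_le ?_
    unfold ee
    push_cast
    gcongr
    linarith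

theorem numB_basic {μ q σ : ℝ} {D n r : ℕ} (h : Bas μ q σ D n r) :
    (1 : ℝ) ≤ D ∧ q * D ≤ r ∧ q ^ 2 * D ≤ r ∧ (D : ℝ) ≤ r ∧ (n : ℝ) ≤ (D : ℝ) ^ 2 := by
  have hD : (1 : ℝ) ≤ D := by linarith [h.hμ, h.hD]
  have h1 : ∀ k : ℕ, k ≤ 20 → q ^ k * D ≤ r := fun k hk =>
    (mul_le_mul_of_nonneg_right (pow_le_pow_right₀ h.hq hk) (by linarith)).trans h.hr
  refine ⟨hD, by simpa using h1 1 (by norm_num), h1 2 (by norm_num),
    by simpa using h1 0 (by norm_num), ?_⟩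
  have h2 : (n : ℝ) ^ 2 ≤ ((D : ℝ) ^ 2) ^ 2 :=
    h.hi.trans ((mul_le_mul_of_nonneg_right h.hD (by positivity)).trans_eq (by ring))
  exact (pow_le_pow_iff_left₀ (by positivity) (by positivity) two_ne_zero).1 h2

theorem numB_poly {E F D n : ℝ} (hE : 0 ≤ E) (hF : 0 ≤ F) (hEF : E ≤ F + 5) (hD : 1 ≤ D)
    (hn : n ≤ D ^ 2) : E * ((E + D) ^ 2 + n) ≤ 8 * F ^ 3 + 3 * (F * D ^ 2) + 1015 * D ^ 2 := by
  have h1 : (E + D) ^ 2 + n ≤ 2 * E ^ 2 + 3 * D ^ 2 := by nlinarith [sq_nonneg (E - D)]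
  have h2 : E ^ 3 ≤ (F + 5) ^ 3 := pow_le_pow_left₀ hE hEF 3
  have h3 : (F + 5) ^ 3 ≤ 4 * F ^ 3 + 500 := by
    nlinarith [mul_nonneg (add_nonneg hF (by norm_num : (0 : ℝ) ≤ 5)) (sq_nonneg (F - 5))]
  have h4 : E * D ^ 2 ≤ (F + 5) * D ^ 2 := mul_le_mul_of_nonneg_right hEF (by positivity)
  have h5 : 1 ≤ D ^ 2 := one_le_pow₀ hD
  have h6 := mul_le_mul_of_nonneg_left h1 hE
  nlinarith

/-- `E = 5 ee ≤ E₁ + 5` with `E₁ = 12800000 kk N / r²`; `n ≤ D²`, so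
`E ((E + D)² + n) ≤ 2 E³ + 3 E D² ≤ 8 E₁³ + 3 E₁ D² + 1015 D²`;
`E₁³ ≤ 32 · 12800000³ N / q` (use `kk ≤ 2 y / q²`, `N² ≤ 4 μ² D⁶`, `μ² ≤ y³ q⁵`) and
`E₁ D² ≤ 25600000 N / q`. -/
theorem num_van {CV B μ q σ N : ℝ} {D n r : ℕ} (hCV : 1 ≤ CV) (hB : 1 ≤ B) (h : Bas μ q σ D n r)
    (hq : 10 ^ 25 * CV * B ≤ q) (hN : 2030 * CV * B * (D : ℝ) ^ 2 ≤ N) (hNn : N ≤ (n : ℝ) ^ 2) :
    CV * (5 * ee q N D r : ℕ) * ((((5 * ee q N D r : ℕ) : ℝ) + D) ^ 2 + n) ≤ N / B := by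
  obtain ⟨hD, -, hq2, hDr, hn⟩ := numB_basic h
  have hq1 := h.hq
  have hq0 : 0 < q := by linarith
  have hD0 : (0 : ℝ) < D := by linarith
  have hr0 : (0 : ℝ) < r := by linarith
  have hCB : 1 ≤ CV * B := one_le_mul_of_one_le_of_one_le hCV hB
  have hN0 : 0 ≤ N := le_trans (by positivity) hN
  have hk : (kk q D r : ℝ) ≤ 2 * (r / (D * q ^ 2)) := by
    have h1 : (1 : ℝ) ≤ r / (D * q ^ 2) := by
      rw [le_div_iff₀ (by positivity)]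
      linarith
    have h2 := Nat.ceil_lt_add_one (a := (r : ℝ) / (D * q ^ 2)) (by linarith)
    unfold kk
    linarith
  obtain ⟨F, hF⟩ : ∃ F : ℝ, F = 25600000 * N / (r * D * q ^ 2) := ⟨_, rfl⟩
  have hF0 : 0 ≤ F := by rw [hF]; positivity
  have hE : ((5 * ee q N D r : ℕ) : ℝ) ≤ F + 5 := by
    have h1 : (⌊2560000 * (kk q D r : ℝ) * N / (r : ℝ) ^ 2⌋₊ : ℝ) ≤
        2560000 * (kk q D r : ℝ) * N / (r : ℝ) ^ 2 := Nat.floor_le (by positivity)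
    have h2 : 2560000 * (kk q D r : ℝ) * N / (r : ℝ) ^ 2 ≤
        2560000 * (2 * (r / (D * q ^ 2))) * N / (r : ℝ) ^ 2 := by gcongr
    have h3 : 5 * (2560000 * (2 * (r / (D * q ^ 2))) * N / (r : ℝ) ^ 2) = F := by
      rw [hF]
      field_simp
      ring
    unfold ee
    push_cast
    linarith
  have hpoly := numB_poly (Nat.cast_nonneg (5 * ee q N D r)) hF0 hE hD hn
  have hN2 : N ^ 2 ≤ 4 * (D : ℝ) ^ 3 * ((r : ℝ) ^ 3 * q ^ 5) := by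
    have h1 : N ^ 2 ≤ (2 * μ * (D : ℝ) ^ 3) ^ 2 := pow_le_pow_left₀ hN0 (hNn.trans h.hi) 2
    have h2 := mul_le_mul_of_nonneg_left h.hμr (by positivity : 0 ≤ 4 * (D : ℝ) ^ 3)
    calc N ^ 2 ≤ _ := h1
      _ = 4 * (D : ℝ) ^ 3 * (μ ^ 2 * (D : ℝ) ^ 3) := by ring
      _ ≤ _ := h2
  have hF3 : F ^ 3 ≤ 4 * 25600000 ^ 3 * (N / q) := by
    have e : F ^ 3 = 25600000 ^ 3 * (N / q) * (N ^ 2 / ((D : ℝ) ^ 3 * ((r : ℝ) ^ 3 * q ^ 5))) := by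
      rw [hF]
      field_simp
    have h1 : N ^ 2 / ((D : ℝ) ^ 3 * ((r : ℝ) ^ 3 * q ^ 5)) ≤ 4 := by
      rw [div_le_iff₀ (by positivity)]
      linarith
    rw [e]
    have := mul_le_mul_of_nonneg_left h1 (by positivity : 0 ≤ 25600000 ^ 3 * (N / q))
    linarith
  have hFD : F * (D : ℝ) ^ 2 ≤ 25600000 * (N / q) := by
    have e : F * (D : ℝ) ^ 2 = 25600000 * (N / q) * (D / (r * q)) := by
      rw [hF]
      field_simp
    have h1 : (D : ℝ) / (r * q) ≤ 1 := by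
      rw [div_le_one (by positivity)]
      nlinarith
    rw [e]
    have := mul_le_mul_of_nonneg_left h1 (by positivity : 0 ≤ 25600000 * (N / q))
    linarith
  have hNq : CV * B * (N / q) ≤ N / 10 ^ 25 := by
    rw [← mul_div_assoc, div_le_div_iff₀ hq0 (by positivity)]
    have := mul_le_mul_of_nonneg_left hq hN0
    linarith
  rw [le_div_iff₀ (by linarith)]
  have h1 := mul_le_mul_of_nonneg_left
    (hpoly.trans (by linarith : _ ≤ (32 * 25600000 ^ 3 + 3 * 25600000) * (N / q) + 1015 * (D : ℝ) ^ 2))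
    (by linarith : 0 ≤ CV * B)
  nlinarith

/-- `u ^ (2 m - 1) ≤ 8 σ D q ≤ 8 σ r`.  If `n² / u ^ m < C₃ D²` then `D < C₃ u ^ m`, so
`D ^ (2 m - 1) < C₃ ^ (2 m - 1) (u ^ (2 m - 1)) ^ m ≤ C₃ ^ (2 m - 1) 16 ^ m D ^ (2 m - 2)`. -/
theorem num_low {μ q σ u G C₃ : ℝ} {D n r m : ℕ} (h : Bas μ q σ D n r) (hm : 2 ≤ m) (hu : 1 ≤ u)
    (hC : 1 ≤ C₃) (hD : 16 ^ m * C₃ ^ (2 * m - 1) ≤ D)
    (hσm : (σ * r) ^ m ≤ 2 ^ m * (D : ℝ) ^ (2 * m - 2))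
    (hG : (n : ℝ) ^ 4 ≤ G * (r : ℝ) ^ 2 * D * q)
    (hp : G / u * (r : ℝ) ^ 2 ≤ 8 * σ * ((n : ℝ) ^ 2 / u ^ m) ^ 2) :
    C₃ * (D : ℝ) ^ 2 ≤ (n : ℝ) ^ 2 / u ^ m := by
  obtain ⟨hD1, hqD, -, hDr, -⟩ := numB_basic h
  have hq1 := h.hq
  have hD0 : (0 : ℝ) < D := by linarith
  have hr0 : (0 : ℝ) < r := by linarith
  have hn0 : (0 : ℝ) < n := hr0.trans_le (by exact_mod_cast h.hrn)
  have hu0 : 0 < u := by linarith
  have hσ0 := h.hσ0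
  obtain ⟨j, hj1, hj2⟩ : ∃ j, 2 * m - 1 = j + 1 ∧ 2 * m - 2 = j := ⟨2 * m - 2, by omega, rfl⟩
  have hj3 : m * 2 = j + 2 := by omega
  rw [hj1] at hD
  rw [hj2] at hσm
  have hG0 : 0 < G * (r : ℝ) ^ 2 := by
    have h1 : 0 < G * (r : ℝ) ^ 2 * (D * q) := by
      rw [← mul_assoc]
      exact lt_of_lt_of_le (by positivity) hG
    exact (mul_pos_iff_of_pos_right (by positivity)).1 h1
  have h1 : u ^ (j + 1) ≤ 8 * (σ * r) := by
    have e1 : ((n : ℝ) ^ 2 / u ^ m) ^ 2 = (n : ℝ) ^ 4 / u ^ (j + 2) := by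
      rw [div_pow, ← pow_mul, ← pow_mul, hj3]
    rw [e1, div_mul_eq_mul_div, ← mul_div_assoc, div_le_div_iff₀ hu0 (by positivity)] at hp
    have h2 : G * (r : ℝ) ^ 2 * u ^ (j + 1) ≤ 8 * σ * (n : ℝ) ^ 4 := by
      refine le_of_mul_le_mul_right ?_ hu0
      rw [mul_assoc (G * (r : ℝ) ^ 2), ← pow_succ]
      exact hp
    have h3 : 8 * σ * (n : ℝ) ^ 4 ≤ G * (r : ℝ) ^ 2 * (8 * (σ * r)) := by
      have h4 : (n : ℝ) ^ 4 ≤ G * (r : ℝ) ^ 2 * r :=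
        hG.trans (by
          rw [mul_assoc (G * (r : ℝ) ^ 2)]
          exact mul_le_mul_of_nonneg_left (by linarith) hG0.le)
      have := mul_le_mul_of_nonneg_left h4 (by positivity : 0 ≤ 8 * σ)
      linarith
    exact le_of_mul_le_mul_left (h2.trans h3) hG0
  by_contra hlt
  rw [not_le, div_lt_iff₀ (by positivity)] at hlt
  have h2 : (D : ℝ) < C₃ * u ^ m := by
    have h3 : (D : ℝ) ^ 3 ≤ (n : ℝ) ^ 2 :=
      le_trans (le_mul_of_one_le_left (by positivity) h.hμ) h.lo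
    refine lt_of_mul_lt_mul_right (a := (D : ℝ) ^ 2) ?_ (by positivity)
    linarith
  have h3 : (D : ℝ) ^ (j + 1) < (C₃ * u ^ m) ^ (j + 1) :=
    pow_lt_pow_left₀ h2 hD0.le (Nat.succ_ne_zero j)
  have h4 : (u ^ (j + 1)) ^ m ≤ 16 ^ m * (D : ℝ) ^ j := by
    calc (u ^ (j + 1)) ^ m ≤ (8 * (σ * r)) ^ m := pow_le_pow_left₀ (by positivity) h1 m
      _ = 8 ^ m * (σ * r) ^ m := mul_pow _ _ _
      _ ≤ 8 ^ m * (2 ^ m * (D : ℝ) ^ j) := mul_le_mul_of_nonneg_left hσm (by positivity)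
      _ = 16 ^ m * (D : ℝ) ^ j := by rw [← mul_assoc, ← mul_pow]; norm_num
  have h5 : (C₃ * u ^ m) ^ (j + 1) ≤ (D : ℝ) ^ (j + 1) := by
    calc (C₃ * u ^ m) ^ (j + 1) = C₃ ^ (j + 1) * (u ^ (j + 1)) ^ m := by
          rw [mul_pow, ← pow_mul, ← pow_mul, mul_comm m]
      _ ≤ C₃ ^ (j + 1) * (16 ^ m * (D : ℝ) ^ j) :=
          mul_le_mul_of_nonneg_left h4 (by positivity)
      _ = 16 ^ m * C₃ ^ (j + 1) * (D : ℝ) ^ j := by ring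
      _ ≤ D * (D : ℝ) ^ j := mul_le_mul_of_nonneg_right hD (by positivity)
      _ = (D : ℝ) ^ (j + 1) := by ring
  exact absurd h3 (not_lt.2 h5)

end Crest.Agent.R65.D3
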