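import Crest.Agent.R65.D3Step
import Crest.Agent.R65.D3Num

/-! Families without large pencils are small. -/

set_option autoImplicit false

open Finset Matrix
open scoped Classical

namespace Crest.Agent.R65.D3

/-- level `j` of the descent -/
def Lev (P₁ P₂ : Finset V3) (H : Finset Pt) (n r m : ℕ) (σ : ℝ) (j : ℕ) : Prop :=
  ∃ (Y' H' : Finset Pt) (Z' : Pt → Finset Pt), Fam P₁ P₂ Y' H' Z' r σ ∧
    (Y'.card : ℝ) ≤ (n : ℝ) ^ 2 / ((4 : ℝ) ^ j) ^ m ∧ H.card ≤ 4 ^ j * H'.card ∧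
    ∀ g ∈ H', (r : ℝ) * (1 / 2 + 1 / 2 ^ (j + 1)) ≤ (Z' g).card

theorem D3NP_pos {CB CL μ q σ : ℝ} {D n r : ℕ} (hCB : 1 ≤ CB) (hCL : 1 ≤ CL) (hb : Bas μ q σ D n r)
    (hq : 10 ^ 14 * CB * CL ≤ q) : (0 : ℝ) < D ∧ 4 ≤ r ∧ (0 : ℝ) < n := by
  have h1 : (1 : ℝ) ≤ D := by linarith [hb.hμ, hb.hD]
  have h2 : 1 ≤ CB * CL := one_le_mul_of_one_le_of_one_le hCB hCL
  have h3 : 4 ≤ q := by linarith
  have h4 : q ≤ q ^ 20 := le_self_pow₀ hb.hq (by norm_num)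
  have h5 : q ^ 20 ≤ q ^ 20 * D := le_mul_of_one_le_right (by linarith) h1
  have h6 : (4 : ℝ) ≤ r := by linarith [hb.hr]
  have h7 : 4 ≤ r := by exact_mod_cast h6
  refine ⟨by linarith, h7, ?_⟩
  have := hb.hrn
  exact_mod_cast (by omega : 0 < n)

/-- `u = 4 ^ j`, `N = n² / u ^ m`, `B = 4 ^ m`; `pairs_bound` and `num_low` give the lower bound for
`N`; `num_step`, `step` (`64 tt N ≤ |H'| r` since `|H'| ≥ |H| / u`, `m ≥ 2`; in fact
`64 tt N u ≤ |H'| r`), `next_level`, `num_van`; new sets `Z' g ∩ Y''`; the loss is at most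
`4 E N / |H'| ≤ r / (16 u) ≤ r / 2 ^ (j + 2)`. -/
theorem lev_succ {K : Type} [Field K] [Algebra ℝ K] {s0 : Fin 3 → K} (hs : Gen s0) {CB CL CV : ℝ}
    (hCB : 1 ≤ CB) (hCL : 1 ≤ CL) (hCV : 1 ≤ CV) (hB : BeckFor CB) (hL : L3For CL)
    (hV : VanFor s0 CV) {P₁ P₂ : Finset V3} {H : Finset Pt} {D n r m : ℕ} {μ q σ : ℝ}
    (h₁ : ND P₁ D) (h₂ : ND P₂ D) (hn₁ : P₁.card ≤ n) (hn₂ : P₂.card ≤ n) (hm : 2 ≤ m)
    (hb : Bas μ q σ D n r) (hq : 10 ^ 14 * CB * CL ≤ q) (hq' : 10 ^ 25 * CV * 4 ^ m ≤ q)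
    (hD : 16 ^ m * (2030 * CV * 4 ^ m) ^ (2 * m - 1) ≤ D)
    (hσm : (σ * r) ^ m ≤ 2 ^ m * (D : ℝ) ^ (2 * m - 2))
    (hG : (n : ℝ) ^ 4 ≤ H.card * (r : ℝ) ^ 2 * D * q) (j : ℕ) (h : Lev P₁ P₂ H n r m σ j) :
    Lev P₁ P₂ H n r m σ (j + 1) := by
  obtain ⟨Y', H', Z', hF, hY, hH, hZ⟩ := h
  obtain ⟨u, hu⟩ : ∃ u : ℝ, u = 4 ^ j := ⟨_, rfl⟩
  have u1 : 1 ≤ u := hu ▸ one_le_pow₀ (by norm_num)
  have u0 : 0 < u := by linarith
  rw [← hu] at hY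
  obtain ⟨N, hN⟩ : ∃ N : ℝ, N = (n : ℝ) ^ 2 / u ^ m := ⟨_, rfl⟩
  obtain ⟨D0, r4, n0⟩ := D3NP_pos hCB hCL hb hq
  have r0 : (0 : ℝ) < r := by exact_mod_cast (by omega : 0 < r)
  have q0 : 0 < q := by linarith [hb.hq]
  have B1 : (1 : ℝ) ≤ 4 ^ m := one_le_pow₀ (by norm_num)
  have hH' : (H.card : ℝ) / u ≤ H'.card := by
    rw [div_le_iff₀' u0, hu]
    exact_mod_cast hH
  have hp : (H.card : ℝ) / u * (r : ℝ) ^ 2 ≤ 8 * σ * ((n : ℝ) ^ 2 / u ^ m) ^ 2 :=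
    ((mul_le_mul_of_nonneg_right hH' (sq_nonneg _)).trans (pairs_bound hF r4 hb.hσ0)).trans
      (mul_le_mul_of_nonneg_left (pow_le_pow_left₀ (Nat.cast_nonneg _) hY 2)
        (mul_nonneg (by norm_num) hb.hσ0))
  have hlow := num_low hb hm u1 (C₃ := 2030 * CV * 4 ^ m) (by nlinarith) hD hσm hG hp
  rw [← hN] at hlow hY
  have N0 : 0 < N := hN ▸ div_pos (pow_pos n0 2) (pow_pos u0 m)
  have Nn : N ≤ (n : ℝ) ^ 2 := hN ▸ div_le_self (sq_nonneg _) (one_le_pow₀ u1)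
  obtain ⟨hS, hE⟩ := num_step hCB hCL hb hq N0 Nn
  have t0 : 0 < tt q D n r := div_pos (pow_pos n0 2) (by positivity)
  have key : 64 * tt q D n r * N * u ≤ H'.card * r := by
    have h1 : N * u * u ≤ (n : ℝ) ^ 2 := by
      rw [hN, mul_assoc, div_mul_eq_mul_div, div_le_iff₀ (pow_pos u0 m), ← sq]
      exact mul_le_mul_of_nonneg_left (pow_le_pow_right₀ u1 hm) (sq_nonneg _)
    have h2 : 64 * tt q D n r = (n : ℝ) ^ 2 / (D * r * q) := by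
      show 64 * ((n : ℝ) ^ 2 / (64 * D * r * q)) = _
      field_simp
    refine le_trans ?_ (mul_le_mul_of_nonneg_right hH' r0.le)
    rw [h2, div_mul_eq_mul_div, div_mul_eq_mul_div, div_mul_eq_mul_div,
      div_le_div_iff₀ (by positivity) u0]
    calc (n : ℝ) ^ 2 * N * u * u = (n : ℝ) ^ 2 * (N * u * u) := by ring
      _ ≤ (n : ℝ) ^ 2 * (n : ℝ) ^ 2 := mul_le_mul_of_nonneg_left h1 (sq_nonneg _)
      _ = (n : ℝ) ^ 4 := by ring
      _ ≤ _ := hG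
      _ = _ := by ring
  obtain ⟨f, f0, f1, f2⟩ := step hs hF h₁ hn₁ hCB hCL hB hL hS hY
    ((le_mul_of_one_le_right (by positivity) u1).trans key)
  obtain ⟨Y'', H'', y1, y2, y3, y4, y5⟩ := next_level hs hV hF h₁ h₂ hn₁ hn₂
    (E := 5 * ee q N D r) (Nat.succ_le_of_lt (Nat.mul_pos (by norm_num) (Nat.succ_pos _))) hY f f0
    f1 f2
  have hc : ∀ g ∈ H'', (r : ℝ) * (1 / 2 + 1 / 2 ^ (j + 1 + 1)) ≤ (Z' g ∩ Y'').card := by
    intro g hg
    have h1 := hZ g (y2 hg)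
    have h2 := y5 g hg
    have h3 : ((Z' g \ Y'').card : ℝ) + (Z' g ∩ Y'').card = (Z' g).card := by
      exact_mod_cast Finset.card_sdiff_add_card_inter (Z' g) Y''
    have H0 : (0 : ℝ) < H'.card :=
      (mul_pos_iff_of_pos_right r0).1 (lt_of_lt_of_le (by positivity) key)
    have h4 : ((Z' g \ Y'').card : ℝ) * (16 * u) ≤ r := by
      refine le_of_mul_le_mul_left ?_ H0
      push_cast at h2
      have h5 : 4 * (5 * (ee q N D r : ℝ)) * N ≤ 4 * tt q D n r * N :=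
        mul_le_mul_of_nonneg_right (by linarith) N0.le
      have h6 := mul_le_mul_of_nonneg_right (h2.trans h5) (show 0 ≤ 16 * u by positivity)
      linarith
    have h5 : (2 : ℝ) ^ (j + 1 + 1) ≤ 16 * u := by
      have h6 : (2 : ℝ) ^ j ≤ 4 ^ j := pow_le_pow_left₀ (by norm_num) (by norm_num) j
      rw [pow_succ, pow_succ]
      linarith
    have h6 : ((Z' g \ Y'').card : ℝ) ≤ r / 2 ^ (j + 1 + 1) := by
      rw [le_div_iff₀ (by positivity)]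
      exact (mul_le_mul_of_nonneg_left h5 (Nat.cast_nonneg _)).trans h4
    have h7 : (r : ℝ) * (1 / 2 + 1 / 2 ^ (j + 1 + 1)) =
        r * (1 / 2 + 1 / 2 ^ (j + 1)) - r / 2 ^ (j + 1 + 1) := by
      rw [pow_succ 2 (j + 1)]
      field_simp
      ring
    linarith
  refine ⟨Y'', H'', fun g => Z' g ∩ Y'', ⟨y1.trans hF.sub, fun g _ => Finset.inter_subset_right,
    fun g hg x hx => hF.on g (y2 hg) x (Finset.mem_inter.1 hx).1, fun g hg => ?_,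
    fun g hg => (Finset.card_le_card Finset.inter_subset_left).trans (hF.hi g (y2 hg)),
    fun x l hl => le_trans (Nat.cast_le.2 (Finset.card_le_card fun g hg => ?_)) (hF.pen x l hl)⟩,
    ?_, ?_, hc⟩
  · have h1 := hc g hg
    have h2 : (0 : ℝ) ≤ r * (1 / 2 ^ (j + 1 + 1)) := by positivity
    have h3 : (r : ℝ) ≤ 2 * (Z' g ∩ Y'').card := by linarith
    exact_mod_cast h3
  · obtain ⟨g1, g2, g3⟩ := Finset.mem_filter.1 hg
    exact Finset.mem_filter.2 ⟨y2 g1, (Finset.mem_inter.1 g2).1, g3⟩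
  · refine (y3.trans (num_van hCV B1 hb hq' hlow Nn)).trans (le_of_eq ?_)
    rw [hN, hu, pow_succ (4 : ℝ) j, mul_pow, div_div]
  · rw [pow_succ, mul_assoc]
    exact hH.trans (Nat.mul_le_mul_left _ y4)

/-- By contradiction all levels exist (`lev_succ`); `H ≠ ∅` gives `H' ≠ ∅`, `Y' ≠ ∅`, impossible
for `4 ^ j > n²`. -/
theorem np_of {CB CL : ℝ} (hCB : 1 ≤ CB) (hCL : 1 ≤ CL) (hB : BeckFor CB) (hL : L3For CL)
    (hV : VanStmt) : NPStmt := by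
  obtain ⟨K, _, _, s0, CV, hCV, hs, hV⟩ := hV
  intro m hm
  refine ⟨max (10 ^ 14 * CB * CL) (10 ^ 25 * CV * 4 ^ m), le_max_of_le_left ?_, fun μ hμ =>
    ⟨⌈max (2 * μ) (16 ^ m * (2030 * CV * 4 ^ m) ^ (2 * m - 1))⌉₊, ?_⟩⟩
  · linarith [one_le_mul_of_one_le_of_one_le hCB hCL]
  intro D hD n P₁ P₂ h₁ h₂ hn₁ hn₂ lo hi r q σ hq hr hrn hμr hσ0 hσ hσm Y H Z hF hZ
  have hD' := Nat.ceil_le.1 hD
  have q1 := (le_max_left _ _).trans hq
  have hb : Bas μ q σ D n r := ⟨hμ, by linarith [one_le_mul_of_one_le_of_one_le hCB hCL],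
    (le_max_left _ _).trans hD', lo, hi, hr, hrn, hμr, hσ0, hσ⟩
  obtain ⟨D0, r4, n0⟩ := D3NP_pos hCB hCL hb q1
  by_contra hG
  rw [not_lt] at hG
  have hall : ∀ j, Lev P₁ P₂ H n r m σ j := by
    intro j
    induction j with
    | zero =>
      refine ⟨Y, H, Z, hF, ?_, by simp, fun g hg => ?_⟩
      · have h1 := Finset.card_le_card hF.sub
        rw [Finset.card_product] at h1
        have h2 : Y.card ≤ n ^ 2 := h1.trans (sq n ▸ Nat.mul_le_mul hn₁ hn₂)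
        rw [pow_zero, one_pow, div_one]
        exact_mod_cast h2
      · rw [hZ g hg]
        norm_num
    | succ j ih =>
      exact lev_succ hs hCB hCL hCV hB hL hV h₁ h₂ hn₁ hn₂ hm hb q1 ((le_max_right _ _).trans hq)
        ((le_max_right _ _).trans hD') hσm hG j ih
  obtain ⟨Y', H', Z', hF', hY, hH, -⟩ := hall (n ^ 2)
  have h1 : (n : ℝ) ^ 2 < ((4 : ℝ) ^ (n ^ 2)) ^ m := by
    have h2 : n ^ 2 < 4 ^ (n ^ 2) := Nat.lt_pow_self (by norm_num)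
    have h3 : (n : ℝ) ^ 2 < (4 : ℝ) ^ (n ^ 2) := by exact_mod_cast h2
    exact h3.trans_le (le_self_pow₀ (one_le_pow₀ (by norm_num)) (by omega))
  have h2 : Y'.card = 0 := by
    have h3 : (Y'.card : ℝ) < 1 := hY.trans_lt ((div_lt_one (by positivity)).2 h1)
    have h4 : Y'.card < 1 := by exact_mod_cast h3
    omega
  have h3 : H'.card ≠ 0 := by
    intro h3
    rw [h3, mul_zero, Nat.le_zero] at hH
    rw [hH, Nat.cast_zero, zero_mul, zero_mul, zero_mul] at hG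
    exact absurd hG (not_le.2 (pow_pos n0 4))
  obtain ⟨g, hg⟩ := Finset.card_ne_zero.1 h3
  have h4 := Finset.card_le_card (hF'.zsub g hg)
  have h5 := hF'.lo g hg
  omega

end Crest.Agent.R65.D3
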