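import Crest.Agent.R65.D3Geo
import Crest.Agent.R65.D3Defs2

/-! Summation over dyadic classes. -/

set_option autoImplicit false

open Finset Matrix
open scoped Classical

namespace Crest.Agent.R65.D3

theorem sum_geom_le (M : ℕ) (hM : 1 ≤ M) (S : Finset ℕ) :
    ∑ i ∈ S, ((1 + 1 / (2 * (M : ℝ))) ^ i)⁻¹ ≤ 2 * M + 1 := by
  have hM' : (1 : ℝ) ≤ M := by exact_mod_cast hM
  have h0 : (0 : ℝ) ≤ (1 + 1 / (2 * (M : ℝ)))⁻¹ := by positivity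
  have h1 : (1 + 1 / (2 * (M : ℝ)))⁻¹ < 1 := by
    apply inv_lt_one_of_one_lt₀
    have : (0 : ℝ) < 1 / (2 * (M : ℝ)) := by positivity
    linarith
  have h2 := (summable_geometric_of_lt_one h0 h1).sum_le_tsum S fun i _ => pow_nonneg h0 i
  rw [tsum_geometric_of_lt_one h0 h1] at h2
  simp only [← inv_pow]
  refine h2.trans (le_of_eq ?_)
  field_simp
  ring

theorem rho_pow_le (M : ℕ) (hM : 1 ≤ M) : (1 + 1 / (2 * (M : ℝ))) ^ M ≤ 2 := by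
  have hM' : (1 : ℝ) ≤ M := by exact_mod_cast hM
  have h1 : 1 + 1 / (2 * (M : ℝ)) ≤ Real.exp (1 / (2 * (M : ℝ))) := by
    have := Real.add_one_le_exp (1 / (2 * (M : ℝ)))
    linarith
  refine (pow_le_pow_left₀ (by positivity) h1 M).trans ?_
  rw [← Real.exp_nat_mul]
  have e : (M : ℝ) * (1 / (2 * (M : ℝ))) = 1 / 2 := by field_simp
  rw [e]
  have h2 : Real.exp (1 / 2) ^ 2 = Real.exp 1 := by
    rw [← Real.exp_nat_mul]
    norm_num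
  have h3 := Real.exp_one_lt_d9
  have h4 := Real.exp_pos (1 / 2)
  nlinarith

/-- Take `M, q₀` from `ClsStmt`, `ρ = 1 + 1 / (2 M)` (`ρ ^ M ≤ exp (1 / 2) ≤ 2`),
`q₁ = max q₀ (max (1000 / κ³ + 1) (3600 (2 M + 1) / η))`, `μ₀` such that `μ ≥ 1` and
`κ μ ^ (2/3) ≥ 10 q₁²⁰`, `A = q₁ ^ M`, `D ≥ 2 μ` (so `n ≤ D²`), `R₀ = ⌈κ μ ^ (2/3) D⌉₊ ≥ 1`.
Class `i`: `Nat.log 2 (|mt g| / R₀) = i`, i.e. `R₀ 2 ^ i ≤ |mt g| < R₀ 2 ^ (i + 1)`; if it is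
nonempty then `2 ^ i ≤ n ≤ D²` (`card_mt_le`).  Apply `ClsStmt` with `R = R₀ 2 ^ i`, `q = q₁ ρ ^ i`
(`ρ ^ 20 ≤ 2`; `R³ q⁵ ≥ κ³ μ² D³ q₁`): the class contributes at most `3600 n⁴ / (D q₁ ρ ^ i)`, and
`∑ ρ ^ (-i) ≤ 2 M + 1`. -/
theorem ri_of_cls (h : ClsStmt) : RIStmt := by
  obtain ⟨M, q₀, hM, hq₀, h⟩ := h
  intro η κ hη hκ
  set q₁ : ℝ := max q₀ (max (1000 / κ ^ 3) (3600 * (2 * M + 1) / η)) with hq₁
  have hq1 : q₀ ≤ q₁ := le_max_left _ _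
  have hq2 : 1000 / κ ^ 3 ≤ q₁ := (le_max_left _ _).trans (le_max_right _ _)
  have hq3 : 3600 * (2 * M + 1) / η ≤ q₁ := (le_max_right _ _).trans (le_max_right _ _)
  have hq11 : 1 ≤ q₁ := hq₀.trans hq1
  set ρ : ℝ := 1 + 1 / (2 * (M : ℝ)) with hρ
  have hρ1 : 1 ≤ ρ := by
    have : (0 : ℝ) ≤ 1 / (2 * (M : ℝ)) := by positivity
    linarith
  have hρM : ρ ^ M ≤ 2 := rho_pow_le M (by omega)
  have hρ20 : ρ ^ 20 ≤ 2 := (pow_le_pow_right₀ hρ1 hM).trans hρM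
  refine ⟨max 1 ((10 * q₁ ^ 20 / κ) ^ 2), fun μ hμ => ?_⟩
  have hμ1 : 1 ≤ μ := (le_max_left _ _).trans hμ
  have hμ0 : 0 < μ := by linarith
  set ν : ℝ := μ ^ ((2 : ℝ) / 3) with hν
  have hν3 : ν ^ 3 = μ ^ 2 := by
    rw [hν, ← Real.rpow_natCast, ← Real.rpow_mul hμ0.le, ← Real.rpow_natCast]
    norm_num
  have hν0 : 0 < ν := Real.rpow_pos_of_pos hμ0 _
  have hν2 : 10 * q₁ ^ 20 ≤ κ * ν := by
    have h1 : μ ≤ ν ^ 2 := by
      rw [hν, ← Real.rpow_natCast, ← Real.rpow_mul hμ0.le]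
      calc μ = μ ^ (1 : ℝ) := (Real.rpow_one μ).symm
        _ ≤ _ := Real.rpow_le_rpow_of_exponent_le hμ1 (by norm_num)
    have h2 : (10 * q₁ ^ 20 / κ) ^ 2 ≤ ν ^ 2 := ((le_max_right _ _).trans hμ).trans h1
    have h3 := (pow_le_pow_iff_left₀ (by positivity) hν0.le two_ne_zero).1 h2
    rw [div_le_iff₀ hκ] at h3
    linarith
  obtain ⟨D₀, hD₀⟩ := h μ (q₁ ^ M) hμ1
  refine ⟨max D₀ ⌈2 * μ⌉₊, fun D hD n P₁ P₂ h₁ h₂ hn₁ hn₂ hlo hhi G hG => ?_⟩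
  have hD2 : 2 * μ ≤ D := (Nat.le_ceil _).trans (by exact_mod_cast (le_max_right _ _).trans hD)
  have hDpos : (0 : ℝ) < D := by linarith
  have hnD : (n : ℝ) ≤ (D : ℝ) ^ 2 := by
    have h1 : (n : ℝ) ^ 2 ≤ ((D : ℝ) ^ 2) ^ 2 := by
      refine hhi.trans ?_
      have : (0 : ℝ) ≤ (D : ℝ) ^ 3 := by positivity
      nlinarith
    exact (pow_le_pow_iff_left₀ (by positivity) (by positivity) two_ne_zero).1 h1
  set R₀ : ℕ := ⌈κ * ν * D⌉₊ with hR₀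
  have hR₀1 : κ * ν * D ≤ R₀ := Nat.le_ceil _
  have hR₀pos : 0 < R₀ := Nat.ceil_pos.2 (by positivity)
  have hGR : ∀ g ∈ G, R₀ ≤ (mt P₁ P₂ g).card := fun g hg => Nat.ceil_le.2 (hG g hg)
  set cl : Pt → ℕ := fun g => Nat.log 2 ((mt P₁ P₂ g).card / R₀) with hcl
  have hcl1 : ∀ g ∈ G, R₀ * 2 ^ cl g ≤ (mt P₁ P₂ g).card := by
    intro g hg
    have h1 : (mt P₁ P₂ g).card / R₀ ≠ 0 := (Nat.div_pos (hGR g hg) hR₀pos).ne'
    exact (Nat.mul_le_mul_left _ (Nat.pow_log_le_self 2 h1)).trans (Nat.mul_div_le _ _)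
  have hcl2 : ∀ g ∈ G, (mt P₁ P₂ g).card ≤ 2 * (R₀ * 2 ^ cl g) := by
    intro g _
    have h1 := Nat.lt_pow_succ_log_self (b := 2) (by norm_num) ((mt P₁ P₂ g).card / R₀)
    have h2 := (Nat.div_lt_iff_lt_mul hR₀pos).1 h1
    rw [pow_succ] at h2
    have e : 2 ^ cl g * 2 * R₀ = 2 * (R₀ * 2 ^ cl g) := by ring
    exact h2.le.trans e.le
  rw [← sum_fiberwise_of_maps_to (g := cl) (t := G.image cl) fun g hg => mem_image_of_mem _ hg]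
  have key : ∀ i ∈ G.image cl, ∑ g ∈ G.filter fun g => cl g = i, ((mt P₁ P₂ g).card : ℝ) ^ 2 ≤
      3600 * (n : ℝ) ^ 4 / (D * q₁) * (ρ ^ i)⁻¹ := by
    intro i hi
    obtain ⟨g₀, hg₀, rfl⟩ := mem_image.1 hi
    set i := cl g₀ with hi'
    have hρi : 1 ≤ ρ ^ i := one_le_pow₀ hρ1
    have h2i : (2 : ℝ) ^ i ≤ (D : ℝ) ^ 2 := by
      have h1 : 2 ^ i ≤ n := (Nat.le_mul_of_pos_left _ hR₀pos).trans
        ((hcl1 g₀ hg₀).trans ((card_mt_le _ _ _).trans hn₁))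
      have h2 : (2 : ℝ) ^ i ≤ n := by exact_mod_cast h1
      exact h2.trans hnD
    have hRi : κ * ν * D * 2 ^ i ≤ ((R₀ * 2 ^ i : ℕ) : ℝ) := by
      push_cast
      exact mul_le_mul_of_nonneg_right hR₀1 (by positivity)
    have h2one : (1 : ℝ) ≤ 2 ^ i := one_le_pow₀ (by norm_num)
    have hb := hD₀ D ((le_max_left _ _).trans hD) n P₁ P₂ h₁ h₂ hn₁ hn₂ hlo hhi (R₀ * 2 ^ i)
      (q₁ * ρ ^ i) (by nlinarith) ?_ ?_ ?_ (G.filter fun g => cl g = i) ?_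
    · have h3 : ∑ g ∈ G.filter fun g => cl g = i, ((mt P₁ P₂ g).card : ℝ) ^ 2 ≤
          (G.filter fun g => cl g = i).card * (4 * ((R₀ * 2 ^ i : ℕ) : ℝ) ^ 2) := by
        refine (sum_le_card_nsmul _ _ _ fun g hg => ?_).trans (by rw [nsmul_eq_mul])
        obtain ⟨a1, a2⟩ := mem_filter.1 hg
        have a3 := hcl2 g a1
        rw [a2] at a3
        have a4 : ((mt P₁ P₂ g).card : ℝ) ≤ 2 * ((R₀ * 2 ^ i : ℕ) : ℝ) := by exact_mod_cast a3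
        have a5 := pow_le_pow_left₀ (Nat.cast_nonneg _) a4 2
        linarith
      refine h3.trans ?_
      rw [← div_eq_mul_inv, div_div, le_div_iff₀ (by positivity)]
      linarith
    · rw [mul_pow, ← pow_mul, mul_comm i M, pow_mul]
      refine mul_le_mul_of_nonneg_left ?_ (by positivity)
      exact (pow_le_pow_left₀ (by positivity) hρM i).trans h2i
    · refine le_trans ?_ hRi
      rw [mul_pow, ← pow_mul, mul_comm i 20, pow_mul]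
      have h3 : (ρ ^ 20) ^ i ≤ 2 ^ i := pow_le_pow_left₀ (by positivity) hρ20 i
      calc 10 * (q₁ ^ 20 * (ρ ^ 20) ^ i) * D = 10 * q₁ ^ 20 * D * (ρ ^ 20) ^ i := by ring
        _ ≤ κ * ν * D * 2 ^ i := by gcongr
    · have h3 : κ * ν * D ≤ ((R₀ * 2 ^ i : ℕ) : ℝ) := by
        refine le_trans ?_ hRi
        have : 0 ≤ κ * ν * D := by positivity
        nlinarith
      have h4 : (κ * ν * D) ^ 3 ≤ ((R₀ * 2 ^ i : ℕ) : ℝ) ^ 3 := pow_le_pow_left₀ (by positivity) h3 3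
      have h5 : q₁ ≤ (q₁ * ρ ^ i) ^ 5 := by
        have a1 : q₁ ≤ q₁ * ρ ^ i := by nlinarith
        exact a1.trans (le_self_pow₀ (hq11.trans a1) (by norm_num))
      have h6 : 1000 ≤ κ ^ 3 * q₁ := by
        rw [div_le_iff₀ (by positivity)] at hq2
        linarith
      calc 1000 * μ ^ 2 * (D : ℝ) ^ 3 ≤ κ ^ 3 * q₁ * μ ^ 2 * (D : ℝ) ^ 3 := by gcongr
        _ = (κ * ν * D) ^ 3 * q₁ := by rw [← hν3]; ring
        _ ≤ _ := by gcongr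
    · intro g hg
      obtain ⟨a1, a2⟩ := mem_filter.1 hg
      have := hcl1 g a1
      rwa [a2] at this
  refine (sum_le_sum key).trans ?_
  rw [← mul_sum]
  have h1 := sum_geom_le M (by omega) (G.image cl)
  have h2 : 3600 * (2 * (M : ℝ) + 1) ≤ q₁ * η := by rwa [div_le_iff₀ hη] at hq3
  calc 3600 * (n : ℝ) ^ 4 / (D * q₁) * ∑ i ∈ G.image cl, (ρ ^ i)⁻¹
      ≤ 3600 * (n : ℝ) ^ 4 / (D * q₁) * (2 * M + 1) := by gcongr
    _ = 3600 * (2 * (M : ℝ) + 1) * ((n : ℝ) ^ 4 / (D * q₁)) := by ring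
    _ ≤ q₁ * η * ((n : ℝ) ^ 4 / (D * q₁)) := by gcongr
    _ = η * (n : ℝ) ^ 4 / D := by field_simp

end Crest.Agent.R65.D3
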