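import Crest.Agent.R65.D3L3
import Crest.Agent.R65.D3NP
import Crest.Agent.R65.D3Cls
import Crest.Agent.R65.D3Sum
import Crest.Agent.R65.D3Iso
import Crest.Agent.R65.Pen.Bridge

/-! Assembly of the `d = 3` module. -/

set_option autoImplicit false

open Finset Matrix
open scoped Classical

namespace Crest.Agent.R65.D3

theorem ri (hV : VanStmt) : RIStmt := by
  obtain ⟨C, hC, h⟩ := stStmt
  exact ri_of_cls (cls_of penFam (np_of (by linarith)
    (by nlinarith [(by norm_num : (1 : ℝ) ≤ 2 ^ 30)]) (L3.beck (by linarith) h) (l3_of_st hC h) hV))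

theorem ricl (hV : VanStmt) : RIClStmt := ricl_of_ri (ri hV)

end Crest.Agent.R65.D3
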