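import Crest.Agent.R65.D3Defs

/-! Elementary geometry of lines, planes and flats in `ℝ³`. -/

set_option autoImplicit false

open Finset Matrix
open scoped Classical

namespace Crest.Agent.R65.D3

/-- `v × u = 0`, `v ≠ 0` gives `u ∥ v` (coordinates, case on the nonzero coordinate of `v`). -/
theorem par_of_cross {v u : V3} (hv : v ≠ 0) (h : v ⨯₃ u = 0) : ∃ c : ℝ, u = c • v := by
  have h0 : v 1 * u 2 - v 2 * u 1 = 0 := by simpa [cross_apply] using congrFun h 0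
  have h1 : v 2 * u 0 - v 0 * u 2 = 0 := by simpa [cross_apply] using congrFun h 1
  have h2 : v 0 * u 1 - v 1 * u 0 = 0 := by simpa [cross_apply] using congrFun h 2
  have hd : v ⬝ᵥ v ≠ 0 := fun e => hv (dotProduct_self_eq_zero.1 e)
  refine ⟨(v ⬝ᵥ u) / (v ⬝ᵥ v), funext fun i => ?_⟩
  rw [Pi.smul_apply, smul_eq_mul, div_mul_eq_mul_div, eq_div_iff hd]
  simp only [dotProduct, Fin.sum_univ_three]
  fin_cases i
  · change u 0 * _ = _ * v 0
    linear_combination v 2 * h1 - v 1 * h2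
  · change u 1 * _ = _ * v 1
    linear_combination v 0 * h2 - v 2 * h0
  · change u 2 * _ = _ * v 2
    linear_combination v 1 * h0 - v 0 * h1

theorem isLine_ln (a : V3) {v : V3} (hv : v ≠ 0) : IsLine (ln a v) := ⟨a, v, hv, rfl⟩

theorem self_mem_ln (a v : V3) : a ∈ ln a v := ⟨0, by simp⟩

theorem mem_ln_sub (a b : V3) : b ∈ ln a (b - a) := ⟨1, by simp⟩

theorem IsLine.eq_ln {l : Set V3} (hl : IsLine l) {a b : V3} (ha : a ∈ l) (hb : b ∈ l)
    (hab : b ≠ a) : l = ln a (b - a) := by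
  obtain ⟨o, v, -, rfl⟩ := hl
  obtain ⟨s, rfl⟩ := ha
  obtain ⟨t, rfl⟩ := hb
  have hts : t - s ≠ 0 := fun e => hab (by rw [sub_eq_zero.1 e])
  have e : o + t • v - (o + s • v) = (t - s) • v := by rw [sub_smul]; abel
  rw [e]
  ext x
  constructor
  · rintro ⟨c, rfl⟩
    refine ⟨(c - s) / (t - s), ?_⟩
    rw [smul_smul, div_mul_cancel₀ _ hts, sub_smul]
    abel
  · rintro ⟨c, rfl⟩
    exact ⟨s + c * (t - s), by rw [smul_smul, add_smul, add_assoc]⟩

/-- moving the base point along the line -/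
theorem ln_eq_of_mem {a b v : V3} (h : b ∈ ln a v) : ln b v = ln a v := by
  obtain ⟨s, rfl⟩ := h
  ext x
  constructor
  · rintro ⟨c, rfl⟩
    exact ⟨s + c, by rw [add_smul, add_assoc]⟩
  · rintro ⟨c, rfl⟩
    exact ⟨c - s, by rw [sub_smul]; abel⟩

/-- A line has at most `2 D + 1` points: fix one point `p`; each squared distance from `p` is
taken at most twice. -/
theorem cnt_line_le {P : Finset V3} {D : ℕ} (hP : ND P D) {l : Set V3} (hl : IsLine l) :
    cnt P l ≤ 2 * D + 1 := by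
  obtain ⟨T, hT, hP⟩ := hP
  obtain ⟨o, v, hv, rfl⟩ := hl
  unfold cnt
  rcases (P.filter (· ∈ ln o v)).eq_empty_or_nonempty with he | ⟨p, hp⟩
  · rw [he]; simp
  obtain ⟨hpP, hpl⟩ := mem_filter.1 hp
  have hd : v ⬝ᵥ v ≠ 0 := fun e => hv (dotProduct_self_eq_zero.1 e)
  have key : ((P.filter (· ∈ ln o v)).erase p).card ≤ 2 * T.card := by
    refine card_le_mul_card_image_of_maps_to (f := fun q => (p - q) ⬝ᵥ (p - q))
      (fun q hq => hP p hpP q (mem_filter.1 (mem_of_mem_erase hq)).1 (ne_of_mem_erase hq).symm) 2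
      fun t _ => ?_
    rcases (((P.filter (· ∈ ln o v)).erase p).filter
      fun q => (p - q) ⬝ᵥ (p - q) = t).eq_empty_or_nonempty with he | ⟨q, hq⟩
    · rw [he]; simp
    have hc : ∀ x ∈ ((P.filter (· ∈ ln o v)).erase p).filter fun q => (p - q) ⬝ᵥ (p - q) = t,
        ∃ c : ℝ, x = p + c • v ∧ c ^ 2 * (v ⬝ᵥ v) = t := by
      intro x hx
      obtain ⟨h1, h2⟩ := mem_filter.1 hx
      have h3 := (mem_filter.1 (mem_of_mem_erase h1)).2
      rw [← ln_eq_of_mem hpl] at h3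
      obtain ⟨c, rfl⟩ := h3
      refine ⟨c, rfl, ?_⟩
      rw [← h2, sub_add_cancel_left, neg_dotProduct_neg, smul_dotProduct, dotProduct_smul,
        smul_eq_mul, smul_eq_mul]
      ring
    obtain ⟨c, -, hc2⟩ := hc q hq
    refine le_trans (card_le_card (t := {p + c • v, p + (-c) • v}) fun x hx => ?_) card_le_two
    obtain ⟨c', rfl, hc'⟩ := hc x hx
    have h4 : c' ^ 2 = c ^ 2 := mul_right_cancel₀ hd (hc'.trans hc2.symm)
    rcases sq_eq_sq_iff_eq_or_eq_neg.1 h4 with rfl | rfl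
    · exact mem_insert_self _ _
    · exact mem_insert_of_mem (mem_singleton_self _)
  rw [← card_erase_add_one hp]
  omega

theorem On.eq_of_fst {g h x : Pt} (hg : On g x) (hh : On h x) (e : g.1 = h.1) : g = h := by
  unfold On at hg hh
  rw [hg, e] at hh
  exact Prod.ext e (add_left_cancel hh)

theorem On.diff {g x y : Pt} (hx : On g x) (hy : On g y) :
    (y.1 - y.2) - (x.1 - x.2) = g.1 ⨯₃ (bc y - bc x) := by
  unfold On at hx hy
  rw [hx, hy, map_sub, bc, bc]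
  abel

theorem On.eq_of_bc {g x y : Pt} (hx : On g x) (hy : On g y) (e : bc x = bc y) : x = y := by
  have h := hx.diff hy
  rw [e, sub_self, map_zero] at h
  unfold bc at e
  refine Prod.ext (funext fun i => ?_) (funext fun i => ?_)
  all_goals
    have h1 := congrFun h i
    have h2 := congrFun e i
    simp only [Pi.sub_apply, Pi.add_apply, Pi.zero_apply] at h1 h2
    linarith

/-- `Δa = s × Δb`, `Δp = 0` gives `Δa = -Δb`, so `Δb · Δb = 0`. -/
theorem On.eq_of_fst_pt {g x y : Pt} (hx : On g x) (hy : On g y) (e : x.1 = y.1) : x = y := by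
  have h := hx.diff hy
  have e1 : (y.1 - y.2) - (x.1 - x.2) = -(bc y - bc x) := by
    rw [bc, bc, e]; abel
  have h1 := dot_cross_self g.1 (bc y - bc x)
  rw [← h, e1, dotProduct_neg, neg_eq_zero, dotProduct_self_eq_zero, sub_eq_zero] at h1
  exact hx.eq_of_bc hy h1.symm

/-- `2 Δp = Δb + s × Δb` -/
theorem On.two_fst {g x y : Pt} (hx : On g x) (hy : On g y) :
    (2 : ℝ) • (y.1 - x.1) = (bc y - bc x) + g.1 ⨯₃ (bc y - bc x) := by
  rw [← hx.diff hy, bc, bc, two_smul]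
  abel

/-- `2 Δp' = Δb - s × Δb` -/
theorem On.two_snd {g x y : Pt} (hx : On g x) (hy : On g y) :
    (2 : ℝ) • (y.2 - x.2) = (bc y - bc x) - g.1 ⨯₃ (bc y - bc x) := by
  rw [← hx.diff hy, bc, bc, two_smul]
  abel

/-- two flats through `x` and `y`: `(s_h - s_g) × Δb = 0` -/
theorem On.cross_zero {g h x y : Pt} (h1 : On g x) (h2 : On h x) (h3 : On g y) (h4 : On h y) :
    (h.1 - g.1) ⨯₃ (bc y - bc x) = 0 := by
  rw [map_sub crossProduct, LinearMap.sub_apply, ← h1.diff h3, ← h2.diff h4, sub_self]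

theorem On.axis {g h x y : Pt} (h1 : On g x) (h2 : On h x) (h3 : On g y) (h4 : On h y)
    (hne : h.1 ≠ g.1) : bc y ∈ ln (bc x) (h.1 - g.1) := by
  obtain ⟨c, hc⟩ := par_of_cross (sub_ne_zero.2 hne) (On.cross_zero h1 h2 h3 h4)
  exact ⟨c, by rw [← hc]; abel⟩

/-- lines in `b`-coordinates: the first coordinates lie on the line with direction
`v + s × v ≠ 0`, and `x ↦ x.1` is injective on the flat. -/
theorem cnt_bline_le {P₁ P₂ : Finset V3} {D : ℕ} (hP : ND P₁ D) {g : Pt} {Z : Finset Pt}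
    (hZ : Z ⊆ P₁ ×ˢ P₂) (hon : ∀ x ∈ Z, On g x) {l : Set V3} (hl : IsLine l) :
    cnt (Z.image bc) l ≤ 2 * D + 1 := by
  obtain ⟨o, v, hv, rfl⟩ := hl
  unfold cnt
  rw [filter_image]
  refine card_image_le.trans ?_
  rcases (Z.filter fun x => bc x ∈ ln o v).eq_empty_or_nonempty with he | ⟨x, hx⟩
  · rw [he]; simp
  obtain ⟨hxZ, hxl⟩ := mem_filter.1 hx
  have hw : v + g.1 ⨯₃ v ≠ 0 := by
    intro e
    have h1 := congrArg (fun u => v ⬝ᵥ u) e
    simp only [dotProduct_add, dot_cross_self, add_zero, dotProduct_zero] at h1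
    exact hv (dotProduct_self_eq_zero.1 h1)
  refine le_trans ?_ (cnt_line_le hP (isLine_ln x.1 hw))
  refine card_le_card_of_injOn Prod.fst (fun y hy => ?_) fun y hy y' hy' e => ?_
  · obtain ⟨hyZ, hyl⟩ := mem_filter.1 (mem_coe.1 hy)
    refine mem_coe.2 (mem_filter.2 ⟨(mem_product.1 (hZ hyZ)).1, ?_⟩)
    rw [← ln_eq_of_mem hxl] at hyl
    obtain ⟨c, hc⟩ := hyl
    have h1 := (hon x hxZ).two_fst (hon y hyZ)
    rw [hc, add_sub_cancel_left, map_smul, ← smul_add] at h1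
    refine ⟨c / 2, ?_⟩
    have h2 : y.1 - x.1 = (c / 2) • (v + g.1 ⨯₃ v) := by
      rw [div_eq_inv_mul, ← smul_smul, ← h1, smul_smul, inv_mul_cancel₀ two_ne_zero, one_smul]
    rw [← h2]
    abel
  · exact (hon y (mem_filter.1 (mem_coe.1 hy)).1).eq_of_fst_pt
      (hon y' (mem_filter.1 (mem_coe.1 hy')).1) e

theorem card_mt_le (P₁ P₂ : Finset V3) (g : Pt) : (mt P₁ P₂ g).card ≤ P₁.card := by
  refine card_le_card_of_injOn Prod.fst (fun y hy => ?_) fun y hy y' hy' e => ?_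
  · exact mem_coe.2 (mem_product.1 (mem_filter.1 (mem_coe.1 hy)).1).1
  · exact On.eq_of_fst_pt (mem_filter.1 (mem_coe.1 hy)).2 (mem_filter.1 (mem_coe.1 hy')).2 e

/-- two different planes meet in a subset of a line (if the normals are parallel the
intersection is empty; otherwise take the direction `ν × ν'`). -/
theorem planes_inter {A B : Set V3} (hA : IsPlane A) (hB : IsPlane B) (hAB : A ≠ B) :
    ∃ l, IsLine l ∧ A ∩ B ⊆ l := by
  obtain ⟨ν, c, hν, rfl⟩ := hA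
  obtain ⟨ν', c', hν', rfl⟩ := hB
  rcases (pl ν c ∩ pl ν' c').eq_empty_or_nonempty with he | ⟨x, hx, hx'⟩
  · exact ⟨_, isLine_ln 0 hν, by rw [he]; exact Set.empty_subset _⟩
  have h1 : ν ⬝ᵥ x = c := hx
  have h2 : ν' ⬝ᵥ x = c' := hx'
  have hne : ν ⨯₃ ν' ≠ 0 := by
    intro e
    obtain ⟨a, rfl⟩ := par_of_cross hν e
    have ha : a ≠ 0 := by
      rintro rfl
      exact hν' (zero_smul _ _)
    apply hAB
    ext y
    change ν ⬝ᵥ y = c ↔ (a • ν) ⬝ᵥ y = c'
    rw [← h2, ← h1, smul_dotProduct, smul_dotProduct, smul_eq_mul, smul_eq_mul,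
      mul_right_inj' ha]
  refine ⟨_, isLine_ln x hne, ?_⟩
  rintro y ⟨hy, hy'⟩
  have h3 : ν ⬝ᵥ (y - x) = 0 := by rw [dotProduct_sub, h1, sub_eq_zero]; exact hy
  have h4 : ν' ⬝ᵥ (y - x) = 0 := by rw [dotProduct_sub, h2, sub_eq_zero]; exact hy'
  have h5 : (ν ⨯₃ ν') ⨯₃ (y - x) = 0 := by
    rw [cross_cross_eq_smul_sub_smul, h3, h4, zero_smul, zero_smul, sub_zero]
  obtain ⟨a, ha⟩ := par_of_cross hne h5
  exact ⟨a, by rw [← ha]; abel⟩

theorem IsPlane.shift {A : Set V3} (hA : IsPlane A) (a c : V3) :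
    IsPlane {b | a + (b - c) ∈ A} := by
  obtain ⟨ν, d, hν, rfl⟩ := hA
  refine ⟨ν, d - ν ⬝ᵥ a + ν ⬝ᵥ c, hν, ?_⟩
  ext b
  change ν ⬝ᵥ (a + (b - c)) = d ↔ ν ⬝ᵥ b = d - ν ⬝ᵥ a + ν ⬝ᵥ c
  rw [dotProduct_add, dotProduct_sub]
  constructor <;> intro h <;> linarith

/-- a plane through two points contains the line through them -/
theorem IsPlane.ln_subset {A : Set V3} (hA : IsPlane A) {a b : V3} (ha : a ∈ A) (hb : b ∈ A) :
    ln a (b - a) ⊆ A := by
  obtain ⟨ν, d, -, rfl⟩ := hA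
  rintro _ ⟨c, rfl⟩
  have h1 : ν ⬝ᵥ a = d := ha
  have h2 : ν ⬝ᵥ b = d := hb
  change ν ⬝ᵥ (a + c • (b - a)) = d
  rw [dotProduct_add, dotProduct_smul, dotProduct_sub, h1, h2, sub_self, smul_zero, add_zero]

end Crest.Agent.R65.D3
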