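import Crest.Agent.R65.D3Few
import Crest.Agent.R65.D3Defs2

/-! An incidence that is not bad is good. -/

set_option autoImplicit false

open Finset Matrix
open scoped Classical

namespace Crest.Agent.R65.D3

theorem loc_cnt {P₁ P₂ : Finset V3} {Y H : Finset Pt} {Z : Pt → Finset Pt} {r : ℕ} {σ : ℝ}
    (hF : Fam P₁ P₂ Y H Z r σ) (x : Pt) (A : Set V3) :
    ((thr H Z x).filter fun h => h.1 ∈ A).card ≤ cnt ((thr H Z x).image Prod.fst) A := by
  unfold cnt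
  refine card_le_card_of_injOn Prod.fst (fun h hh => ?_) (fun a ha b hb hab => ?_)
  · have := mem_filter.1 (mem_coe.1 hh)
    exact mem_coe.2 (mem_filter.2 ⟨mem_image_of_mem _ this.1, this.2⟩)
  · have h1 := mem_filter.1 (mem_filter.1 (mem_coe.1 ha)).1
    have h2 := mem_filter.1 (mem_filter.1 (mem_coe.1 hb)).1
    exact On.eq_of_fst (hF.on a h1.1 x h1.2) (hF.on b h2.1 x h2.2) hab

theorem loc_two {P₁ P₂ : Finset V3} {Y H : Finset Pt} {Z : Pt → Finset Pt} {r : ℕ} {σ : ℝ}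
    (hF : Fam P₁ P₂ Y H Z r σ) (g x : Pt) (J : ℕ) (Ls : Finset (Set V3))
    (hLs : ∀ l ∈ Ls, IsLine l ∧ g.1 ∈ l) :
    ((thr H Z x).filter fun h => h.1 ≠ g.1 ∧
      cnt ((thr H Z x).image Prod.fst) (ln g.1 (h.1 - g.1)) < J ∧ ∃ l ∈ Ls, h.1 ∈ l).card ≤
      Ls.card * J := by
  refine le_trans (card_le_card (t := Ls.biUnion fun l => (thr H Z x).filter fun h =>
    h.1 ∈ l ∧ cnt ((thr H Z x).image Prod.fst) l < J) fun h hh => ?_)
    (card_biUnion_le_card_mul _ _ _ fun l _ => ?_)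
  · obtain ⟨h1, h2, h3, l, hl, h4⟩ := mem_filter.1 hh
    refine mem_biUnion.2 ⟨l, hl, mem_filter.2 ⟨h1, h4, ?_⟩⟩
    rw [(hLs l hl).1.eq_ln (hLs l hl).2 h4 h2]
    exact h3
  · by_cases hc : cnt ((thr H Z x).image Prod.fst) l < J
    · refine le_trans (card_le_card fun h hh => ?_) ((loc_cnt hF x l).trans hc.le)
      obtain ⟨h1, h2, _⟩ := mem_filter.1 hh
      exact mem_filter.2 ⟨h1, h2⟩
    · simp [hc]

theorem loc_three {P₁ P₂ : Finset V3} {Y H : Finset Pt} {Z : Pt → Finset Pt} {r : ℕ} {σ : ℝ}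
    (hF : Fam P₁ P₂ Y H Z r σ) (g x : Pt) (J k w : ℕ) (L₁ : ℝ) (h4 : ¬ Bad4 Z k w L₁ g x) :
    (((thr H Z x).filter fun h => h.1 ≠ g.1 ∧
      cnt ((thr H Z x).image Prod.fst) (ln g.1 (h.1 - g.1)) < J ∧
      k ≤ cnt ((Z g).image bc) (ln (bc x) (h.1 - g.1)) ∧
      ∀ A, IsPlane A → ln (bc x) (h.1 - g.1) ⊆ A → cnt ((Z g).image bc) A < w).card : ℝ) ≤
      L₁ * J := by
  set T3 := (thr H Z x).filter fun h => h.1 ≠ g.1 ∧
      cnt ((thr H Z x).image Prod.fst) (ln g.1 (h.1 - g.1)) < J ∧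
      k ≤ cnt ((Z g).image bc) (ln (bc x) (h.1 - g.1)) ∧
      ∀ A, IsPlane A → ln (bc x) (h.1 - g.1) ⊆ A → cnt ((Z g).image bc) A < w with hT3
  have h1 : T3.card ≤ J * (T3.image fun h => ln (bc x) (h.1 - g.1)).card := by
    refine card_le_mul_card_image _ _ fun l hl => ?_
    obtain ⟨h₀, hh₀, rfl⟩ := mem_image.1 hl
    obtain ⟨_, _, a3, _⟩ := mem_filter.1 hh₀
    refine le_trans (card_le_card fun h hh => ?_) ((loc_cnt hF x _).trans a3.le)
    obtain ⟨b1, b2⟩ := mem_filter.1 hh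
    refine mem_filter.2 ⟨(mem_filter.1 b1).1, ?_⟩
    have : bc x + (h.1 - g.1) ∈ ln (bc x) (h₀.1 - g.1) := by
      rw [← b2]
      exact ⟨1, by simp⟩
    obtain ⟨c, hc⟩ := this
    exact ⟨c, by rw [← add_left_cancel hc]; abel⟩
  have h2 : (((T3.image fun h => ln (bc x) (h.1 - g.1)).card : ℕ) : ℝ) ≤ L₁ := by
    by_contra hc
    refine h4 ⟨_, not_le.1 hc, fun l hl => ?_⟩
    obtain ⟨h₀, hh₀, rfl⟩ := mem_image.1 hl
    obtain ⟨_, a2, _, a4, a5⟩ := mem_filter.1 hh₀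
    exact ⟨isLine_ln _ (sub_ne_zero.2 a2), self_mem_ln _ _, a4, a5⟩
  have h3 : (T3.card : ℝ) ≤ J * ((T3.image fun h => ln (bc x) (h.1 - g.1)).card : ℝ) := by
    exact_mod_cast h1
  have h5 : (0 : ℝ) ≤ J := Nat.cast_nonneg _
  nlinarith

theorem loc_four {P₁ P₂ : Finset V3} {Y H : Finset Pt} {Z : Pt → Finset Pt} {D r w : ℕ}
    {σ s' : ℝ} (hF : Fam P₁ P₂ Y H Z r σ) (hP : ND P₁ D) {g x : Pt} (hg : g ∈ H)
    (hw : 4 * (2 * D + 1) ≤ w) (hw2 : 2 * r * (2 * D + 1) ≤ w ^ 2) (hs0 : 0 < s')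
    (hs : 2 * (r : ℝ) ≤ s' * w) (h3 : ¬ Bad3 H Z w s' g x) :
    8 * (((thr H Z x).filter fun h => ∃ B, IsPlane B ∧ ln (bc x) (h.1 - g.1) ⊆ B ∧
      w ≤ cnt ((Z g).image bc) B).card : ℝ) ≤ (thr H Z x).card := by
  set T4 := (thr H Z x).filter fun h => ∃ B, IsPlane B ∧ ln (bc x) (h.1 - g.1) ⊆ B ∧
      w ≤ cnt ((Z g).image bc) B with hT4
  have hex : ∀ h : Pt, ∃ B : Set V3, h ∈ T4 → IsPlane B ∧ ln (bc x) (h.1 - g.1) ⊆ B ∧
      w ≤ cnt ((Z g).image bc) B := by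
    intro h
    by_cases hh : h ∈ T4
    · obtain ⟨B, hB⟩ := (mem_filter.1 hh).2
      exact ⟨B, fun _ => hB⟩
    · exact ⟨∅, fun h' => absurd h' hh⟩
  choose Bf hBf using hex
  have hwpos : (0 : ℝ) < w := by
    have : 0 < w := by omega
    exact_mod_cast this
  have hQ : (((Z g).image bc).card : ℝ) ≤ r := by
    exact_mod_cast card_image_le.trans (hF.hi g hg)
  have h1 : ((T4.image Bf).card : ℝ) * w ≤ 2 * ((Z g).image bc).card := by
    refine few_planes _ _ w ((2 * D + 1 : ℕ) : ℝ) hwpos (Nat.cast_nonneg _) (fun A hA => ?_)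
      (fun l hl => ?_) ?_
    · obtain ⟨h, hh, rfl⟩ := mem_image.1 hA
      exact ⟨(hBf h hh).1, by exact_mod_cast (hBf h hh).2.2⟩
    · exact_mod_cast cnt_bline_le hP ((hF.zsub g hg).trans hF.sub) (hF.on g hg) hl
    · have h5 : ((2 * r * (2 * D + 1) : ℕ) : ℝ) ≤ ((w ^ 2 : ℕ) : ℝ) := by exact_mod_cast hw2
      have h6 : (0 : ℝ) ≤ ((2 * D + 1 : ℕ) : ℝ) := Nat.cast_nonneg _
      push_cast at h5 h6 ⊢
      nlinarith
  have h2 : ((T4.image Bf).card : ℝ) ≤ s' := by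
    refine le_of_mul_le_mul_right ?_ hwpos
    linarith
  have h4 : ∀ B ∈ T4.image Bf, 8 * s' * ((T4.filter fun h => Bf h = B).card : ℝ) ≤
      (thr H Z x).card := by
    intro B hB
    obtain ⟨h₀, hh₀, rfl⟩ := mem_image.1 hB
    obtain ⟨a1, a2, a3⟩ := hBf h₀ hh₀
    have e : {b | g.1 + (b - bc x) ∈ {s | bc x + (s - g.1) ∈ Bf h₀}} = Bf h₀ := by
      ext b
      simp
    have h5 : 8 * s' * (cnt ((thr H Z x).image Prod.fst) {s | bc x + (s - g.1) ∈ Bf h₀} : ℝ) <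
        (thr H Z x).card := by
      by_contra hc
      refine h3 ⟨{s | bc x + (s - g.1) ∈ Bf h₀}, a1.shift _ _, ?_, not_lt.1 hc, by rw [e]; exact a3⟩
      simpa using a2 (self_mem_ln _ _)
    have h6 : (T4.filter fun h => Bf h = Bf h₀).card ≤
        cnt ((thr H Z x).image Prod.fst) {s | bc x + (s - g.1) ∈ Bf h₀} := by
      refine le_trans (card_le_card fun h hh => ?_) (loc_cnt hF x _)
      obtain ⟨b1, b2⟩ := mem_filter.1 hh
      refine mem_filter.2 ⟨(mem_filter.1 b1).1, ?_⟩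
      have := (hBf h b1).2.1 (show bc x + (h.1 - g.1) ∈ ln (bc x) (h.1 - g.1) from ⟨1, by simp⟩)
      rw [b2] at this
      exact this
    have h7 : ((T4.filter fun h => Bf h = Bf h₀).card : ℝ) ≤
        cnt ((thr H Z x).image Prod.fst) {s | bc x + (s - g.1) ∈ Bf h₀} := by exact_mod_cast h6
    nlinarith
  have h5 : (T4.card : ℝ) = ∑ B ∈ T4.image Bf, ((T4.filter fun h => Bf h = B).card : ℝ) := by
    rw [card_eq_sum_card_image Bf T4]
    push_cast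
    rfl
  have h6 : 8 * s' * (T4.card : ℝ) ≤ (T4.image Bf).card * ((thr H Z x).card : ℝ) := by
    rw [h5, mul_sum]
    refine (sum_le_card_nsmul _ _ _ h4).trans (by simp)
  have h7 : (0 : ℝ) ≤ (thr H Z x).card := Nat.cast_nonneg _
  refine le_of_mul_le_mul_left ?_ hs0
  nlinarith

/-- Let `d = |thr| ≥ τ`, `S = thr.image fst` (`fst` injective on `thr`), `Q = (Z g).image bc`.
A flat `h ∈ thr` not counted by `GoodInc` is: (0) `g` itself; (1) on a `J`-rich line through `g.1`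
(at most `d / 8` by `¬ Bad2`); or its line `ln g.1 (h.1 - g.1)` has `< J` points of `S` and
(2) `h.1 ∈ l ∈ Ls` (then `l` is that line: at most `(5 e + 1) J`), or (3) `ln (bc x) (h.1 - g.1)` is
`k`-rich and in no `w`-rich plane (at most `L₁` lines by `¬ Bad4`; two `h` with the same `b`-line
have the same `s`-line, so at most `J` each), or (4) it lies in a `w`-rich plane `B` of `Q`: at most
`s'` such planes (`few_planes`, `cnt_bline_le`, `hw2`, `hs`), and for each of them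
`A = {s | bc x + (s - g.1) ∈ B}` is a plane through `g.1` with `8 s' cnt S A < d` by `¬ Bad3`.
Total `≤ 1 + 3 d / 8 ≤ d / 2` since `d ≥ τ ≥ 16`. -/
theorem good_of_not_bad {P₁ P₂ : Finset V3} {Y H : Finset Pt} {Z : Pt → Finset Pt} {CB CL : ℝ}
    {D n r k w e J : ℕ} {σ τ N s' L₁ : ℝ} (hF : Fam P₁ P₂ Y H Z r σ) (hP : ND P₁ D)
    (hS : StepHyp CB CL D n r k w e J σ τ N s' L₁) {g x : Pt} (hg : g ∈ H) (hx : x ∈ Z g)
    (hd : τ ≤ (thr H Z x).card) (h2 : ¬ Bad2 H Z J g x) (h3 : ¬ Bad3 H Z w s' g x)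
    (h4 : ¬ Bad4 Z k w L₁ g x) : GoodInc H Z (5 * e + 1) k τ g x := by
  intro Ls hLs hcard
  have a0 : ((thr H Z x).filter fun h => h.1 = g.1).card ≤ 1 := by
    refine card_le_one.2 fun a ha b hb => ?_
    have h1 := mem_filter.1 ha
    have h2 := mem_filter.1 hb
    have h3 := mem_filter.1 h1.1
    have h4 := mem_filter.1 h2.1
    exact On.eq_of_fst (hF.on a h3.1 x h3.2) (hF.on b h4.1 x h4.2) (h1.2.trans h2.2.symm)
  have a1 := not_lt.1 h2
  have a2 := loc_two hF g x J Ls hLs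
  have a3 := loc_three hF g x J k w L₁ h4
  have a4 := loc_four hF hP hg hS.hw hS.hw2 hS.hs0 hS.hs h3
  set T0 := (thr H Z x).filter fun h => h.1 = g.1
  set T1 := (thr H Z x).filter fun h => h.1 ≠ g.1 ∧
    J ≤ cnt ((thr H Z x).image Prod.fst) (ln g.1 (h.1 - g.1))
  set T2 := (thr H Z x).filter fun h => h.1 ≠ g.1 ∧
      cnt ((thr H Z x).image Prod.fst) (ln g.1 (h.1 - g.1)) < J ∧ ∃ l ∈ Ls, h.1 ∈ l
  set T3 := (thr H Z x).filter fun h => h.1 ≠ g.1 ∧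
      cnt ((thr H Z x).image Prod.fst) (ln g.1 (h.1 - g.1)) < J ∧
      k ≤ cnt ((Z g).image bc) (ln (bc x) (h.1 - g.1)) ∧
      ∀ A, IsPlane A → ln (bc x) (h.1 - g.1) ⊆ A → cnt ((Z g).image bc) A < w
  set T4 := (thr H Z x).filter fun h => ∃ B, IsPlane B ∧ ln (bc x) (h.1 - g.1) ⊆ B ∧
      w ≤ cnt ((Z g).image bc) B
  set G := (thr H Z x).filter fun h => h.1 ≠ g.1 ∧ (∀ l ∈ Ls, h.1 ∉ l) ∧
      cnt ((Z g).image bc) (ln (bc x) (h.1 - g.1)) < k
  have hsub : thr H Z x ⊆ T0 ∪ (T1 ∪ (T2 ∪ (T3 ∪ (T4 ∪ G)))) := by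
    intro h hh
    simp only [mem_union]
    by_cases c0 : h.1 = g.1
    · exact Or.inl (mem_filter.2 ⟨hh, c0⟩)
    by_cases c1 : J ≤ cnt ((thr H Z x).image Prod.fst) (ln g.1 (h.1 - g.1))
    · exact Or.inr (Or.inl (mem_filter.2 ⟨hh, c0, c1⟩))
    by_cases c2 : ∃ l ∈ Ls, h.1 ∈ l
    · exact Or.inr (Or.inr (Or.inl (mem_filter.2 ⟨hh, c0, not_le.1 c1, c2⟩)))
    by_cases c4 : ∃ B, IsPlane B ∧ ln (bc x) (h.1 - g.1) ⊆ B ∧ w ≤ cnt ((Z g).image bc) B
    · exact Or.inr (Or.inr (Or.inr (Or.inr (Or.inl (mem_filter.2 ⟨hh, c4⟩)))))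
    by_cases c3 : k ≤ cnt ((Z g).image bc) (ln (bc x) (h.1 - g.1))
    · refine Or.inr (Or.inr (Or.inr (Or.inl (mem_filter.2 ⟨hh, c0, not_le.1 c1, c3, ?_⟩))))
      intro A hA hsub
      by_contra hc
      exact c4 ⟨A, hA, hsub, not_lt.1 hc⟩
    · refine Or.inr (Or.inr (Or.inr (Or.inr (Or.inr (mem_filter.2 ⟨hh, c0, ?_, not_le.1 c3⟩)))))
      intro l hl hm
      exact c2 ⟨l, hl, hm⟩
  have hc : (thr H Z x).card ≤ T0.card + (T1.card + (T2.card + (T3.card + (T4.card + G.card)))) :=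
    (card_le_card hsub).trans ((card_union_le _ _).trans (Nat.add_le_add_left
      ((card_union_le _ _).trans (Nat.add_le_add_left ((card_union_le _ _).trans
        (Nat.add_le_add_left ((card_union_le _ _).trans (Nat.add_le_add_left
          (card_union_le _ _) _)) _)) _)) _))
  have hc' : ((thr H Z x).card : ℝ) ≤
      T0.card + (T1.card + (T2.card + (T3.card + (T4.card + G.card)))) := by exact_mod_cast hc
  have b0 : (T0.card : ℝ) ≤ 1 := by exact_mod_cast a0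
  have b2 : (T2.card : ℝ) ≤ (5 * (e : ℝ) + 1) * J := by
    have := a2.trans (Nat.mul_le_mul_right J hcard)
    exact_mod_cast this
  have hJ : (2 : ℝ) ≤ J := by exact_mod_cast hS.J2
  have hL := hS.hL
  have hL0 := hS.hL0
  have he : (0 : ℝ) ≤ e := Nat.cast_nonneg _
  have h16 : 16 ≤ τ := by nlinarith
  nlinarith

end Crest.Agent.R65.D3
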