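import Crest.Agent.R65.D3Bad2
import Crest.Agent.R65.D3Bad3
import Crest.Agent.R65.D3Loc

/-! Most incidences are good. -/

set_option autoImplicit false

open Finset Matrix
open scoped Classical

namespace Crest.Agent.R65.D3

theorem good_swap {Y H : Finset Pt} {Z : Pt → Finset Pt} (hZ : ∀ g ∈ H, Z g ⊆ Y)
    (p : Pt → Pt → Prop) [∀ g, DecidablePred (p g)] [∀ x, DecidablePred fun g => p g x] :
    ∑ g ∈ H, (((Z g).filter fun x => p g x).card : ℝ) =
      ∑ x ∈ Y, (((thr H Z x).filter fun g => p g x).card : ℝ) := by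
  have h1 : ∀ g ∈ H, (((Z g).filter fun x => p g x).card : ℝ) =
      ∑ x ∈ Y, if x ∈ Z g ∧ p g x then (1 : ℝ) else 0 := by
    intro g hg
    rw [sum_boole]
    congr 2
    ext x
    simp only [mem_filter]
    exact ⟨fun h => ⟨hZ g hg h.1, h⟩, fun h => h.2⟩
  rw [sum_congr rfl h1, sum_comm]
  refine sum_congr rfl fun x _ => ?_
  rw [sum_boole, thr, filter_filter]

/-- Four kinds of bad incidences, each at most `|H| r / 64 = τ N` (swap the sums
`∑_{g ∈ H} ∑_{x ∈ Z g} = ∑_{x ∈ Y} ∑_{g ∈ thr x}`; total number of incidences `≤ |H| r`):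
low degree `≤ τ |Y|`; `Bad2` at high points `≤ 8 CB (d / J + σ) ≤ d / 64`; `Bad3` at high points
`≤ 32 s' n² / w² ≤ τ` each; `Bad4` `≤ r / 64` for each `g`. -/
theorem good_count {P₁ P₂ : Finset V3} {Y H : Finset Pt} {Z : Pt → Finset Pt} {CB CL : ℝ}
    {D n r k w e J : ℕ} {σ τ N s' L₁ : ℝ} (hF : Fam P₁ P₂ Y H Z r σ) (hP : ND P₁ D)
    (hn : P₁.card ≤ n) (hCB : 1 ≤ CB) (hCL : 1 ≤ CL) (hB : BeckFor CB) (hL : L3For CL)
    (hS : StepHyp CB CL D n r k w e J σ τ N s' L₁) (hY : (Y.card : ℝ) ≤ N)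
    (hτ : 64 * τ * N = H.card * r) :
    16 * ∑ g ∈ H, (((Z g).filter fun x => ¬ GoodInc H Z (5 * e + 1) k τ g x).card : ℝ) ≤
      H.card * r := by
  have hJ : (0 : ℝ) < J := by
    have := hS.J2
    exact_mod_cast (by omega : 0 < J)
  have he : (0 : ℝ) ≤ e := Nat.cast_nonneg _
  have hτ0 : 0 < τ := by
    have h1 := hS.hL
    have h2 := hS.hL0
    have : 0 < 8 * (5 * (e : ℝ) + 1 + L₁) * J := by positivity
    linarith
  have hk : (0 : ℝ) < k := by
    have := hS.k2
    exact_mod_cast (by omega : 0 < k)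
  have hw : (0 : ℝ) < w := by
    have := hS.hw
    exact_mod_cast (by omega : 0 < w)
  have hYτ : (Y.card : ℝ) * τ ≤ τ * N := by nlinarith
  -- total number of incidences
  have hI : ∑ x ∈ Y, ((thr H Z x).card : ℝ) ≤ H.card * r := by
    have h1 := good_swap hF.zsub (fun _ _ => True)
    simp only [filter_true] at h1
    rw [← h1]
    refine (sum_le_card_nsmul _ _ (r : ℝ) fun g hg => ?_).trans (by simp)
    exact_mod_cast hF.hi g hg
  have b1 : ∑ g ∈ H, (((Z g).filter fun x => ((thr H Z x).card : ℝ) < τ).card : ℝ) ≤ τ * N := by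
    rw [good_swap hF.zsub (fun _ x => ((thr H Z x).card : ℝ) < τ)]
    refine (sum_le_card_nsmul _ _ τ fun x _ => ?_).trans (by simpa using hYτ)
    by_cases hc : ((thr H Z x).card : ℝ) < τ
    · simpa [hc] using hc.le
    · simpa [hc] using hτ0.le
  have b2 : 64 * ∑ g ∈ H, (((Z g).filter fun x =>
      τ ≤ ((thr H Z x).card : ℝ) ∧ Bad2 H Z J g x).card : ℝ) ≤ H.card * r := by
    rw [good_swap hF.zsub (fun g x => τ ≤ ((thr H Z x).card : ℝ) ∧ Bad2 H Z J g x), mul_sum]
    refine le_trans (sum_le_sum fun x _ => ?_) hI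
    by_cases hc : τ ≤ ((thr H Z x).card : ℝ)
    · simp only [hc, true_and]
      have h1 := bad2_count hF (by linarith) hB J hS.J2 hS.hσ0 x
      have h2 : 1024 * CB * (((thr H Z x).card : ℝ) / J) ≤ (thr H Z x).card := by
        rw [← mul_div_assoc, div_le_iff₀ hJ]
        have := hS.hJ
        have h3 : (0 : ℝ) ≤ (thr H Z x).card := Nat.cast_nonneg _
        nlinarith
      have h3 := hS.hσ
      nlinarith
    · simp [hc]
  have b3 : ∑ g ∈ H, (((Z g).filter fun x =>
      τ ≤ ((thr H Z x).card : ℝ) ∧ Bad3 H Z w s' g x).card : ℝ) ≤ τ * N := by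
    rw [good_swap hF.zsub (fun g x => τ ≤ ((thr H Z x).card : ℝ) ∧ Bad3 H Z w s' g x)]
    refine (sum_le_card_nsmul _ _ τ fun x _ => ?_).trans (by simpa using hYτ)
    by_cases hc : τ ≤ ((thr H Z x).card : ℝ)
    · simp only [hc, true_and]
      have h1 := bad3_count hF hP hn w hS.hw s' hS.hs0 hS.hσ0 x (hS.hσ'.trans hc)
      exact le_of_mul_le_mul_right (h1.trans hS.hpl) (by positivity)
    · simpa [hc] using hτ0.le
  have b4 : 64 * ∑ g ∈ H, (((Z g).filter fun x => Bad4 Z k w L₁ g x).card : ℝ) ≤ H.card * r := by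
    rw [mul_sum]
    refine (sum_le_card_nsmul _ _ (r : ℝ) fun g hg => ?_).trans (by simp)
    have h1 := bad4_count (hF.on g hg) (hF.hi g hg) (by linarith) hL k w hS.k2 L₁ hS.hL0.le
    have h2 := hS.hL1
    have h3 : CL * ((r : ℝ) ^ 2 / (k : ℝ) ^ 3 + r * w / (k : ℝ) ^ 2 + r * k) =
        r * (CL * ((r : ℝ) / (k : ℝ) ^ 3 + (w : ℝ) / (k : ℝ) ^ 2 + k)) := by ring
    have h4 : (0 : ℝ) ≤ r := Nat.cast_nonneg _
    refine le_of_mul_le_mul_right ?_ hS.hL0
    rw [h3] at h1
    nlinarith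
  have hsum : ∑ g ∈ H, (((Z g).filter fun x => ¬ GoodInc H Z (5 * e + 1) k τ g x).card : ℝ) ≤
      ∑ g ∈ H, ((((Z g).filter fun x => ((thr H Z x).card : ℝ) < τ).card : ℝ) +
        ((((Z g).filter fun x => τ ≤ ((thr H Z x).card : ℝ) ∧ Bad2 H Z J g x).card : ℝ) +
        ((((Z g).filter fun x => τ ≤ ((thr H Z x).card : ℝ) ∧ Bad3 H Z w s' g x).card : ℝ) +
        (((Z g).filter fun x => Bad4 Z k w L₁ g x).card : ℝ)))) := by
    refine sum_le_sum fun g hg => ?_
    have hsub : ((Z g).filter fun x => ¬ GoodInc H Z (5 * e + 1) k τ g x) ⊆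
        ((Z g).filter fun x => ((thr H Z x).card : ℝ) < τ) ∪
        (((Z g).filter fun x => τ ≤ ((thr H Z x).card : ℝ) ∧ Bad2 H Z J g x) ∪
        (((Z g).filter fun x => τ ≤ ((thr H Z x).card : ℝ) ∧ Bad3 H Z w s' g x) ∪
        ((Z g).filter fun x => Bad4 Z k w L₁ g x))) := by
      intro x hx
      obtain ⟨h1, h2⟩ := mem_filter.1 hx
      simp only [mem_union, mem_filter, h1, true_and]
      by_contra hc
      push Not at hc
      exact h2 (good_of_not_bad hF hP hS hg h1 hc.1 (hc.2.1 hc.1) (hc.2.2.1 hc.1) hc.2.2.2)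
    have := (card_le_card hsub).trans ((card_union_le _ _).trans (Nat.add_le_add_left
      ((card_union_le _ _).trans (Nat.add_le_add_left (card_union_le _ _) _)) _))
    exact_mod_cast this
  rw [sum_add_distrib, sum_add_distrib, sum_add_distrib] at hsum
  linarith

/-- Markov: at least three quarters of the flats have `r / 4` good points. -/
theorem good_flats {H : Finset Pt} {Z : Pt → Finset Pt} {r : ℕ} (hr : 0 < r)
    (p : Pt → Pt → Prop) (hlo : ∀ g ∈ H, r ≤ 2 * (Z g).card)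
    (h : 16 * ∑ g ∈ H, (((Z g).filter fun x => ¬ p g x).card : ℝ) ≤ H.card * r) :
    3 * H.card ≤ 4 * (H.filter fun g => r ≤ 4 * ((Z g).filter fun x => p g x).card).card := by
  have h1 := card_filter_add_card_filter_not (s := H)
    (fun g => r ≤ 4 * ((Z g).filter fun x => p g x).card)
  set B := H.filter fun g => ¬ r ≤ 4 * ((Z g).filter fun x => p g x).card with hB
  have h2 : (B.card : ℝ) * r ≤ 4 * ∑ g ∈ H, (((Z g).filter fun x => ¬ p g x).card : ℝ) := by
    refine le_trans ?_ (mul_le_mul_of_nonneg_left (sum_le_sum_of_subset_of_nonneg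
      (filter_subset _ H : B ⊆ H) fun _ _ _ => Nat.cast_nonneg _) (by norm_num))
    rw [mul_sum]
    refine le_trans (by simp) (card_nsmul_le_sum B _ (r : ℝ) fun g hg => ?_)
    obtain ⟨a1, a2⟩ := mem_filter.1 hg
    have a3 := hlo g a1
    have a4 := card_filter_add_card_filter_not (s := Z g) (fun x => p g x)
    have a5 : r ≤ 4 * ((Z g).filter fun x => ¬ p g x).card := by omega
    exact_mod_cast a5
  have hr' : (0 : ℝ) < r := by exact_mod_cast hr
  have h3 : 4 * (B.card : ℝ) ≤ H.card := le_of_mul_le_mul_right (by linarith) hr'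
  have h4 : 4 * B.card ≤ H.card := by exact_mod_cast h3
  omega

end Crest.Agent.R65.D3
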