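import Crest.Agent.R65.D3Defs

/-! Greedy sampling (linear algebra). -/

set_option autoImplicit false

open Finset Matrix
open scoped Classical

namespace Crest.Agent.R65.D3

/-- Potential `Φ(W) = ∑_{g ∈ H} (finrank (W ⊔ U g) - finrank (U g)) ≤ |H| M` for a subspace `W`.
Induction on `j`: either there is a subspace `W` with `finrank V ≤ finrank W + j M` and
`Φ(W) + j lam / 4 ≤ |H| M`, or the conclusion holds (`j lam ≤ 4 |H| M` gives `j M < finrank V`, so
`W ≠ ⊥`; large `j` is absurd).  Step: if
more than `|H| / 4` of the `g ∈ A` have `¬ W ≤ U g`, pick `f_g ∈ W \ U g`; by averaging some `h ∈ H`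
has `f_g ∉ U g ⊔ U h` for at least `lam / 4` of them; `W' = W ⊓ U h` has
`W' ⊔ U g < W ⊔ U g` for these `g`.  Otherwise any nonzero `f ∈ W` works. -/
theorem greedy {K V ι : Type} [Field K] [AddCommGroup V] [Module K V] [FiniteDimensional K V]
    (H A : Finset ι) (hA : A ⊆ H) (U : ι → Submodule K V) (M : ℕ)
    (hM : ∀ g ∈ H, Module.finrank K V ≤ Module.finrank K (U g) + M) (lam : ℝ) (hlam : 0 < lam)
    (hcut : ∀ g ∈ A, ∀ f, f ∉ U g → lam ≤ (H.filter fun h => f ∉ U g ⊔ U h).card)
    (hdim : 4 * (H.card : ℝ) * (M : ℝ) ^ 2 < lam * Module.finrank K V) :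
    ∃ f : V, f ≠ 0 ∧ 4 * (A.filter fun g => f ∉ U g).card ≤ H.card := by
  by_contra hcon
  have hc : ∀ f : V, f ≠ 0 → H.card < 4 * (A.filter fun g => f ∉ U g).card := fun f hf =>
    not_le.1 fun h => hcon ⟨f, hf, h⟩
  have hlow : ∀ W : Submodule K V, ∑ g ∈ H, (Module.finrank K (U g) : ℝ) ≤
      ∑ g ∈ H, (Module.finrank K ↥(W ⊔ U g) : ℝ) := fun W =>
    sum_le_sum fun g _ => Nat.cast_le.2 (Submodule.finrank_mono le_sup_right)
  have key : ∀ j : ℕ, ∃ W : Submodule K V, Module.finrank K V ≤ Module.finrank K W + j * M ∧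
      ∑ g ∈ H, (Module.finrank K ↥(W ⊔ U g) : ℝ) + j * (lam / 4) ≤
        ∑ g ∈ H, (Module.finrank K (U g) : ℝ) + H.card * M := by
    intro j
    induction j with
    | zero =>
      refine ⟨⊤, by simp, ?_⟩
      rw [Nat.cast_zero, zero_mul, add_zero, ← nsmul_eq_mul, ← sum_const, ← sum_add_distrib]
      refine sum_le_sum fun g hg => ?_
      exact_mod_cast (Submodule.finrank_le _).trans (hM g hg)
    | succ j ih =>
      obtain ⟨W, h1, h2⟩ := ih
      have h3 : (j : ℝ) * (lam / 4) ≤ H.card * M := by linarith [hlow W]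
      have h4 : j * M < Module.finrank K V := by
        have a1 := mul_le_mul_of_nonneg_right h3 (Nat.cast_nonneg (α := ℝ) M)
        have a2 : lam * ((j : ℝ) * M) < lam * Module.finrank K V := by linarith
        exact_mod_cast lt_of_mul_lt_mul_left a2 hlam.le
      have hW : W ≠ ⊥ := by
        rintro rfl
        rw [finrank_bot] at h1
        omega
      obtain ⟨f₀, hf₀, hf₀0⟩ := W.exists_mem_ne_zero_of_ne_bot hW
      set B := A.filter fun g => ¬W ≤ U g with hB
      have hBc : H.card < 4 * B.card := by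
        refine (hc f₀ hf₀0).trans_le (Nat.mul_le_mul_left _ (card_le_card fun g hg => ?_))
        exact mem_filter.2 ⟨(mem_filter.1 hg).1, fun h => (mem_filter.1 hg).2 (h hf₀)⟩
      have hex : ∀ g, ∃ f, g ∈ B → f ∈ W ∧ f ∉ U g := by
        intro g
        by_cases h : g ∈ B
        · obtain ⟨f, hf⟩ := SetLike.not_le_iff_exists.1 (mem_filter.1 h).2
          exact ⟨f, fun _ => hf⟩
        · exact ⟨0, fun h' => absurd h' h⟩
      choose f hf using hex
      have h5 : ∃ h ∈ H, lam / 4 ≤ ((B.filter fun g => f g ∉ U g ⊔ U h).card : ℝ) := by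
        by_contra hn
        push Not at hn
        have a1 : ∑ h ∈ H, (B.filter fun g => f g ∉ U g ⊔ U h).card =
            ∑ g ∈ B, (H.filter fun h => f g ∉ U g ⊔ U h).card := by
          simp only [card_filter]
          exact sum_comm
        have a2 : ∑ h ∈ H, ((B.filter fun g => f g ∉ U g ⊔ U h).card : ℝ) ≤ H.card * (lam / 4) := by
          rw [← nsmul_eq_mul, ← sum_const]
          exact sum_le_sum fun h hh => (hn h hh).le
        have a3 : (B.card : ℝ) * lam ≤
            ∑ g ∈ B, ((H.filter fun h => f g ∉ U g ⊔ U h).card : ℝ) := by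
          rw [← nsmul_eq_mul, ← sum_const]
          exact sum_le_sum fun g hg => hcut g (mem_filter.1 hg).1 _ (hf g hg).2
        have a4 : ∑ h ∈ H, ((B.filter fun g => f g ∉ U g ⊔ U h).card : ℝ) =
            ∑ g ∈ B, ((H.filter fun h => f g ∉ U g ⊔ U h).card : ℝ) := by exact_mod_cast a1
        have a5 : (H.card : ℝ) < 4 * B.card := by exact_mod_cast hBc
        have a6 := mul_lt_mul_of_pos_right a5 hlam
        linarith
      obtain ⟨h, hh, h6⟩ := h5
      refine ⟨W ⊓ U h, ?_, ?_⟩
      · have a1 := Submodule.finrank_sup_add_finrank_inf_eq W (U h)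
        have a2 := Submodule.finrank_le (W ⊔ U h)
        have a3 := hM h hh
        rw [Nat.succ_mul]
        omega
      · set S := B.filter fun g => f g ∉ U g ⊔ U h with hS
        have a1 : ∑ g ∈ H, (Module.finrank K ↥(W ⊓ U h ⊔ U g) + if g ∈ S then 1 else 0) ≤
            ∑ g ∈ H, Module.finrank K ↥(W ⊔ U g) := by
          refine sum_le_sum fun g _ => ?_
          have b1 : W ⊓ U h ⊔ U g ≤ W ⊔ U g := sup_le_sup_right inf_le_left _
          split_ifs with hg
          · obtain ⟨c1, c2⟩ := mem_filter.1 hg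
            refine Submodule.finrank_lt_finrank_of_lt (lt_of_le_of_ne b1 fun e => c2 ?_)
            have c3 : f g ∈ W ⊓ U h ⊔ U g := e ▸ Submodule.mem_sup_left (hf g c1).1
            have c4 : W ⊓ U h ⊔ U g ≤ U g ⊔ U h :=
              sup_le (inf_le_right.trans le_sup_right) le_sup_left
            exact c4 c3
          · exact Submodule.finrank_mono b1
        have a2 : H.filter (· ∈ S) = S := by
          rw [filter_mem_eq_inter]
          exact inter_eq_right.2 (((filter_subset _ _).trans (filter_subset _ _)).trans hA)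
        rw [sum_add_distrib, ← card_filter, a2] at a1
        have a3 : ∑ g ∈ H, (Module.finrank K ↥(W ⊓ U h ⊔ U g) : ℝ) + S.card ≤
            ∑ g ∈ H, (Module.finrank K ↥(W ⊔ U g) : ℝ) := by exact_mod_cast a1
        push_cast
        linarith
  obtain ⟨j, hj⟩ := exists_nat_gt ((H.card : ℝ) * M / (lam / 4))
  obtain ⟨W, -, h2⟩ := key j
  rw [div_lt_iff₀ (by positivity)] at hj
  linarith [hlow W]

end Crest.Agent.R65.D3
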