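import Crest.Agent.R65.D3Aff
import Crest.Agent.R65.D3Geo

/-! Derivative chain, tangent planes. -/

set_option autoImplicit false

open Finset Matrix
open scoped Classical

namespace Crest.Agent.R65.D3

theorem idx_pderiv_lt (F : MvPolynomial (Fin 3) ℝ) (h : 0 < F.totalDegree) (j : Fin 3) :
    (MvPolynomial.pderiv j F).totalDegree < F.totalDegree := by
  rw [MvPolynomial.totalDegree, Finset.sup_lt_iff h]
  intro m hm
  have h1 : m + Finsupp.single j 1 ∈ F.support := by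
    rw [MvPolynomial.mem_support_iff] at hm ⊢
    intro h0
    rw [MvPolynomial.coeff_pderiv, h0, zero_mul] at hm
    exact hm rfl
  have h2 := MvPolynomial.le_totalDegree h1
  rw [Finsupp.sum_add_index' (fun _ => rfl) (fun _ _ _ => rfl), Finsupp.sum_single_index rfl] at h2
  omega

theorem idx_pderiv_ne (F : MvPolynomial (Fin 3) ℝ) (h : 0 < F.totalDegree) :
    ∃ j, MvPolynomial.pderiv j F ≠ 0 := by
  rw [MvPolynomial.totalDegree, Finset.lt_sup_iff] at h
  obtain ⟨m, hm, h1⟩ := h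
  obtain ⟨j, hj⟩ : ∃ j, m j ≠ 0 := by
    by_contra hcon
    push Not at hcon
    have : m = 0 := Finsupp.ext hcon
    rw [this, Finsupp.sum_zero_index] at h1
    exact lt_irrefl _ h1
  refine ⟨j, fun h0 => ?_⟩
  have h2 := MvPolynomial.coeff_pderiv (i := j) F (m - Finsupp.single j 1)
  rw [h0, MvPolynomial.coeff_zero, tsub_add_cancel_of_le
    (Finsupp.single_le_iff.2 (Nat.one_le_iff_ne_zero.2 hj))] at h2
  rcases mul_eq_zero.1 h2.symm with h3 | h3
  · exact MvPolynomial.mem_support_iff.1 hm h3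
  · exact absurd h3 (by positivity)

/-- Induction on the total degree: if `F` is a nonzero constant take `d = 0`; otherwise some
partial derivative is nonzero (characteristic zero) and has smaller degree. -/
theorem idx_chain (F : MvPolynomial (Fin 3) ℝ) (hF : F ≠ 0) :
    ∃ (f : ℕ → MvPolynomial (Fin 3) ℝ) (jj : ℕ → Fin 3) (d : ℕ), d ≤ F.totalDegree ∧ f 0 = F ∧
      (∀ i, (f i).totalDegree ≤ F.totalDegree) ∧
      (∀ i < d, f (i + 1) = MvPolynomial.pderiv (jj i) (f i)) ∧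
      ∀ x : V3, MvPolynomial.eval x (f d) ≠ 0 := by
  induction hN : F.totalDegree using Nat.strong_induction_on generalizing F with
  | _ N ih =>
    subst hN
    rcases Nat.eq_zero_or_pos F.totalDegree with h0 | h0
    · refine ⟨fun _ => F, fun _ => 0, 0, Nat.zero_le _, rfl, fun _ => le_rfl,
        fun i hi => absurd hi (Nat.not_lt_zero i), fun x hx => hF ?_⟩
      have h1 := MvPolynomial.totalDegree_eq_zero_iff_eq_C.1 h0
      rw [h1, MvPolynomial.eval_C] at hx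
      rw [h1, hx, MvPolynomial.C_0]
    · obtain ⟨j, hj⟩ := idx_pderiv_ne F h0
      have hlt := idx_pderiv_lt F h0 j
      obtain ⟨g, jj, d, a1, a2, a3, a4, a5⟩ := ih _ hlt _ hj rfl
      refine ⟨fun i => Nat.casesOn i F g, fun i => Nat.casesOn i j jj, d + 1, by omega, rfl,
        fun i => ?_, fun i hi => ?_, a5⟩
      · cases i with
        | zero => exact le_rfl
        | succ i => exact (a3 i).trans hlt.le
      · cases i with
        | zero => exact a2
        | succ i => exact a4 i (by omega)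

/-- chain rule at `c = 0` for `c ↦ f (x + c v)` (induction on `f`, `HasDerivAt`) -/
theorem hasDerivAt_line (f : MvPolynomial (Fin 3) ℝ) (x v : V3) :
    HasDerivAt (fun c : ℝ => MvPolynomial.eval (x + c • v) f) (grad f x ⬝ᵥ v) 0 := by
  induction f using MvPolynomial.induction_on with
  | C a =>
    have : grad (MvPolynomial.C a) x = 0 := by
      ext j
      simp [grad]
    rw [this, zero_dotProduct]
    simp only [MvPolynomial.eval_C]
    exact hasDerivAt_const _ _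
  | add p q hp hq =>
    have : grad (p + q) x = grad p x + grad q x := by
      ext j
      simp [grad]
    rw [this, add_dotProduct]
    simp only [map_add]
    exact hp.add hq
  | mul_X p i hp =>
    have h1 : grad (p * MvPolynomial.X i) x =
        x i • grad p x + MvPolynomial.eval x p • Pi.single i 1 := by
      ext j
      by_cases h : j = i
      · subst h
        simp [grad, mul_comm, add_comm]
      · simp [grad, mul_comm, MvPolynomial.pderiv_X, h, Ne.symm h]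
    have h2 : HasDerivAt (fun c : ℝ => x i + c * v i) (v i) 0 := by
      simpa using ((hasDerivAt_id (0 : ℝ)).mul_const (v i)).const_add (x i)
    have h3 := hp.mul h2
    rw [h1, add_dotProduct, smul_dotProduct, smul_dotProduct, single_dotProduct]
    simp only [map_mul, MvPolynomial.eval_X, Pi.add_apply, Pi.smul_apply, smul_eq_mul]
    refine h3.congr_deriv ?_
    simp only [zero_smul, add_zero, zero_mul, one_mul]
    ring

theorem grad_dot_zero (f : MvPolynomial (Fin 3) ℝ) (x v : V3)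
    (h : ∀ y ∈ ln x v, MvPolynomial.eval y f = 0) : grad f x ⬝ᵥ v = 0 := by
  have h1 := hasDerivAt_line f x v
  have h2 : (fun c : ℝ => MvPolynomial.eval (x + c • v) f) = fun _ => 0 :=
    funext fun c => h _ ⟨c, rfl⟩
  rw [h2] at h1
  exact h1.unique (hasDerivAt_const _ _)

/-- a line in the zero set lies in the tangent plane -/
theorem line_sub_tangent (f : MvPolynomial (Fin 3) ℝ) {l : Set V3} (hl : IsLine l) {x : V3}
    (hx : x ∈ l) (h : ∀ y ∈ l, MvPolynomial.eval y f = 0) :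
    l ⊆ pl (grad f x) (grad f x ⬝ᵥ x) := by
  obtain ⟨a, v, -, rfl⟩ := hl
  rw [← ln_eq_of_mem hx] at h ⊢
  rintro _ ⟨c, rfl⟩
  change grad f x ⬝ᵥ (x + c • v) = grad f x ⬝ᵥ x
  rw [dotProduct_add, dotProduct_smul, grad_dot_zero f x v h, smul_zero, add_zero]

/-- a plane in the zero set is the tangent plane at each of its smooth points -/
theorem plane_eq_tangent (f : MvPolynomial (Fin 3) ℝ) {A : Set V3} (hA : IsPlane A) {x : V3}
    (hx : x ∈ A) (h : ∀ y ∈ A, MvPolynomial.eval y f = 0) (hg : grad f x ≠ 0) :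
    A = pl (grad f x) (grad f x ⬝ᵥ x) := by
  obtain ⟨ν, c, hν, rfl⟩ := hA
  have hx' : ν ⬝ᵥ x = c := hx
  have h1 : ∀ v, ν ⬝ᵥ v = 0 → grad f x ⬝ᵥ v = 0 := by
    intro v hv
    refine grad_dot_zero f x v fun y hy => h y ?_
    obtain ⟨t, rfl⟩ := hy
    change ν ⬝ᵥ (x + t • v) = c
    rw [dotProduct_add, dotProduct_smul, hv, smul_zero, add_zero, hx']
  generalize grad f x = g at h1 hg ⊢
  have hνν : ν ⬝ᵥ ν ≠ 0 := fun h0 => hν (dotProduct_self_eq_zero.1 h0)
  obtain ⟨t, ht⟩ : ∃ t : ℝ, g = t • ν := by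
    refine ⟨(ν ⬝ᵥ g) / (ν ⬝ᵥ ν), sub_eq_zero.1 (dotProduct_self_eq_zero.1 ?_)⟩
    have h2 : ν ⬝ᵥ (g - ((ν ⬝ᵥ g) / (ν ⬝ᵥ ν)) • ν) = 0 := by
      rw [dotProduct_sub, dotProduct_smul, smul_eq_mul, div_mul_cancel₀ _ hνν, sub_self]
    rw [sub_dotProduct, h1 _ h2, smul_dotProduct, h2, smul_zero, sub_self]
  have ht0 : t ≠ 0 := by
    rintro rfl
    exact hg (by rw [ht, zero_smul])
  ext y
  change ν ⬝ᵥ y = c ↔ g ⬝ᵥ y = g ⬝ᵥ x
  rw [ht, smul_dotProduct, smul_dotProduct, hx', smul_eq_mul, smul_eq_mul, mul_right_inj' ht0]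

theorem idx_ln_smul (x v : V3) {t : ℝ} (ht : t ≠ 0) : ln x (t • v) = ln x v := by
  ext y
  constructor
  · rintro ⟨c, rfl⟩
    exact ⟨c * t, by rw [smul_smul]⟩
  · rintro ⟨c, rfl⟩
    exact ⟨c / t, by rw [smul_smul, div_mul_cancel₀ _ ht]⟩

theorem idx_span {ν B C : V3} (hν : ν ≠ 0) (hB : ν ⬝ᵥ B = 0) (hC : ν ⬝ᵥ C = 0)
    (hn : C ⨯₃ B ≠ 0) {v : V3} (hv : ν ⬝ᵥ v = 0) : ∃ α β : ℝ, v = α • B + β • C := by
  have h1 : ν ⨯₃ (C ⨯₃ B) = 0 := by
    rw [cross_cross_eq_smul_sub_smul', hB, dotProduct_comm C ν, hC, zero_smul, zero_smul, sub_self]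
  obtain ⟨t, ht⟩ := par_of_cross hν h1
  have h2 : (C ⨯₃ B) ⬝ᵥ v = 0 := by rw [ht, smul_dotProduct, hv, smul_zero]
  have h3 : (C ⨯₃ B) ⬝ᵥ (C ⨯₃ B) ≠ 0 := fun h0 => hn (dotProduct_self_eq_zero.1 h0)
  have h4 : ((C ⨯₃ B) ⬝ᵥ (C ⨯₃ B)) • v = ((C ⨯₃ B) ⬝ᵥ v) • (C ⨯₃ B) +
      ((C ⨯₃ v) ⬝ᵥ (C ⨯₃ B)) • B + ((v ⨯₃ B) ⬝ᵥ (C ⨯₃ B)) • C := by
    ext i
    simp only [Pi.add_apply, Pi.smul_apply, smul_eq_mul]
    fin_cases i <;> simp [cross_apply, dotProduct, Fin.sum_univ_three] <;> ring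
  rw [h2, zero_smul, zero_add] at h4
  refine ⟨((C ⨯₃ B) ⬝ᵥ (C ⨯₃ B))⁻¹ * ((C ⨯₃ v) ⬝ᵥ (C ⨯₃ B)),
    ((C ⨯₃ B) ⬝ᵥ (C ⨯₃ B))⁻¹ * ((v ⨯₃ B) ⬝ᵥ (C ⨯₃ B)), ?_⟩
  rw [mul_smul, mul_smul, ← smul_add, ← h4, smul_smul, inv_mul_cancel₀ h3, one_smul]

/-- Many lines through one point of a plane in the zero set.  Take directions `C`, `B` of two of the
lines as a basis of the plane; every other line is `x + u B + m u C` with pairwise different slopes
`m`; use `lines_zero` with the pairs `(0, m)`. -/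
theorem plane_of_lines (f : MvPolynomial (Fin 3) ℝ) {A : Set V3} (hA : IsPlane A) (x : V3)
    (L : Finset (Set V3)) (hL : ∀ l ∈ L, IsLine l ∧ x ∈ l ∧ l ⊆ A ∧
      ∀ y ∈ l, MvPolynomial.eval y f = 0) (hc : f.totalDegree + 2 ≤ L.card) :
    ∀ y ∈ A, MvPolynomial.eval y f = 0 := by
  obtain ⟨ν, c, hν, rfl⟩ := hA
  have hdir : ∀ l ∈ L, ∃ v : V3, v ≠ 0 ∧ l = ln x v ∧ ν ⬝ᵥ v = 0 := by
    intro l hl
    obtain ⟨⟨a, v, hv, rfl⟩, h2, h3, -⟩ := hL l hl
    refine ⟨v, hv, (ln_eq_of_mem h2).symm, ?_⟩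
    have h4 : ν ⬝ᵥ a = c := h3 (self_mem_ln a v)
    have h5 : ν ⬝ᵥ (a + (1 : ℝ) • v) = c := h3 ⟨1, rfl⟩
    rw [one_smul, dotProduct_add, h4] at h5
    linarith
  obtain ⟨l₀, h₀, l₁, h₁, hne⟩ := Finset.one_lt_card.1 (show 1 < L.card by omega)
  obtain ⟨C, hC0, hC1, hC2⟩ := hdir l₀ h₀
  obtain ⟨B, hB0, hB1, hB2⟩ := hdir l₁ h₁
  have hx : ν ⬝ᵥ x = c := (hL l₀ h₀).2.2.1 (hL l₀ h₀).2.1
  have hn : C ⨯₃ B ≠ 0 := by
    intro h0
    obtain ⟨t, ht⟩ := par_of_cross hC0 h0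
    have ht0 : t ≠ 0 := by
      rintro rfl
      exact hB0 (by rw [ht, zero_smul])
    exact hne (by rw [hC1, hB1, ht, idx_ln_smul x C ht0])
  have hm : ∀ l ∈ L.erase l₀, ∃ m : ℝ, l = ln x (B + m • C) := by
    intro l hl
    obtain ⟨v, hv0, hv1, hv2⟩ := hdir l (Finset.mem_of_mem_erase hl)
    obtain ⟨α, β, rfl⟩ := idx_span hν hB2 hC2 hn hv2
    have hα : α ≠ 0 := by
      rintro rfl
      rw [zero_smul, zero_add] at hv0 hv1
      have hβ : β ≠ 0 := by
        rintro rfl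
        exact hv0 (zero_smul _ _)
      exact Finset.ne_of_mem_erase hl (by rw [hv1, hC1, idx_ln_smul x C hβ])
    refine ⟨β / α, ?_⟩
    rw [hv1, ← idx_ln_smul x (B + (β / α) • C) hα, smul_add, smul_smul, mul_div_cancel₀ _ hα]
  choose! m hm using hm
  have hcard : ((L.erase l₀).image fun l => ((0 : ℝ), m l)).card = L.card - 1 := by
    rw [Finset.card_image_of_injOn, Finset.card_erase_of_mem h₀]
    intro l hl l' hl' h
    have h2 : m l = m l' := congrArg Prod.snd h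
    rw [hm l hl, hm l' hl', h2]
  intro y hy
  have hy' : ν ⬝ᵥ (y - x) = 0 := by
    have : ν ⬝ᵥ y = c := hy
    rw [dotProduct_sub, this, hx, sub_self]
  obtain ⟨α, β, h2⟩ := idx_span hν hB2 hC2 hn hy'
  have h3 : y = x + α • B + β • C := by rw [add_assoc, ← h2, add_sub_cancel]
  rw [h3]
  refine lines_zero f x B C ((L.erase l₀).image fun l => ((0 : ℝ), m l)) (by omega) ?_ α β
  intro cm hcm u
  obtain ⟨l, hl, rfl⟩ := Finset.mem_image.1 hcm
  refine (hL l (Finset.mem_of_mem_erase hl)).2.2.2 _ ?_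
  have h4 : x + u • B + (0 + m l * u) • C ∈ ln x (B + m l • C) :=
    ⟨u, by rw [zero_add, smul_add, smul_smul, add_assoc, mul_comm]⟩
  rwa [← hm l hl] at h4

end Crest.Agent.R65.D3
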