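import Crest.Agent.R65.L3.Main

/-! Rich lines in `ℝ³`. -/

set_option autoImplicit false

open Finset Matrix
open scoped Classical

namespace Crest.Agent.R65.D3

theorem L3For.mono {C C' : ℝ} (h : L3For C) (hC : C ≤ C') : L3For C' := fun Q k w L hk hL =>
  (h Q k w L hk hL).trans (mul_le_mul_of_nonneg_right hC (by positivity))

theorem l3_of_st {C : ℝ} (hC : 1 ≤ C) (hST : STFor C) : L3For (2 ^ 30 * C) :=
  (L3.l3 (by linarith) hST).mono (by linarith)

end Crest.Agent.R65.D3
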