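import Crest.Agent.R65.D3Part
import Crest.Agent.R65.D3Geo

/-! Rich lines in `ℝ³`: the cellular part. -/

set_option autoImplicit false

open Finset Matrix
open scoped Classical

namespace Crest.Agent.R65.D3

theorem l3_cs {α β : Type*} [DecidableEq β] (A : Finset α) (g : α → β) :
    A.card ^ 2 ≤ (A.image g).card *
      ((A.offDiag.filter fun p => g p.1 = g p.2).card + A.card) := by
  have h1 : A.card = ∑ b ∈ A.image g, (A.filter fun x => g x = b).card :=
    Finset.card_eq_sum_card_image g A
  have h2 : (∑ b ∈ A.image g, (A.filter fun x => g x = b).card) ^ 2 ≤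
      (A.image g).card * ∑ b ∈ A.image g, (A.filter fun x => g x = b).card ^ 2 :=
    sq_sum_le_card_mul_sum_sq
  have h3 : ((A ×ˢ A).filter fun p => g p.1 = g p.2).card =
      ∑ b ∈ A.image g, (A.filter fun x => g x = b).card ^ 2 := by
    rw [Finset.card_eq_sum_card_fiberwise (f := fun p : α × α => g p.1) (t := A.image g)]
    · refine Finset.sum_congr rfl fun b _ => ?_
      rw [sq, ← Finset.card_product]
      congr 1
      ext p
      simp only [Finset.mem_filter, Finset.mem_product]
      constructor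
      · rintro ⟨⟨⟨a1, a2⟩, a3⟩, a4⟩
        exact ⟨⟨a1, a4⟩, a2, a3 ▸ a4⟩
      · rintro ⟨⟨a1, a2⟩, a3, a4⟩
        exact ⟨⟨⟨a1, a3⟩, a2.trans a4.symm⟩, a2⟩
    · intro p hp
      simp only [Finset.coe_filter, Finset.mem_product, Set.mem_ofPred_eq] at hp
      exact Finset.mem_coe.2 (Finset.mem_image_of_mem g hp.1.1)
  have h4 : ((A ×ˢ A).filter fun p => g p.1 = g p.2).card ≤
      (A.offDiag.filter fun p => g p.1 = g p.2).card + A.card := by
    calc _ ≤ ((A.offDiag.filter fun p => g p.1 = g p.2) ∪ A.image fun a => (a, a)).card := by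
          refine Finset.card_le_card fun p hp => ?_
          simp only [Finset.mem_filter, Finset.mem_product] at hp
          rw [Finset.mem_union]
          by_cases e : p.1 = p.2
          · right
            exact Finset.mem_image.2 ⟨p.1, hp.1.1, Prod.ext rfl e⟩
          · left
            exact Finset.mem_filter.2 ⟨Finset.mem_offDiag.2 ⟨hp.1.1, hp.1.2, e⟩, hp.2⟩
      _ ≤ _ := (Finset.card_union_le _ _).trans (Nat.add_le_add_left Finset.card_image_le _)
  rw [← h1, ← h3] at h2
  exact h2.trans (Nat.mul_le_mul_left _ h4)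

/-- the sign vector of a point -/
noncomputable def l3sgn {j : ℕ} (f : Fin j → MvPolynomial (Fin 3) ℝ) (x : V3) : Fin j → Bool :=
  fun i => decide (0 < MvPolynomial.eval x (f i))

theorem l3_inCell {j : ℕ} (f : Fin j → MvPolynomial (Fin 3) ℝ) {x : V3}
    (hx : ∀ i, MvPolynomial.eval x (f i) ≠ 0) : InCell3 f (l3sgn f x) x := by
  intro i
  unfold l3sgn
  by_cases h : 0 < MvPolynomial.eval x (f i)
  · simp [h]
  · simp only [h, decide_false, Bool.false_eq_true, if_false]
    exact lt_of_le_of_ne (not_lt.1 h) (hx i)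

/-- Let `c' ≥ c / 2 ≥ 4 (t + 1)` be the number of points of `l` off the zero sets; they lie in at
most `t + 1` cells (`cross_line`), so by Cauchy–Schwarz there are at least
`c'² / (t + 1) - c' ≥ 3 c' ≥ c` ordered pairs of distinct points of `l` in one cell.  Different
lines give disjoint sets of pairs (`IsLine.eq_ln`), and the number of ordered pairs in one cell is
at most `|Q| m`. -/
theorem l3_cells (Q : Finset V3) {j : ℕ} (f : Fin j → MvPolynomial (Fin 3) ℝ) (t : ℕ) (m : ℝ)
    (hdeg : (∑ i, (f i).totalDegree) ≤ t)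
    (hcell : ∀ sg : Fin j → Bool, ((Q.filter (InCell3 f sg)).card : ℝ) ≤ m)
    (L : Finset (Set V3)) (hL : ∀ l ∈ L, IsLine l ∧ 8 * (t + 1) ≤ cnt Q l ∧
      cnt Q l ≤ 2 * (Q.filter fun x => x ∈ l ∧ ∀ i, MvPolynomial.eval x (f i) ≠ 0).card) :
    (∑ l ∈ L, (cnt Q l : ℝ)) ≤ Q.card * m := by
  set Q' := Q.filter fun x => ∀ i, MvPolynomial.eval x (f i) ≠ 0 with hQ'
  set P := (Q' ×ˢ Q').filter fun p => l3sgn f p.1 = l3sgn f p.2 with hP
  set A : Set V3 → Finset V3 :=
    fun l => Q.filter fun x => x ∈ l ∧ ∀ i, MvPolynomial.eval x (f i) ≠ 0 with hA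
  set PL : Set V3 → Finset (V3 × V3) :=
    fun l => (A l).offDiag.filter fun p => l3sgn f p.1 = l3sgn f p.2 with hPL
  have hm : 0 ≤ m := le_trans (Nat.cast_nonneg _) (hcell fun _ => true)
  have h1 : ∀ l ∈ L, cnt Q l ≤ (PL l).card := by
    intro l hl
    obtain ⟨hl1, hl2, hl3⟩ := hL l hl
    have c1 := l3_cs (A l) (l3sgn f)
    have c2 : ((A l).image (l3sgn f)).card ≤ t + 1 := by
      refine le_trans (Finset.card_le_card ?_) ((cross_line f hl1).trans (by omega))
      intro sg hsg
      obtain ⟨x, hx, rfl⟩ := Finset.mem_image.1 hsg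
      have hx' := (Finset.mem_filter.1 hx).2
      exact Finset.mem_filter.2 ⟨Finset.mem_univ _, x, hx'.1, l3_inCell f hx'.2⟩
    have c3 : (A l).card ^ 2 ≤ (t + 1) * ((PL l).card + (A l).card) :=
      c1.trans (Nat.mul_le_mul c2 (le_of_eq (by congr)))
    have c4 : 4 * (t + 1) ≤ (A l).card := by
      have : cnt Q l ≤ 2 * (A l).card := hl3
      omega
    have c5 : (t + 1) * (4 * (A l).card) ≤ (t + 1) * ((PL l).card + (A l).card) := by
      refine le_trans ?_ c3
      calc (t + 1) * (4 * (A l).card) = 4 * (t + 1) * (A l).card := by ring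
        _ ≤ (A l).card * (A l).card := Nat.mul_le_mul_right _ c4
        _ = _ := by ring
    have c6 := Nat.le_of_mul_le_mul_left c5 (by omega)
    have : cnt Q l ≤ 2 * (A l).card := hl3
    omega
  have h2 : ∑ l ∈ L, (PL l).card ≤ P.card := by
    rw [← Finset.card_biUnion]
    · refine Finset.card_le_card fun p hp => ?_
      obtain ⟨l, -, hp⟩ := Finset.mem_biUnion.1 hp
      obtain ⟨hp1, hp2⟩ := Finset.mem_filter.1 hp
      obtain ⟨a1, a2, -⟩ := Finset.mem_offDiag.1 hp1
      have a1' := Finset.mem_filter.1 a1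
      have a2' := Finset.mem_filter.1 a2
      exact Finset.mem_filter.2 ⟨Finset.mem_product.2
        ⟨Finset.mem_filter.2 ⟨a1'.1, a1'.2.2⟩, Finset.mem_filter.2 ⟨a2'.1, a2'.2.2⟩⟩, hp2⟩
    · intro l hl l' hl' hne
      refine Finset.disjoint_left.2 fun p hp hp' => hne ?_
      obtain ⟨a1, a2, a3⟩ := Finset.mem_offDiag.1 (Finset.mem_filter.1 hp).1
      obtain ⟨b1, b2, -⟩ := Finset.mem_offDiag.1 (Finset.mem_filter.1 hp').1
      rw [(hL l hl).1.eq_ln (Finset.mem_filter.1 a1).2.1 (Finset.mem_filter.1 a2).2.1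
          (Ne.symm a3),
        (hL l' hl').1.eq_ln (Finset.mem_filter.1 b1).2.1 (Finset.mem_filter.1 b2).2.1
          (Ne.symm a3)]
  have h3 : (P.card : ℝ) ≤ Q.card * m := by
    have e : P.card = ∑ x ∈ Q', (P.filter fun p => p.1 = x).card :=
      Finset.card_eq_sum_card_fiberwise fun p hp =>
        Finset.mem_coe.2 (Finset.mem_product.1 (Finset.mem_filter.1 (Finset.mem_coe.1 hp)).1).1
    rw [e]
    push_cast
    calc _ ≤ ∑ _x ∈ Q', m := by
          refine Finset.sum_le_sum fun x hx => le_trans ?_ (hcell (l3sgn f x))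
          refine Nat.cast_le.2 (Finset.card_le_card_of_injOn (fun p => p.2) ?_ ?_)
          · intro p hp
            obtain ⟨hp1, hp2⟩ := Finset.mem_filter.1 (Finset.mem_coe.1 hp)
            obtain ⟨hp3, hp4⟩ := Finset.mem_filter.1 hp1
            have hp5 := Finset.mem_filter.1 (Finset.mem_product.1 hp3).2
            refine Finset.mem_coe.2 (Finset.mem_filter.2 ⟨hp5.1, ?_⟩)
            rw [← hp2, hp4]
            exact l3_inCell f hp5.2
          · intro p hp q hq e
            have a := (Finset.mem_filter.1 (Finset.mem_coe.1 hp)).2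
            have b := (Finset.mem_filter.1 (Finset.mem_coe.1 hq)).2
            exact Prod.ext (a.trans b.symm) e
      _ = Q'.card * m := by rw [Finset.sum_const, nsmul_eq_mul]
      _ ≤ _ := mul_le_mul_of_nonneg_right
          (Nat.cast_le.2 (Finset.card_filter_le _ _)) hm
  refine le_trans ?_ h3
  exact_mod_cast (Finset.sum_le_sum h1).trans h2

end Crest.Agent.R65.D3
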