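import Crest.Agent.R65.D3Idx

/-! Rich lines in `ℝ³`: structure of lines inside a zero set. -/

set_option autoImplicit false

open Finset Matrix
open scoped Classical

namespace Crest.Agent.R65.D3

/-- Take `idx_chain`.  `lev x` = least `i` with `f i x ≠ 0` (`Nat.find`, exists by `f d`),
`li l` = least `i` such that `f i` does not vanish on all of `l` (`≥ 1` for `l ∈ L`, and `≤ d`),
`tp x = pl (grad (f (lev x - 1)) x) (grad … ⬝ᵥ x)`.  For `x ∈ l`, `li l ≤ lev x`, and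
`li l < lev x` makes `x` a zero of `f (li l)` (`cnt_zero_le`).  If `lev x = li l = i + 1` then
`grad (f i) x ≠ 0` (coordinate `jj i`), `l ⊆ tp x` (`line_sub_tangent`); `t + 2` such lines give
`tp x ⊆ Z (f i)` (`plane_of_lines`), and `plane_eq_tangent` gives `tp y = tp x`. -/
theorem l3_struct (F : MvPolynomial (Fin 3) ℝ) (hF : F ≠ 0) (t : ℕ) (ht : F.totalDegree ≤ t)
    (Q : Finset V3) (L : Finset (Set V3))
    (hL : ∀ l ∈ L, IsLine l ∧ ∀ y ∈ l, MvPolynomial.eval y F = 0) :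
    ∃ (lev : V3 → ℕ) (tp : V3 → Set V3) (li : Set V3 → ℕ),
      (∀ l ∈ L, cnt Q l ≤ (Q.filter fun x => x ∈ l ∧ lev x = li l).card + t) ∧
      ∀ x : V3, t + 2 ≤ (L.filter fun l => x ∈ l ∧ lev x = li l).card →
        IsPlane (tp x) ∧ ∀ l ∈ L, x ∈ l → lev x = li l →
          l ⊆ tp x ∧ ∀ y ∈ l, lev y = li l → tp y = tp x := by
  obtain ⟨f, jj, d, -, f0, fd, fs, fn⟩ := idx_chain F hF
  obtain ⟨lev, hlev⟩ : ∃ lev : V3 → ℕ,
      ∀ x, lev x = sInf {i | MvPolynomial.eval x (f i) ≠ 0} := ⟨_, fun _ => rfl⟩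
  obtain ⟨li, hli⟩ : ∃ li : Set V3 → ℕ,
      ∀ l, li l = sInf {i | ∃ y ∈ l, MvPolynomial.eval y (f i) ≠ 0} := ⟨_, fun _ => rfl⟩
  have a1 : ∀ x, MvPolynomial.eval x (f (lev x)) ≠ 0 := fun x => by
    rw [hlev]; exact Nat.sInf_mem (s := {i | MvPolynomial.eval x (f i) ≠ 0}) ⟨d, fn x⟩
  have a2 : ∀ x, lev x ≤ d := fun x => by rw [hlev]; exact Nat.sInf_le (fn x)
  have a3 : ∀ x i, i < lev x → MvPolynomial.eval x (f i) = 0 := fun x i h => by
    rw [hlev] at h; simpa using Nat.notMem_of_lt_sInf h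
  have b1 : ∀ l ∈ L, ∃ y ∈ l, MvPolynomial.eval y (f (li l)) ≠ 0 := fun l hl => by
    obtain ⟨a, v, -, rfl⟩ := (hL l hl).1
    rw [hli]
    exact Nat.sInf_mem (s := {i | ∃ y ∈ ln a v, MvPolynomial.eval y (f i) ≠ 0})
      ⟨d, a, self_mem_ln a v, fn a⟩
  have b2 : ∀ l, ∀ x ∈ l, li l ≤ lev x := fun l x hx => by
    rw [hli]; exact Nat.sInf_le ⟨x, hx, a1 x⟩
  have b3 : ∀ l i, i < li l → ∀ y ∈ l, MvPolynomial.eval y (f i) = 0 := fun l i h y hy =>
    a3 y i (h.trans_le (b2 l y hy))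
  have g0 : ∀ y i, lev y = i + 1 → grad (f i) y ≠ 0 := fun y i h h0 => by
    have h1 := a1 y
    rw [h, fs i (by have := a2 y; omega)] at h1
    exact h1 (congrFun h0 (jj i))
  refine ⟨lev, fun x => pl (grad (f (lev x - 1)) x) (grad (f (lev x - 1)) x ⬝ᵥ x), li,
    fun l hl => ?_, fun x hx => ?_⟩
  · refine le_trans ?_ (Nat.add_le_add_left
      ((cnt_zero_le Q (f (li l)) (hL l hl).1 (b1 l hl)).trans ((fd _).trans ht)) _)
    refine (card_le_card fun x hx => ?_).trans (card_union_le _ _)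
    rw [mem_filter] at hx
    rw [mem_union, mem_filter, mem_filter]
    rcases (b2 l x hx.2).eq_or_lt with h | h
    · exact Or.inl ⟨hx.1, hx.2, h.symm⟩
    · exact Or.inr ⟨hx.1, hx.2, a3 x _ h⟩
  · obtain ⟨l₀, hl₀⟩ := card_pos.1 (lt_of_lt_of_le (by omega) hx)
    rw [mem_filter] at hl₀
    obtain ⟨i, hi⟩ : ∃ i, lev x = i + 1 := by
      refine Nat.exists_eq_succ_of_ne_zero fun h => a1 x ?_
      rw [h, f0]
      exact (hL l₀ hl₀.1).2 x hl₀.2.1
    simp only [hi, Nat.add_sub_cancel] at hx ⊢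
    have hP : IsPlane (pl (grad (f i) x) (grad (f i) x ⬝ᵥ x)) := ⟨_, _, g0 x i hi, rfl⟩
    have c1 : ∀ l ∈ L, x ∈ l → i + 1 = li l → l ⊆ pl (grad (f i) x) (grad (f i) x ⬝ᵥ x) :=
      fun l hl hxl h => line_sub_tangent _ (hL l hl).1 hxl (b3 l i (by omega))
    have c2 := plane_of_lines (f i) hP x _ (fun l hl => by
      rw [mem_filter] at hl
      exact ⟨(hL l hl.1).1, hl.2.1, c1 l hl.1 hl.2.1 hl.2.2, b3 l i (by omega)⟩)
      (le_trans (Nat.add_le_add_right ((fd i).trans ht) 2) hx)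
    refine ⟨hP, fun l hl hxl h => ⟨c1 l hl hxl h, fun y hy hy' => ?_⟩⟩
    rw [hy', ← h, Nat.add_sub_cancel]
    exact (plane_eq_tangent _ hP (c1 l hl hxl h hy) c2 (g0 y i (hy'.trans h.symm))).symm

end Crest.Agent.R65.D3
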