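import Crest.Agent.R65.D3L3b

/-! Rich lines in `ℝ³`: lines inside the zero set. -/

set_option autoImplicit false

open Finset Matrix
open scoped Classical

namespace Crest.Agent.R65.D3

/-- Use `l3_struct`; a point `x ∈ l` is good for `l` if `lev x = li l`; `cnt Q l ≤ 2 · #good`.
Type A lines: every good point has at most `t + 1` lines; double counting gives
`∑ cnt ≤ 2 (t + 1) |Q|`.  Type B lines: some good point `x_l ∈ Q` has `t + 2` lines; key
`(li l, tp x_l)`; all good points of `l` lie in `Q_key = {y ∈ Q | lev y = key.1 ∧ tp y = key.2 ∧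
y ∈ key.2}`, these sets are disjoint, `|Q_key| ≤ cnt Q key.2 < w`; apply `STFor` to `Q_key` with
`k' = (k + 1) / 2 ≥ 2` and sum over the keys. -/
theorem l3_zero {C : ℝ} (hC : 1 ≤ C) (hST : STFor C) (F : MvPolynomial (Fin 3) ℝ) (hF : F ≠ 0)
    (t : ℕ) (ht : F.totalDegree ≤ t) (Q : Finset V3) (k w : ℕ) (hk : 2 * t + 4 ≤ k)
    (L : Finset (Set V3)) (hL : ∀ l ∈ L, IsLine l ∧ k ≤ cnt Q l ∧
      (∀ y ∈ l, MvPolynomial.eval y F = 0) ∧ ∀ A, IsPlane A → l ⊆ A → cnt Q A < w) :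
    (∑ l ∈ L, (cnt Q l : ℝ)) ≤
      2 * (t + 1) * Q.card + 8 * C * (Q.card * w / (k : ℝ) ^ 2) + 2 * C * Q.card := by
  obtain ⟨lev, tp, li, h1, h2⟩ := l3_struct F hF t ht Q L fun l hl => ⟨(hL l hl).1, (hL l hl).2.2.1⟩
  have hC0 : 0 ≤ C := by linarith
  let g : Set V3 → ℕ := fun l => (Q.filter fun x => x ∈ l ∧ lev x = li l).card
  let dg : V3 → ℕ := fun x => (L.filter fun l => x ∈ l ∧ lev x = li l).card
  have hg : ∀ l ∈ L, cnt Q l ≤ 2 * g l ∧ (k + 1) / 2 ≤ g l := by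
    intro l hl
    have a1 : cnt Q l ≤ g l + t := h1 l hl
    have a2 := (hL l hl).2.1
    omega
  let PB : Set V3 → Prop := fun l => ∃ x ∈ Q, x ∈ l ∧ lev x = li l ∧ t + 2 ≤ dg x
  -- type A
  have hA : ∑ l ∈ L.filter (fun l => ¬PB l), g l ≤ (t + 1) * Q.card := by
    have e : ∑ l ∈ L.filter (fun l => ¬PB l), g l =
        ∑ x ∈ Q, ((L.filter fun l => ¬PB l).filter fun l => x ∈ l ∧ lev x = li l).card := by
      simp only [g, card_filter]
      exact sum_comm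
    rw [e, mul_comm, ← smul_eq_mul, ← sum_const]
    refine sum_le_sum fun x hx => ?_
    by_contra hc
    obtain ⟨l, hl⟩ := card_pos.1 (lt_of_le_of_lt (Nat.zero_le _) (not_le.1 hc))
    obtain ⟨hl1, hl2⟩ := mem_filter.1 hl
    refine (mem_filter.1 hl1).2 ⟨x, hx, hl2.1, hl2.2, ?_⟩
    exact le_trans (not_le.1 hc) (card_le_card (filter_subset_filter _ (filter_subset _ _)))
  -- type B
  have hex : ∀ l, ∃ x, PB l → x ∈ l ∧ lev x = li l ∧ t + 2 ≤ dg x := by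
    intro l
    by_cases h : PB l
    · obtain ⟨x, -, hx⟩ := h
      exact ⟨x, fun _ => hx⟩
    · exact ⟨0, fun h' => absurd h' h⟩
  choose xl hxl using hex
  let key : Set V3 → ℕ × Set V3 := fun l => (li l, tp (xl l))
  let Qk : ℕ × Set V3 → Finset V3 := fun κ => Q.filter fun y => (lev y, tp y) = κ ∧ y ∈ κ.2
  have hk1 : ∀ l ∈ L.filter PB, g l ≤ cnt (Qk (key l)) l ∧ (Qk (key l)).card ≤ w := by
    intro l hl
    obtain ⟨hl1, hl2⟩ := mem_filter.1 hl
    obtain ⟨a1, a2, a3⟩ := hxl l hl2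
    obtain ⟨b1, b2⟩ := h2 (xl l) a3
    obtain ⟨b3, b4⟩ := b2 l hl1 a1 a2
    refine ⟨card_le_card fun y hy => ?_, le_trans (card_le_card fun y hy => ?_)
      ((hL l hl1).2.2.2 _ b1 b3).le⟩
    · obtain ⟨c1, c2, c3⟩ := mem_filter.1 hy
      exact mem_filter.2 ⟨mem_filter.2 ⟨c1, Prod.ext c3 (b4 y c2 c3), b3 c2⟩, c2⟩
    · obtain ⟨c1, -, c3⟩ := mem_filter.1 hy
      exact mem_filter.2 ⟨c1, c3⟩
  have hk0 : (0 : ℝ) < k := by exact_mod_cast (by omega : 0 < k)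
  have hB1 : ∀ κ ∈ (L.filter PB).image key, ∑ l ∈ (L.filter PB).filter (key · = κ), (g l : ℝ) ≤
      C * (4 * w / (k : ℝ) ^ 2 + 1) * (Qk κ).card := by
    intro κ hκ
    obtain ⟨l₀, hl₀, e₀⟩ := mem_image.1 hκ
    have hw : ((Qk κ).card : ℝ) ≤ w := by
      rw [← e₀]
      exact_mod_cast (hk1 l₀ hl₀).2
    have a1 : ∀ l ∈ (L.filter PB).filter (key · = κ), l ∈ L ∧ g l ≤ cnt (Qk κ) l := by
      intro l hl
      obtain ⟨hl1, hl2⟩ := mem_filter.1 hl
      exact ⟨(mem_filter.1 hl1).1, hl2 ▸ (hk1 l hl1).1⟩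
    have a2 := hST (Qk κ) ((k + 1) / 2) ((L.filter PB).filter (key · = κ)) (by omega)
      fun l hl => ⟨(hL l (a1 l hl).1).1, (hg l (a1 l hl).1).2.trans (a1 l hl).2⟩
    have a3 : (k : ℝ) ≤ 2 * (((k + 1) / 2 : ℕ) : ℝ) := by
      exact_mod_cast (by omega : k ≤ 2 * ((k + 1) / 2))
    have a4 : ((Qk κ).card : ℝ) ^ 2 / (((k + 1) / 2 : ℕ) : ℝ) ^ 2 ≤
        4 * w / (k : ℝ) ^ 2 * (Qk κ).card := by
      have b1 : (k : ℝ) ^ 2 ≤ (2 * (((k + 1) / 2 : ℕ) : ℝ)) ^ 2 := pow_le_pow_left₀ hk0.le a3 2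
      have b2 : ((Qk κ).card : ℝ) ^ 2 ≤ w * (Qk κ).card := by
        rw [sq]
        exact mul_le_mul_of_nonneg_right hw (Nat.cast_nonneg _)
      rw [div_mul_eq_mul_div, div_le_div_iff₀ (by nlinarith) (by positivity)]
      have b3 := mul_le_mul b2 b1 (by positivity) (by positivity)
      linarith
    refine (sum_le_sum fun l hl => Nat.cast_le.2 (a1 l hl).2).trans (a2.trans ?_)
    have a5 := mul_le_mul_of_nonneg_left a4 hC0
    linarith
  have hB2 : ∑ κ ∈ (L.filter PB).image key, (Qk κ).card ≤ Q.card := by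
    refine le_trans (sum_le_sum fun κ _ => card_le_card
      (t := Q.filter fun y => (lev y, tp y) = κ) fun y hy => ?_) ?_
    · exact mem_filter.2 ⟨(mem_filter.1 hy).1, (mem_filter.1 hy).2.1⟩
    · rw [sum_card_fiberwise_eq_card_filter]
      exact card_filter_le _ _
  have hB : ∑ l ∈ L.filter PB, (g l : ℝ) ≤ C * (4 * w / (k : ℝ) ^ 2 + 1) * Q.card := by
    rw [← sum_fiberwise_of_maps_to (g := key) (fun l hl => mem_image_of_mem key hl)]
    refine (sum_le_sum hB1).trans ?_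
    rw [← mul_sum]
    exact mul_le_mul_of_nonneg_left (by exact_mod_cast hB2) (by positivity)
  have hA' : ∑ l ∈ L.filter (fun l => ¬PB l), (g l : ℝ) ≤ (t + 1) * Q.card := by exact_mod_cast hA
  have hS : ∑ l ∈ L, (cnt Q l : ℝ) ≤ 2 * ∑ l ∈ L, (g l : ℝ) := by
    rw [mul_sum]
    exact sum_le_sum fun l hl => by exact_mod_cast (hg l hl).1
  rw [← sum_filter_add_sum_filter_not L PB fun l => (g l : ℝ)] at hS
  have e : C * (4 * w / (k : ℝ) ^ 2 + 1) * Q.card =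
      4 * C * (Q.card * w / (k : ℝ) ^ 2) + C * Q.card := by ring
  linarith

end Crest.Agent.R65.D3
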