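import Crest.Agent.R65.D3Aff
import Crest.Agent.R33.Ham
import Crest.Agent.R33.Cross

/-! Polynomial partitioning in `ℝ³`. -/

set_option autoImplicit false

open Finset Matrix
open scoped Classical

namespace Crest.Agent.R65.D3

/-- as `R33.ham_sandwich`, monomials `x^i y^j z^k`, `i, j, k ≤ d`, via `R33.Ham.linear` -/
theorem ham3 {ι : Type} [Fintype ι] (A : ι → Finset V3) (d : ℕ)
    (hd : Fintype.card ι < (d + 1) ^ 3) :
    ∃ f : MvPolynomial (Fin 3) ℝ, f ≠ 0 ∧ f.totalDegree ≤ 3 * d ∧ ∀ i,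
      2 * ((A i).filter fun p => 0 < MvPolynomial.eval p f).card ≤ (A i).card ∧
      2 * ((A i).filter fun p => MvPolynomial.eval p f < 0).card ≤ (A i).card := by
  obtain ⟨a, ha, h⟩ := R33.Ham.linear (κ := Fin 3 → Fin (d + 1)) A
    (fun p k => ∏ t, p t ^ (k t : ℕ)) (by simpa using hd)
  let ex : (Fin 3 → Fin (d + 1)) → (Fin 3 →₀ ℕ) := fun k =>
    Finsupp.equivFunOnFinite.symm fun t => (k t : ℕ)
  have hex : ∀ k t, ex k t = (k t : ℕ) := fun _ _ => rfl
  have hinj : Function.Injective ex := fun k k' e =>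
    funext fun t => Fin.ext (by rw [← hex, ← hex, e])
  refine ⟨∑ k, MvPolynomial.monomial (ex k) (a k), ?_, ?_, ?_⟩
  · intro h0
    apply ha
    funext k
    have := congrArg (MvPolynomial.coeff (ex k)) h0
    rw [MvPolynomial.coeff_sum] at this
    simpa [MvPolynomial.coeff_monomial, hinj.eq_iff] using this
  · refine (MvPolynomial.totalDegree_finsetSum _ _).trans (Finset.sup_le fun k _ => ?_)
    refine (MvPolynomial.totalDegree_monomial_le _ _).trans ?_
    rw [Finsupp.sum_fintype _ _ (fun _ => rfl), Fin.sum_univ_three]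
    have h0 := (k 0).2
    have h1 := (k 1).2
    have h2 := (k 2).2
    simp only [id, hex]
    omega
  · have e : ∀ p : V3, MvPolynomial.eval p
        (∑ k : Fin 3 → Fin (d + 1), MvPolynomial.monomial (ex k) (a k)) =
        ∑ k : Fin 3 → Fin (d + 1), a k * ∏ t, p t ^ (k t : ℕ) := by
      intro p
      rw [map_sum]
      refine sum_congr rfl (fun k _ => ?_)
      rw [MvPolynomial.eval_monomial, Finsupp.prod_fintype _ _ (fun _ => pow_zero _)]
      rfl
    intro i
    simp only [e]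
    exact h i

theorem part3_aux (P : Finset V3) (j : ℕ) : ∃ f : Fin j → MvPolynomial (Fin 3) ℝ,
    (∀ a, f a ≠ 0) ∧ (∑ a, (f a).totalDegree) ≤ ∑ a ∈ range j, 3 * 2 ^ (a / 3 + 1) ∧
    ∀ sg : Fin j → Bool, (P.filter (InCell3 f sg)).card * 2 ^ j ≤ P.card := by
  induction j with
  | zero =>
    refine ⟨Fin.elim0, fun i => i.elim0, by simp, fun sg => ?_⟩
    simpa using Finset.card_filter_le _ _
  | succ j ih =>
    obtain ⟨f, hf0, hfd, hfc⟩ := ih
    have hd : Fintype.card (Fin j → Bool) < (2 ^ (j / 3 + 1) + 1) ^ 3 := by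
      have h1 : 2 ^ j ≤ (2 ^ (j / 3 + 1)) ^ 3 := by
        rw [← pow_mul]
        exact Nat.pow_le_pow_right (by norm_num) (by omega)
      have h2 : (2 ^ (j / 3 + 1)) ^ 3 < (2 ^ (j / 3 + 1) + 1) ^ 3 :=
        Nat.pow_lt_pow_left (Nat.lt_succ_self _) (by norm_num)
      simpa using h1.trans_lt h2
    obtain ⟨g, hg0, hgd, hgc⟩ := ham3 (fun sg : Fin j → Bool => P.filter (InCell3 f sg))
      (2 ^ (j / 3 + 1)) hd
    refine ⟨Fin.cons g f, fun i => ?_, ?_, fun sg => ?_⟩
    · refine Fin.cases ?_ (fun i => ?_) i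
      · simpa using hg0
      · simpa using hf0 i
    · rw [Fin.sum_univ_succ, sum_range_succ]
      simp only [Fin.cons_zero, Fin.cons_succ]
      omega
    · have h1 := hfc (Fin.tail sg)
      have h2 : 2 * (P.filter (InCell3 (Fin.cons g f : Fin (j + 1) → _) sg)).card ≤
          (P.filter (InCell3 f (Fin.tail sg))).card := by
        have hsub : ∀ p, InCell3 (Fin.cons g f : Fin (j + 1) → _) sg p →
            InCell3 f (Fin.tail sg) p := fun p hp i => hp i.succ
        cases h : sg 0 with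
        | true =>
          refine le_trans (Nat.mul_le_mul_left _ (Finset.card_le_card fun p hp => ?_))
            (hgc (Fin.tail sg)).1
          rw [Finset.mem_filter] at hp
          refine Finset.mem_filter.2 ⟨Finset.mem_filter.2 ⟨hp.1, hsub p hp.2⟩, ?_⟩
          simpa [h] using hp.2 0
        | false =>
          refine le_trans (Nat.mul_le_mul_left _ (Finset.card_le_card fun p hp => ?_))
            (hgc (Fin.tail sg)).2
          rw [Finset.mem_filter] at hp
          refine Finset.mem_filter.2 ⟨Finset.mem_filter.2 ⟨hp.1, hsub p hp.2⟩, ?_⟩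
          simpa [h] using hp.2 0
      refine le_trans ?_ ((Nat.mul_le_mul_right _ h2).trans h1)
      rw [pow_succ]
      exact le_of_eq (by ring)

theorem part3_sum (i : ℕ) : ∑ a ∈ range (3 * i), 3 * 2 ^ (a / 3 + 1) ≤ 18 * 2 ^ i := by
  induction i with
  | zero => simp
  | succ i ih =>
    have e0 : 3 * i / 3 = i := by omega
    have e1 : (3 * i + 1) / 3 = i := by omega
    have e2 : (3 * i + 1 + 1) / 3 = i := by omega
    rw [show 3 * (i + 1) = 3 * i + 1 + 1 + 1 by ring, sum_range_succ, sum_range_succ,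
      sum_range_succ, e0, e1, e2, pow_succ]
    omega

/-- As `R33.poly_partition`: induction on `j`; at step `j` use `d = 2 ^ (j / 3 + 1) - 1` or any
`d` with `2 ^ j < (d + 1) ^ 3`; carry the bound `∑ deg ≤ ∑_{i < j} 3 * 2 ^ (i / 3 + 1)` and
sum it for `j = 3 i`: `∑_{a < i} 18 * 2 ^ a ≤ 18 * 2 ^ i`. -/
theorem part3 (Q : Finset V3) (i : ℕ) : ∃ f : Fin (3 * i) → MvPolynomial (Fin 3) ℝ,
    (∀ a, f a ≠ 0) ∧ (∑ a, (f a).totalDegree) ≤ 18 * 2 ^ i ∧
    ∀ sg : Fin (3 * i) → Bool, (Q.filter (InCell3 f sg)).card * 8 ^ i ≤ Q.card := by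
  obtain ⟨f, h1, h2, h3⟩ := part3_aux Q (3 * i)
  refine ⟨f, h1, h2.trans (part3_sum i), fun sg => ?_⟩
  have := h3 sg
  rwa [pow_mul] at this

/-- `aff_poly` and `R33.cross_card_sign` -/
theorem cross_line {j : ℕ} (f : Fin j → MvPolynomial (Fin 3) ℝ) {l : Set V3} (hl : IsLine l) :
    (univ.filter fun sg : Fin j → Bool => ∃ p ∈ l, InCell3 f sg p).card ≤
      (∑ i, (f i).totalDegree) + 1 := by
  obtain ⟨a, v, -, rfl⟩ := hl
  choose g hg1 hg2 using fun i => aff_poly (f i) a v
  refine le_trans (card_le_card fun sg hsg => ?_) ((R33.cross_card_sign g).trans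
    (Nat.add_le_add_right (sum_le_sum fun i _ => hg1 i) 1))
  obtain ⟨p, ⟨c, rfl⟩, hin⟩ := (mem_filter.1 hsg).2
  refine mem_filter.2 ⟨mem_univ _, c, fun i => ?_⟩
  rw [hg2]
  exact hin i

end Crest.Agent.R65.D3
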