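import Crest.Agent.R65.D3Good
import Crest.Agent.R65.D3Cut
import Crest.Agent.R65.D3Dim

/-! One step: a polynomial vanishing on half of the dual planes, and the next level. -/

set_option autoImplicit false

open Finset Matrix
open scoped Classical

namespace Crest.Agent.R65.D3

variable {K : Type} [Field K] [Algebra ℝ K]

/-- Put `τ = |H| r / (64 N) ≥ τ₀` (`StepHyp.mono`), `A` = flats with `r / 4` good points
(`good_count`, `good_flats`), `lam = r τ / (16 k)` (`cut`), `step_poly`;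
`(5 e + 1) ^ 4 ≤ 625 (e + 1) ^ 4`, and `|H| > 0`, `r > 0` because `τ₀ > 0` (`hL`). -/
theorem step {s0 : Fin 3 → K} (hs : Gen s0) {P₁ P₂ : Finset V3} {Y H : Finset Pt}
    {Z : Pt → Finset Pt} {CB CL : ℝ} {D n r k w e J : ℕ} {σ τ₀ N s' L₁ : ℝ}
    (hF : Fam P₁ P₂ Y H Z r σ) (hP : ND P₁ D) (hn : P₁.card ≤ n) (hCB : 1 ≤ CB) (hCL : 1 ≤ CL)
    (hB : BeckFor CB) (hL : L3For CL) (hS : StepHyp CB CL D n r k w e J σ τ₀ N s' L₁)
    (hY : (Y.card : ℝ) ≤ N) (hτ : 64 * τ₀ * N ≤ H.card * r) :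
    ∃ f : MvPolynomial (Fin 5) K, f ≠ 0 ∧ f.totalDegree ≤ 5 * e ∧
      H.card ≤ 2 * (H.filter fun g => ∀ u β : K, MvPolynomial.eval (Sig s0 g u β) f = 0).card := by
  have hN := hS.hN
  have hJ : (0 : ℝ) < J := by
    have := hS.J2
    exact_mod_cast (by omega : 0 < J)
  have hk : (0 : ℝ) < k := by
    have := hS.k2
    exact_mod_cast (by omega : 0 < k)
  have he : (0 : ℝ) ≤ e := Nat.cast_nonneg _
  have h0 : 0 < τ₀ := by
    have h2 := hS.hL0
    exact lt_of_lt_of_le (by positivity) hS.hL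
  obtain ⟨τ, hτe⟩ : ∃ τ : ℝ, 64 * τ * N = H.card * r := ⟨H.card * r / (64 * N), by field_simp⟩
  have h1 : τ₀ ≤ τ := by
    rw [← hτe] at hτ
    nlinarith
  have hτ0 : 0 < τ := h0.trans_le h1
  have hHr : (0 : ℝ) < H.card * r := by rw [← hτe]; positivity
  have hH : (0 : ℝ) < H.card := (Nat.cast_nonneg _).lt_of_ne fun h => by
    rw [← h, zero_mul] at hHr; exact lt_irrefl _ hHr
  have hr : (0 : ℝ) < r := (pos_iff_pos_of_mul_pos hHr).1 hH
  have hA := good_flats (by exact_mod_cast hr) (fun g x => GoodInc H Z (5 * e + 1) k τ g x) hF.lo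
    (good_count hF hP hn hCB hCL hB hL (hS.mono h1) hY hτe)
  obtain ⟨f, f0, fd, hf⟩ := step_poly s0 H _ (filter_subset (fun g =>
      r ≤ 4 * ((Z g).filter fun x => GoodInc H Z (5 * e + 1) k τ g x).card) H) e
    (r * τ / (16 * k)) (by positivity)
    (fun g hg f hf hne => by
      rw [div_le_iff₀' (by positivity)]
      exact cut hs hF.on hτ0.le (mem_filter.1 hg).1 (mem_filter.1 hg).2
        (by have := hS.hE; omega) f hf hne)
    (by
      have h2 : (5 * (e : ℝ) + 1) ^ 4 ≤ (5 * (e + 1)) ^ 4 := by gcongr; linarith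
      have h3 := mul_lt_mul_of_pos_right hS.hdim (show 0 < H.card * ((e : ℝ) + 1) ^ 4 by positivity)
      rw [div_mul_eq_mul_div, lt_div_iff₀ (by positivity)]
      refine lt_of_mul_lt_mul_right (a := 64 * N) ?_ (by positivity)
      calc 4 * (H.card : ℝ) * (5 * (e : ℝ) + 1) ^ 4 * (16 * k) * (64 * N)
          ≤ 4 * (H.card : ℝ) * (5 * (e + 1)) ^ 4 * (16 * k) * (64 * N) := by gcongr
        _ = 2560000 * k * N * (H.card * ((e : ℝ) + 1) ^ 4) := by ring
        _ < _ := h3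
        _ = r * (H.card * r) * ((e : ℝ) + 1) ^ 5 := by ring
        _ = _ := by rw [← hτe]; ring)
  refine ⟨f, f0, fd, ?_⟩
  set A := H.filter fun g => r ≤ 4 * ((Z g).filter fun x => GoodInc H Z (5 * e + 1) k τ g x).card
  have h4 := card_filter_add_card_filter_not (s := A)
    (fun g => ∃ u β : K, MvPolynomial.eval (Sig s0 g u β) f ≠ 0)
  have h5 : (A.filter fun g => ¬ ∃ u β : K, MvPolynomial.eval (Sig s0 g u β) f ≠ 0).card ≤
      (H.filter fun g => ∀ u β : K, MvPolynomial.eval (Sig s0 g u β) f = 0).card :=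
    card_le_card fun g hg => mem_filter.2 ⟨(mem_filter.1 (mem_filter.1 hg).1).1, by
      simpa using (mem_filter.1 hg).2⟩
  omega

/-- `Y' = {x ∈ Y | f ∘ F_x = 0}`.  A point outside `Y'` lies on at most `E` flats of
`T = {g ∈ H | f ∘ Σ_g = 0}` (`fx_zero`), so `∑_{g ∈ T} |Z g \ Y'| ≤ E N`; Markov: at most `|H| / 4`
flats of `T` have `4 E N < |H| |Z g \ Y'|` (if `E N = 0` none has). -/
theorem next_level {s0 : Fin 3 → K} (hs : Gen s0) {C : ℝ} (hV : VanFor s0 C) {P₁ P₂ : Finset V3}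
    {Y H : Finset Pt} {Z : Pt → Finset Pt} {D n r E : ℕ} {σ N : ℝ} (hF : Fam P₁ P₂ Y H Z r σ)
    (h₁ : ND P₁ D) (h₂ : ND P₂ D) (hn₁ : P₁.card ≤ n) (hn₂ : P₂.card ≤ n) (hE : 1 ≤ E)
    (hY : (Y.card : ℝ) ≤ N) (f : MvPolynomial (Fin 5) K) (hf0 : f ≠ 0) (hf : f.totalDegree ≤ E)
    (hT : H.card ≤ 2 * (H.filter fun g => ∀ u β : K, MvPolynomial.eval (Sig s0 g u β) f = 0).card) :
    ∃ Y' H' : Finset Pt, Y' ⊆ Y ∧ H' ⊆ H ∧ (Y'.card : ℝ) ≤ C * E * (((E : ℝ) + D) ^ 2 + n) ∧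
      H.card ≤ 4 * H'.card ∧ ∀ g ∈ H', (H.card : ℝ) * (Z g \ Y').card ≤ 4 * E * N := by
  set T := H.filter fun g => ∀ u β : K, MvPolynomial.eval (Sig s0 g u β) f = 0 with hTd
  set Y' := Y.filter fun x => ∀ w2 w3 : K, MvPolynomial.eval (secF s0 x w2 w3) f = 0 with hY'
  have hN : 0 ≤ N := (Nat.cast_nonneg _).trans hY
  have h1 : ∑ g ∈ T, (Z g \ Y').card ≤ E * Y.card := by
    have e1 : ∑ g ∈ T, (Z g \ Y').card = ∑ g ∈ T, ((Y \ Y').filter fun x => x ∈ Z g).card :=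
      sum_congr rfl fun g hg => congrArg card (by
        ext x
        simp only [mem_sdiff, mem_filter (s := Y \ Y')]
        exact ⟨fun h => ⟨⟨hF.zsub g (mem_filter.1 hg).1 h.1, h.2⟩, h.1⟩, fun h => ⟨h.2, h.1.2⟩⟩)
    rw [e1]
    simp only [card_filter]
    rw [sum_comm]
    simp only [← card_filter]
    refine (sum_le_card_nsmul _ _ E fun x hx => ?_).trans ?_
    · by_contra hc
      refine (mem_sdiff.1 hx).2 (mem_filter.2 ⟨(mem_sdiff.1 hx).1, fun w2 w3 => ?_⟩)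
      exact fx_zero hs (T.filter fun g => x ∈ Z g)
        (fun g hg => hF.on g (mem_filter.1 (mem_filter.1 hg).1).1 x (mem_filter.1 hg).2) f
        (by omega) (fun g hg => (mem_filter.1 (mem_filter.1 hg).1).2) w2 w3
    · rw [smul_eq_mul, mul_comm]
      exact Nat.mul_le_mul_left _ (card_le_card sdiff_subset)
  have h2 : ∑ g ∈ T, ((Z g \ Y').card : ℝ) ≤ E * N :=
    le_trans (by exact_mod_cast h1) (mul_le_mul_of_nonneg_left hY (Nat.cast_nonneg _))
  refine ⟨Y', T.filter fun g => (H.card : ℝ) * (Z g \ Y').card ≤ 4 * E * N, filter_subset _ _,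
    (filter_subset _ _).trans (filter_subset _ _), ?_, ?_, fun g hg => (mem_filter.1 hg).2⟩
  · refine le_trans ?_ (hV D n E P₁ P₂ h₁ h₂ hn₁ hn₂ hE f hf0 hf)
    exact_mod_cast card_le_card (filter_subset_filter _ hF.sub)
  · have h3 := card_filter_add_card_filter_not (s := T)
      (fun g => (H.card : ℝ) * (Z g \ Y').card ≤ 4 * E * N)
    set B := T.filter fun g => ¬ (H.card : ℝ) * (Z g \ Y').card ≤ 4 * E * N
    have h4 : 4 * B.card ≤ H.card := by
      rcases B.eq_empty_or_nonempty with h | h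
      · simp [h]
      · have h5 := sum_lt_sum_of_nonempty h fun g hg => not_le.1 (mem_filter.1 hg).2
        have h6 : ∑ g ∈ B, ((Z g \ Y').card : ℝ) ≤ E * N :=
          (sum_le_sum_of_subset_of_nonneg (filter_subset _ _) fun _ _ _ =>
            Nat.cast_nonneg _).trans h2
        rw [sum_const, nsmul_eq_mul, ← mul_sum] at h5
        have h7 : (4 * B.card : ℝ) * (E * N) < H.card * (E * N) := by
          refine lt_of_le_of_lt (le_of_eq (by ring)) (h5.trans_le ?_)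
          exact mul_le_mul_of_nonneg_left h6 (Nat.cast_nonneg _)
        exact_mod_cast (lt_of_mul_lt_mul_right h7 (by positivity)).le
    omega

/-- Each flat contains at least `r² / 8` ordered pairs of distinct points; the flats through a
pair `x ≠ y` have `s` on one line (`On.cross_zero`, `par_of_cross`, `On.eq_of_bc`). -/
theorem pairs_bound {P₁ P₂ : Finset V3} {Y H : Finset Pt} {Z : Pt → Finset Pt} {r : ℕ} {σ : ℝ}
    (hF : Fam P₁ P₂ Y H Z r σ) (hr : 4 ≤ r) (hσ : 0 ≤ σ) :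
    (H.card : ℝ) * (r : ℝ) ^ 2 ≤ 8 * σ * (Y.card : ℝ) ^ 2 := by
  have h1 : ∀ g ∈ H, (r : ℝ) ^ 2 ≤
      8 * (Y.offDiag.filter fun q => q.1 ∈ Z g ∧ q.2 ∈ Z g).card := fun g hg => by
    have e1 : (Y.offDiag.filter fun q => q.1 ∈ Z g ∧ q.2 ∈ Z g) = (Z g).offDiag := by
      ext q
      simp only [mem_filter, mem_offDiag]
      exact ⟨fun h => ⟨h.2.1, h.2.2, h.1.2.2⟩,
        fun h => ⟨⟨hF.zsub g hg h.1, hF.zsub g hg h.2.1, h.2.2⟩, h.1, h.2.1⟩⟩
    have a1 := hF.lo g hg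
    have a2 : r ^ 2 ≤ 8 * ((Z g).card * (Z g).card - (Z g).card) := by
      obtain ⟨z, hz⟩ : ∃ z, (Z g).card = z + 2 := ⟨(Z g).card - 2, by omega⟩
      rw [hz] at a1 ⊢
      rw [show (z + 2) * (z + 2) - (z + 2) = (z + 2) * (z + 1) by
        rw [Nat.sub_eq_iff_eq_add (by nlinarith)]; ring]
      nlinarith
    rw [e1, offDiag_card]
    exact_mod_cast a2
  have h2 : ∀ q ∈ Y.offDiag, ((H.filter fun g => q.1 ∈ Z g ∧ q.2 ∈ Z g).card : ℝ) ≤ σ := by
    intro q hq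
    rcases (H.filter fun g => q.1 ∈ Z g ∧ q.2 ∈ Z g).eq_empty_or_nonempty with h | ⟨g, hg⟩
    · simpa [h] using hσ
    · obtain ⟨g1, g2, g3⟩ := mem_filter.1 hg
      have hv : bc q.2 - bc q.1 ≠ 0 := fun h => (mem_offDiag.1 hq).2.2
        ((hF.on g g1 _ g2).eq_of_bc (hF.on g g1 _ g3) (sub_eq_zero.1 h).symm)
      refine le_trans ?_ (hF.pen q.1 _ (isLine_ln g.1 hv))
      refine Nat.cast_le.2 (card_le_card fun h hh => ?_)
      obtain ⟨k1, k2, k3⟩ := mem_filter.1 hh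
      have := On.cross_zero (hF.on g g1 _ g2) (hF.on h k1 _ k2) (hF.on g g1 _ g3) (hF.on h k1 _ k3)
      obtain ⟨c, hc⟩ := par_of_cross hv (by rw [← cross_anticomm, this, neg_zero])
      exact mem_filter.2 ⟨k1, k2, c, by rw [← hc]; abel⟩
  have h3 : ∑ g ∈ H, (Y.offDiag.filter fun q => q.1 ∈ Z g ∧ q.2 ∈ Z g).card =
      ∑ q ∈ Y.offDiag, (H.filter fun g => q.1 ∈ Z g ∧ q.2 ∈ Z g).card := by
    simp only [card_filter]
    exact sum_comm
  have h4 : (Y.offDiag.card : ℝ) ≤ (Y.card : ℝ) ^ 2 := by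
    rw [offDiag_card, sq]
    exact_mod_cast Nat.sub_le _ _
  calc (H.card : ℝ) * (r : ℝ) ^ 2 = ∑ g ∈ H, (r : ℝ) ^ 2 := by simp
    _ ≤ _ := sum_le_sum h1
    _ = 8 * ∑ q ∈ Y.offDiag, ((H.filter fun g => q.1 ∈ Z g ∧ q.2 ∈ Z g).card : ℝ) := by
      rw [← mul_sum]; exact_mod_cast congrArg (8 * ·) h3
    _ ≤ 8 * (Y.offDiag.card * σ) := by
      gcongr
      simpa using sum_le_card_nsmul _ _ σ h2
    _ ≤ 8 * ((Y.card : ℝ) ^ 2 * σ) := by gcongr
    _ = _ := by ring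

end Crest.Agent.R65.D3
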